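import Vale.Agent.P166.Nested.Gauss

/-!
The Gaussian integral of the exponential of a quadratic, with the determinant made explicit
(P166, formula side).
-/

open MeasureTheory ProbabilityTheory Matrix Finset

namespace Vale.Agent.P166.Formula

open Vale.Agent.P166

variable {n : ℕ}

theorem gauss_quad_one {a : ℝ} (ha : 0 < 1 + a) (β : ℝ) :
    Integrable (fun x => Real.exp (β * x - a * x ^ 2 / 2)) (gaussianReal 0 1) ∧
    ∫ x, Real.exp (β * x - a * x ^ 2 / 2) ∂gaussianReal 0 1
      = (√(1 + a))⁻¹ * Real.exp (β ^ 2 / (2 * (1 + a))) := by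
  set m := β / (1 + a) with hm
  have e : ∀ x : ℝ, gaussianPDFReal 0 1 x * Real.exp (β * x - a * x ^ 2 / 2)
      = (√(2 * Real.pi))⁻¹ * Real.exp (β ^ 2 / (2 * (1 + a))) *
        Real.exp (-((1 + a) / 2) * (x - m) ^ 2) := fun x => by
    simp only [gaussianPDFReal_def, NNReal.coe_one, mul_one, sub_zero, mul_assoc, ← Real.exp_add]
    congr 2
    rw [hm]; field_simp; ring
  have hI : Integrable (fun x : ℝ => Real.exp (-((1 + a) / 2) * (x - m) ^ 2)) volume :=
    (integrable_exp_neg_mul_sq (by linarith)).comp_sub_right m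
  constructor
  · rw [gaussianReal_of_var_ne_zero 0 one_ne_zero, integrable_withDensity_iff_integrable_smul'
      (measurable_gaussianPDF 0 1) (ae_of_all _ fun x => gaussianPDF_lt_top)]
    simp only [toReal_gaussianPDF, smul_eq_mul, e]
    exact hI.const_mul _
  · rw [integral_gaussianReal_eq_integral_smul one_ne_zero]
    simp only [smul_eq_mul, e]
    rw [integral_const_mul, integral_sub_right_eq_self (fun x : ℝ => Real.exp (-((1 + a) / 2) * x ^ 2)) m,
      integral_gaussian, mul_assoc, mul_comm (Real.exp _), ← mul_assoc, ← Real.sqrt_inv,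
      ← Real.sqrt_mul (by positivity), ← Real.sqrt_inv]
    congr 2
    field_simp

/-- Diagonalisation of a positive matrix by an orthogonal one. -/
theorem exists_diag {M : Matrix (Fin n) (Fin n) ℝ} (hM : M.PosDef) :
    ∃ (U : Matrix (Fin n) (Fin n) ℝ) (x : Fin n → ℝ), U.transpose * U = 1 ∧ U * U.transpose = 1 ∧
      M = U * diagonal x * U.transpose ∧ (∀ j, 0 < x j) ∧ M.det = ∏ j, x j := by
  set h := hM.isHermitian
  set U : Matrix (Fin n) (Fin n) ℝ := (h.eigenvectorUnitary : Matrix (Fin n) (Fin n) ℝ) with hU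
  have hUU : U.transpose * U = 1 := by
    have := Unitary.coe_star_mul_self h.eigenvectorUnitary
    simpa [hU, star_eq_conjTranspose, conjTranspose_eq_transpose_of_trivial] using this
  refine ⟨U, h.eigenvalues, hUU, mul_eq_one_comm.1 hUU, ?_, hM.eigenvalues_pos, ?_⟩
  · conv_lhs => rw [h.spectral_theorem]
    simp [hU, Unitary.conjStarAlgAut_apply, star_eq_conjTranspose,
      conjTranspose_eq_transpose_of_trivial]
  · simpa using h.det_eq_prod_eigenvalues

/-- The Gaussian integral of `exp (b·g - g·(M-1)g/2)` for a positive matrix `M`. -/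
theorem gauss_quad {M : Matrix (Fin n) (Fin n) ℝ} (hM : M.PosDef) (b : Fin n → ℝ) :
    Integrable (fun g => Real.exp (b ⬝ᵥ g - g ⬝ᵥ (M - 1) *ᵥ g / 2)) (gs n) ∧
    ∫ g, Real.exp (b ⬝ᵥ g - g ⬝ᵥ (M - 1) *ᵥ g / 2) ∂gs n
      = (√M.det)⁻¹ * Real.exp (b ⬝ᵥ M⁻¹ *ᵥ b / 2) := by
  obtain ⟨U, x, hUU, hUU', hd, hx, hdet⟩ := exists_diag hM
  have hmp := Nested.measurePreserving_orth (Q := U) hUU
  set β := U.transpose *ᵥ b
  have key : ∀ y : Fin n → ℝ, Real.exp (b ⬝ᵥ (U *ᵥ y) - (U *ᵥ y) ⬝ᵥ (M - 1) *ᵥ (U *ᵥ y) / 2)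
      = ∏ j, Real.exp (β j * y j - (x j - 1) * y j ^ 2 / 2) := fun y => by
    rw [← Real.exp_sum]
    congr 1
    have e1 : b ⬝ᵥ (U *ᵥ y) = β ⬝ᵥ y := by
      rw [Matrix.dotProduct_mulVec, ← Matrix.mulVec_transpose]
    have e2 : (U *ᵥ y) ⬝ᵥ (M - 1) *ᵥ (U *ᵥ y) = ∑ j, (x j - 1) * y j ^ 2 := by
      have eU : U.transpose * (M - 1) * U = diagonal fun j => x j - 1 := by
        rw [Matrix.mul_sub, Matrix.sub_mul, Matrix.mul_one, hUU, hd]
        simp only [Matrix.mul_assoc]
        rw [hUU, Matrix.mul_one, ← Matrix.mul_assoc, hUU, Matrix.one_mul, ← Matrix.diagonal_one,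
          Matrix.diagonal_sub]
      rw [dotProduct_comm, Matrix.dotProduct_mulVec, ← Matrix.mulVec_transpose, dotProduct_comm,
        Matrix.mulVec_mulVec, Matrix.mulVec_mulVec, eU]
      simp only [dotProduct, Matrix.mulVec_diagonal]
      exact Finset.sum_congr rfl fun j _ => by ring
    rw [e1, e2, Finset.sum_sub_distrib, Finset.sum_div]
    rfl
  have hx' : ∀ j, 0 < 1 + (x j - 1) := fun j => by simpa using hx j
  have hI : Integrable (fun y : Fin n → ℝ => ∏ j, Real.exp (β j * y j - (x j - 1) * y j ^ 2 / 2))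
      (gs n) := Integrable.fintype_prod fun j => (gauss_quad_one (hx' j) (β j)).1
  have hF : AEStronglyMeasurable (fun g : Fin n → ℝ => Real.exp (b ⬝ᵥ g - g ⬝ᵥ (M - 1) *ᵥ g / 2))
      (gs n) := by
    refine Continuous.aestronglyMeasurable ?_
    simp only [dotProduct, Matrix.mulVec]
    fun_prop
  refine ⟨(hmp.integrable_comp hF).1 (hI.congr (ae_of_all _ fun y => (key y).symm)), ?_⟩
  conv_lhs => rw [← hmp.map_eq]
  rw [integral_map hmp.measurable.aemeasurable (by rw [hmp.map_eq]; exact hF)]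
  simp only [key]
  rw [gs, integral_fintype_prod_eq_prod (f := fun j (t : ℝ) =>
    Real.exp (β j * t - (x j - 1) * t ^ 2 / 2))]
  simp only [(gauss_quad_one (hx' _) (β _)).2, add_sub_cancel]
  rw [Finset.prod_mul_distrib, ← Real.exp_sum, hdet, Finset.prod_inv_distrib,
    Real.sqrt_prod _ (fun j _ => (hx j).le)]
  congr 2
  have hinv : M⁻¹ = U * diagonal (fun j => (x j)⁻¹) * U.transpose := by
    refine Matrix.inv_eq_right_inv ?_
    rw [hd]
    simp only [Matrix.mul_assoc]
    rw [← Matrix.mul_assoc U.transpose U, hUU, Matrix.one_mul, ← Matrix.mul_assoc (diagonal x),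
      Matrix.diagonal_mul_diagonal]
    simp [fun j => mul_inv_cancel₀ (hx j).ne', hUU']
  rw [hinv, ← Matrix.mulVec_mulVec, ← Matrix.mulVec_mulVec, Matrix.dotProduct_mulVec,
    ← Matrix.mulVec_transpose]
  simp only [dotProduct, Matrix.mulVec_diagonal, Finset.sum_div]
  refine Finset.sum_congr rfl fun j _ => ?_
  have := (hx j).ne'
  field_simp
  rfl

end Vale.Agent.P166.Formula
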