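import Vale.Agent.P150.Fast.LogDetMat

/-!
Convexity facts for inverses and logarithms of determinants of positive matrices, in tangent
form (P166, formula side).
-/

open Real Finset Matrix

namespace Vale.Agent.P166.Formula

variable {n : ℕ}

theorem exists_transpose_mul_self {P : Matrix (Fin n) (Fin n) ℝ} (hP : P.PosSemidef) :
    ∃ R : Matrix (Fin n) (Fin n) ℝ, P = R.transpose * R := by
  open scoped MatrixOrder in
  obtain ⟨R, hR⟩ := CStarAlgebra.nonneg_iff_eq_star_mul_self.mp hP.nonneg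
  exact ⟨R, by rw [hR, star_eq_conjTranspose, conjTranspose_eq_transpose_of_trivial]⟩

theorem trace_mul_nonneg {P Q : Matrix (Fin n) (Fin n) ℝ} (hP : P.PosSemidef)
    (hQ : Q.PosSemidef) : 0 ≤ (P * Q).trace := by
  obtain ⟨R, rfl⟩ := exists_transpose_mul_self hP
  have h := (hQ.mul_mul_conjTranspose_same R).trace_nonneg
  rw [conjTranspose_eq_transpose_of_trivial, Matrix.trace_mul_comm, ← Matrix.mul_assoc] at h
  exact h

theorem inv_tangent_eq {A C : Matrix (Fin n) (Fin n) ℝ} (hA : A.PosDef) (hC : C.PosDef) :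
    C⁻¹ - A⁻¹ + A⁻¹ * (C - A) * A⁻¹ = A⁻¹ * (C - A) * C⁻¹ * (C - A) * A⁻¹ := by
  have a1 := Matrix.nonsing_inv_mul _ (isUnit_iff_ne_zero.2 hA.det_pos.ne')
  have a2 := Matrix.mul_nonsing_inv _ (isUnit_iff_ne_zero.2 hA.det_pos.ne')
  have c1 := Matrix.nonsing_inv_mul _ (isUnit_iff_ne_zero.2 hC.det_pos.ne')
  have c2 := Matrix.mul_nonsing_inv _ (isUnit_iff_ne_zero.2 hC.det_pos.ne')
  have e : A⁻¹ * (C - A) * C⁻¹ = A⁻¹ - C⁻¹ := by
    simp only [Matrix.mul_sub, Matrix.sub_mul, Matrix.mul_assoc, c2, Matrix.mul_one]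
    rw [← Matrix.mul_assoc A⁻¹ A, a1, Matrix.one_mul]
  rw [e]
  simp only [Matrix.mul_sub, Matrix.sub_mul, Matrix.mul_assoc, a2, Matrix.mul_one]
  simp only [← Matrix.mul_assoc, c1, Matrix.one_mul]
  abel

theorem inv_tangent {A C : Matrix (Fin n) (Fin n) ℝ} (hA : A.PosDef) (hC : C.PosDef) :
    (C⁻¹ - A⁻¹ + A⁻¹ * (C - A) * A⁻¹).PosSemidef := by
  have hs : (C - A).IsSymm := by
    have h1 := hA.isHermitian.eq
    have h2 := hC.isHermitian.eq
    rw [conjTranspose_eq_transpose_of_trivial] at h1 h2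
    unfold Matrix.IsSymm
    rw [transpose_sub, h1, h2]
  have hi : A⁻¹.transpose = A⁻¹ := by
    have h1 := hA.inv.isHermitian.eq
    rwa [conjTranspose_eq_transpose_of_trivial] at h1
  have h := hC.inv.posSemidef.mul_mul_conjTranspose_same (A⁻¹ * (C - A))
  rw [conjTranspose_eq_transpose_of_trivial, transpose_mul, hs.eq, hi, ← Matrix.mul_assoc] at h
  rw [inv_tangent_eq hA hC]
  exact h

theorem trace_inv_tangent {p A C : Matrix (Fin n) (Fin n) ℝ} (hp : p.PosSemidef) (hA : A.PosDef)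
    (hC : C.PosDef) :
    (p * A⁻¹).trace - (p * (A⁻¹ * (C - A) * A⁻¹)).trace ≤ (p * C⁻¹).trace := by
  have h := trace_mul_nonneg hp (inv_tangent hA hC)
  simp only [Matrix.mul_add, Matrix.mul_sub, Matrix.trace_add, Matrix.trace_sub] at h ⊢
  linarith

section Gap

variable {A B R : Matrix (Fin n) (Fin n) ℝ}

theorem woodbury (hA : A.PosDef) (hB : B.PosDef) (hR : A = B + R.transpose * R) :
    (1 - R * A⁻¹ * R.transpose) * (1 + R * B⁻¹ * R.transpose) = 1 := by
  have a1 := Matrix.nonsing_inv_mul _ (isUnit_iff_ne_zero.2 hA.det_pos.ne')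
  have b2 := Matrix.mul_nonsing_inv _ (isUnit_iff_ne_zero.2 hB.det_pos.ne')
  have hP : R.transpose * R = A - B := by rw [hR]; abel
  have e : R * A⁻¹ * R.transpose * (R * B⁻¹ * R.transpose)
      = R * B⁻¹ * R.transpose - R * A⁻¹ * R.transpose := by
    calc R * A⁻¹ * R.transpose * (R * B⁻¹ * R.transpose)
        = R * (A⁻¹ * (R.transpose * R) * B⁻¹) * R.transpose := by simp only [Matrix.mul_assoc]
      _ = R * (B⁻¹ - A⁻¹) * R.transpose := by
          rw [hP, Matrix.mul_sub, Matrix.sub_mul, a1, Matrix.one_mul, Matrix.mul_assoc A⁻¹ B, b2,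
            Matrix.mul_one]
      _ = _ := by rw [Matrix.mul_sub, Matrix.sub_mul]
  rw [Matrix.sub_mul, Matrix.one_mul, Matrix.mul_add, Matrix.mul_one, e]
  abel

theorem schur_posDef (hA : A.PosDef) (hB : B.PosDef) (hR : A = B + R.transpose * R) :
    (1 - R * A⁻¹ * R.transpose).PosDef ∧
      (1 - R * A⁻¹ * R.transpose)⁻¹ = 1 + R * B⁻¹ * R.transpose := by
  have hM : (1 + R * B⁻¹ * R.transpose).PosDef := by
    refine Matrix.PosDef.one.add_posSemidef ?_
    have h := hB.inv.posSemidef.mul_mul_conjTranspose_same R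
    rwa [conjTranspose_eq_transpose_of_trivial] at h
  have w := woodbury hA hB hR
  refine ⟨?_, Matrix.inv_eq_right_inv w⟩
  rw [← Matrix.inv_eq_left_inv w]
  exact hM.inv

theorem det_gap (hA : A.PosDef) (hR : A = B + R.transpose * R) :
    B.det = A.det * (1 - R * A⁻¹ * R.transpose).det := by
  have a2 := Matrix.mul_nonsing_inv _ (isUnit_iff_ne_zero.2 hA.det_pos.ne')
  have e : B = A * (1 - A⁻¹ * R.transpose * R) := by
    rw [Matrix.mul_sub, Matrix.mul_one, ← Matrix.mul_assoc, ← Matrix.mul_assoc, a2, Matrix.one_mul]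
    rw [hR]
    abel
  conv_lhs => rw [e, det_mul, Matrix.det_one_sub_mul_comm, ← Matrix.mul_assoc]

end Gap

/-- The gap of logarithms of determinants at a fixed positive difference is convex. -/
theorem logdet_gap_tangent {A B P δ : Matrix (Fin n) (Fin n) ℝ} (hA : A.PosDef) (hB : B.PosDef)
    (hP : P.PosSemidef) (hAB : A = B + P) (hA' : (A + δ).PosDef) (hB' : (B + δ).PosDef) :
    log A.det - log B.det + ((A⁻¹ - B⁻¹) * δ).trace ≤ log (A + δ).det - log (B + δ).det := by
  obtain ⟨R, hR⟩ := exists_transpose_mul_self hP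
  have h0 : A = B + R.transpose * R := by rw [hAB, hR]
  have h1 : A + δ = B + δ + R.transpose * R := by rw [h0]; abel
  obtain ⟨hS, hSi⟩ := schur_posDef hA hB h0
  obtain ⟨hS', -⟩ := schur_posDef hA' hB' h1
  rw [det_gap hA h0, det_gap hA' h1, log_mul hA.det_pos.ne' hS.det_pos.ne',
    log_mul hA'.det_pos.ne' hS'.det_pos.ne']
  have ht := P150.Fast.logdet_tangent hS' hS
  rw [hSi] at ht
  set M := 1 + R * B⁻¹ * R.transpose with hMdef
  have hM : M.PosSemidef := by
    refine Matrix.PosSemidef.one.add ?_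
    have h := hB.inv.posSemidef.mul_mul_conjTranspose_same R
    rwa [conjTranspose_eq_transpose_of_trivial] at h
  have e : (1 - R * (A + δ)⁻¹ * R.transpose) - (1 - R * A⁻¹ * R.transpose)
      = R * (A⁻¹ * δ * A⁻¹) * R.transpose
        - R * ((A + δ)⁻¹ - A⁻¹ + A⁻¹ * (A + δ - A) * A⁻¹) * R.transpose := by
    simp only [add_sub_cancel_left, Matrix.mul_add, Matrix.mul_sub, Matrix.add_mul, Matrix.sub_mul]
    abel
  have hQ : 0 ≤ (M * (R * ((A + δ)⁻¹ - A⁻¹ + A⁻¹ * (A + δ - A) * A⁻¹) * R.transpose)).trace := by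
    refine trace_mul_nonneg hM ?_
    have h := (inv_tangent hA hA').mul_mul_conjTranspose_same R
    rwa [conjTranspose_eq_transpose_of_trivial] at h
  have hmain : (M * (R * (A⁻¹ * δ * A⁻¹) * R.transpose)).trace = ((B⁻¹ - A⁻¹) * δ).trace := by
    have a1 := Matrix.nonsing_inv_mul _ (isUnit_iff_ne_zero.2 hA.det_pos.ne')
    have a2 := Matrix.mul_nonsing_inv _ (isUnit_iff_ne_zero.2 hA.det_pos.ne')
    have b1 := Matrix.nonsing_inv_mul _ (isUnit_iff_ne_zero.2 hB.det_pos.ne')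
    have b2 := Matrix.mul_nonsing_inv _ (isUnit_iff_ne_zero.2 hB.det_pos.ne')
    have e1 : R.transpose * M * R = P * B⁻¹ * A := by
      rw [hMdef, Matrix.mul_add, Matrix.mul_one, Matrix.add_mul]
      simp only [← Matrix.mul_assoc]
      rw [← hR, Matrix.mul_assoc (P * B⁻¹) R.transpose R, ← hR, hAB, Matrix.mul_add,
        Matrix.mul_assoc P B⁻¹ B, b1, Matrix.mul_one]
    have e2 : A⁻¹ * P * B⁻¹ = B⁻¹ - A⁻¹ := by
      have hP' : P = A - B := by rw [hAB]; abel
      rw [hP', Matrix.mul_sub, Matrix.sub_mul, a1, Matrix.one_mul, Matrix.mul_assoc, b2,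
        Matrix.mul_one]
    calc (M * (R * (A⁻¹ * δ * A⁻¹) * R.transpose)).trace
        = ((M * R) * (A⁻¹ * δ * A⁻¹) * R.transpose).trace := by simp only [Matrix.mul_assoc]
      _ = (R.transpose * M * R * (A⁻¹ * δ * A⁻¹)).trace := by
          rw [Matrix.trace_mul_cycle, Matrix.mul_assoc R.transpose M R]
      _ = (P * B⁻¹ * (δ * A⁻¹)).trace := by
          rw [e1]
          simp only [← Matrix.mul_assoc]
          rw [Matrix.mul_assoc (P * B⁻¹) A A⁻¹, a2, Matrix.mul_one]
      _ = (A⁻¹ * P * B⁻¹ * δ).trace := by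
          rw [← Matrix.mul_assoc, Matrix.trace_mul_comm]
          simp only [Matrix.mul_assoc]
      _ = _ := by rw [e2]
  rw [e, Matrix.mul_sub, Matrix.trace_sub, hmain] at ht
  have e3 : ((A⁻¹ - B⁻¹) * δ).trace = -((B⁻¹ - A⁻¹) * δ).trace := by
    rw [← Matrix.trace_neg, ← Matrix.neg_mul, neg_sub]
  rw [e3]
  linarith

/-- The inverse is antitone, in the weak order of positive semidefinite differences. -/
theorem inv_antitone {A B P : Matrix (Fin n) (Fin n) ℝ} (hA : A.PosDef) (hB : B.PosDef)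
    (hP : P.PosSemidef) (hAB : A = B + P) : (B⁻¹ - A⁻¹).PosSemidef := by
  obtain ⟨R, hR⟩ := exists_transpose_mul_self hP
  have a2 := Matrix.mul_nonsing_inv _ (isUnit_iff_ne_zero.2 hA.det_pos.ne')
  have hsymm : A⁻¹.transpose = A⁻¹ := by
    have h1 := hA.inv.isHermitian.eq
    rwa [conjTranspose_eq_transpose_of_trivial] at h1
  obtain ⟨hS, hSi⟩ := schur_posDef hA hB (by rw [hAB, hR])
  have h2 : (1 + R * B⁻¹ * R.transpose).PosSemidef := hSi ▸ hS.inv.posSemidef
  have h3 := h2.mul_mul_conjTranspose_same (A⁻¹ * R.transpose)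
  rw [conjTranspose_eq_transpose_of_trivial, transpose_mul, transpose_transpose, hsymm] at h3
  convert h3 using 1
  have b2 := Matrix.mul_nonsing_inv _ (isUnit_iff_ne_zero.2 hB.det_pos.ne')
  have b1 := Matrix.nonsing_inv_mul _ (isUnit_iff_ne_zero.2 hB.det_pos.ne')
  have a1 := Matrix.nonsing_inv_mul _ (isUnit_iff_ne_zero.2 hA.det_pos.ne')
  have hP' : R.transpose * R = A - B := by rw [← hR, hAB]; abel
  calc B⁻¹ - A⁻¹ = A⁻¹ * (A - B + (A - B) * B⁻¹ * (A - B)) * A⁻¹ := by
        simp only [Matrix.mul_add, Matrix.add_mul, Matrix.mul_sub, Matrix.sub_mul,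
          Matrix.mul_assoc, b1, b2, a2, Matrix.mul_one]
        simp only [← Matrix.mul_assoc, a1, Matrix.one_mul]
        abel
    _ = _ := by
        rw [← hP']
        simp only [Matrix.mul_add, Matrix.add_mul, Matrix.mul_one, Matrix.mul_assoc]

end Vale.Agent.P166.Formula
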