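import Vale.Agent.P157.Casc.Defs
import Vale.Agent.P166.Formula.LogDet
import Vale.Agent.P166.Formula.GaussQuad

/-!
The cascade recursion of a Gaussian spin in closed form (P166, formula side).
-/

open MeasureTheory ProbabilityTheory Matrix Finset Real

namespace Vale.Agent.P166.Formula

open Vale.Agent.P166
open Vale.Agent.P157.Casc (casc gaus)

variable {n : ℕ}

theorem gaus_eq_gs : gaus (Fin n) = gs n := rfl

/-- One step of the recursion. -/
theorem gauss_step {A B S : Matrix (Fin n) (Fin n) ℝ} {m : ℝ} (hm : 0 < m) (hA : A.PosDef)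
    (hB : B.PosDef) (hAB : A = B + m • (S * S.transpose)) (h : Fin n → ℝ) (c : ℝ) :
    m⁻¹ * log (∫ x, exp (m * ((h + S *ᵥ x) ⬝ᵥ A⁻¹ *ᵥ (h + S *ᵥ x) / 2 + c)) ∂gs n)
      = h ⬝ᵥ B⁻¹ *ᵥ h / 2 + c + (2 * m)⁻¹ * (log A.det - log B.det) := by
  set R : Matrix (Fin n) (Fin n) ℝ := √m • S.transpose with hRdef
  have hR : A = B + R.transpose * R := by
    rw [hAB, hRdef, transpose_smul, transpose_transpose, Matrix.smul_mul, Matrix.mul_smul,
      smul_smul, mul_self_sqrt hm.le]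
  obtain ⟨hM, hMi⟩ := schur_posDef hA hB hR
  have hAs : A⁻¹.transpose = A⁻¹ := by
    have h1 := hA.inv.isHermitian.eq
    rwa [conjTranspose_eq_transpose_of_trivial] at h1
  set M := 1 - R * A⁻¹ * R.transpose with hMdef
  obtain ⟨-, hval⟩ := gauss_quad hM (√m • (R *ᵥ (A⁻¹ *ᵥ h)))
  have key : ∀ x : Fin n → ℝ, exp (m * ((h + S *ᵥ x) ⬝ᵥ A⁻¹ *ᵥ (h + S *ᵥ x) / 2 + c))
      = exp (m * (h ⬝ᵥ A⁻¹ *ᵥ h / 2 + c)) *
        exp ((√m • (R *ᵥ (A⁻¹ *ᵥ h))) ⬝ᵥ x - x ⬝ᵥ (M - 1) *ᵥ x / 2) := fun x => by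
    rw [← exp_add]
    congr 1
    have e1 : (√m • (R *ᵥ (A⁻¹ *ᵥ h))) ⬝ᵥ x = m * ((S *ᵥ x) ⬝ᵥ A⁻¹ *ᵥ h) := by
      rw [hRdef, Matrix.smul_mulVec, smul_smul, mul_self_sqrt hm.le, smul_dotProduct, smul_eq_mul,
        dotProduct_comm, Matrix.dotProduct_mulVec, Matrix.vecMul_transpose]
    have e2 : x ⬝ᵥ (M - 1) *ᵥ x = -(m * ((S *ᵥ x) ⬝ᵥ A⁻¹ *ᵥ (S *ᵥ x))) := by
      rw [hMdef, sub_sub_cancel_left, hRdef, transpose_smul, transpose_transpose, Matrix.smul_mul,
        Matrix.smul_mul, Matrix.mul_smul, smul_smul, mul_self_sqrt hm.le, Matrix.neg_mulVec,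
        dotProduct_neg, Matrix.smul_mulVec, dotProduct_smul, smul_eq_mul, ← Matrix.mulVec_mulVec,
        ← Matrix.mulVec_mulVec, Matrix.dotProduct_mulVec, Matrix.vecMul_transpose]
    have e3 : h ⬝ᵥ A⁻¹ *ᵥ (S *ᵥ x) = (S *ᵥ x) ⬝ᵥ A⁻¹ *ᵥ h := by
      rw [Matrix.dotProduct_mulVec, ← Matrix.mulVec_transpose, hAs, dotProduct_comm]
    rw [e1, e2, Matrix.mulVec_add, dotProduct_add, add_dotProduct, add_dotProduct, e3]
    ring
  simp only [key]
  rw [integral_const_mul, hval, log_mul (exp_pos _).ne' (by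
      have := hM.det_pos; positivity), log_exp,
    log_mul (by have := hM.det_pos; positivity) (exp_pos _).ne', log_exp, log_inv,
    log_sqrt hM.det_pos.le]
  have hdet : log B.det = log A.det + log M.det := by
    rw [det_gap hA hR, log_mul hA.det_pos.ne' hM.det_pos.ne']
  have hq : (√m • (R *ᵥ (A⁻¹ *ᵥ h))) ⬝ᵥ M⁻¹ *ᵥ (√m • (R *ᵥ (A⁻¹ *ᵥ h)))
      = m * (h ⬝ᵥ B⁻¹ *ᵥ h) - m * (h ⬝ᵥ A⁻¹ *ᵥ h) := by
    have a1 := Matrix.nonsing_inv_mul _ (isUnit_iff_ne_zero.2 hA.det_pos.ne')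
    have a2 := Matrix.mul_nonsing_inv _ (isUnit_iff_ne_zero.2 hA.det_pos.ne')
    have b1 := Matrix.nonsing_inv_mul _ (isUnit_iff_ne_zero.2 hB.det_pos.ne')
    have b2 := Matrix.mul_nonsing_inv _ (isUnit_iff_ne_zero.2 hB.det_pos.ne')
    have hP : R.transpose * R = A - B := by rw [hR]; abel
    have e : A⁻¹ * R.transpose * M⁻¹ * R * A⁻¹ = B⁻¹ - A⁻¹ := by
      rw [hMi]
      simp only [Matrix.mul_add, Matrix.add_mul, Matrix.mul_one, Matrix.mul_assoc]
      rw [← Matrix.mul_assoc R.transpose R (B⁻¹ * _), ← Matrix.mul_assoc R.transpose R A⁻¹, hP]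
      simp only [Matrix.mul_sub, Matrix.sub_mul, a2, b2, Matrix.mul_one]
      simp only [← Matrix.mul_assoc, a1, b1, Matrix.one_mul]
      abel
    rw [smul_dotProduct, Matrix.mulVec_smul, dotProduct_smul, smul_eq_mul, smul_eq_mul, ← mul_assoc,
      mul_self_sqrt hm.le, ← mul_sub]
    congr 1
    rw [← dotProduct_sub, ← Matrix.sub_mulVec, ← e]
    simp only [← Matrix.mulVec_mulVec]
    conv_rhs => rw [Matrix.dotProduct_mulVec, ← Matrix.mulVec_transpose, hAs,
      Matrix.dotProduct_mulVec, Matrix.vecMul_transpose]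
  rw [hq]
  field_simp
  linarith [hdet]

/-- The recursion with a Gaussian quadratic leaf. -/
theorem casc_quad : ∀ (K : ℕ) (m : Fin K → ℝ) (Λ : Fin (K + 1) → Matrix (Fin n) (Fin n) ℝ)
    (S : Fin K → Matrix (Fin n) (Fin n) ℝ),
    (∀ l, 0 < m l) → (∀ l, (Λ l).PosDef) →
    (∀ l : Fin K, Λ l.succ = Λ l.castSucc + m l • (S l * (S l).transpose)) →
    ∀ (h : Fin n → ℝ) (c : ℝ),
    casc (gaus (Fin n)) K m (fun y => (h + ∑ l, S l *ᵥ y l) ⬝ᵥ
        (Λ (Fin.last K))⁻¹ *ᵥ (h + ∑ l, S l *ᵥ y l) / 2 + c)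
      = h ⬝ᵥ (Λ 0)⁻¹ *ᵥ h / 2 + c
        + ∑ l : Fin K, (2 * m l)⁻¹ * (log (Λ l.succ).det - log (Λ l.castSucc).det) := by
  intro K
  induction K with
  | zero => intro m Λ S _ _ _ h c; simp [casc]
  | succ K ih =>
    intro m Λ S hm hΛ hstep h c
    have hrec : ∀ x : Fin n → ℝ, casc (gaus (Fin n)) K (fun l => m l.succ) (fun y =>
        (h + ∑ l, S l *ᵥ (Fin.cons x y : Fin (K + 1) → Fin n → ℝ) l) ⬝ᵥ (Λ (Fin.last (K + 1)))⁻¹ *ᵥ
          (h + ∑ l, S l *ᵥ (Fin.cons x y : Fin (K + 1) → Fin n → ℝ) l) / 2 + c)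
        = (h + S 0 *ᵥ x) ⬝ᵥ (Λ 1)⁻¹ *ᵥ (h + S 0 *ᵥ x) / 2 + (c
          + ∑ l : Fin K, (2 * m l.succ)⁻¹
              * (log (Λ l.succ.succ).det - log (Λ l.succ.castSucc).det)) := fun x => by
      have := ih (fun l => m l.succ) (fun l => Λ l.succ) (fun l => S l.succ) (fun l => hm _)
        (fun l => hΛ _) (fun l => hstep l.succ)
        (h + S 0 *ᵥ x) c
      simp only [Fin.succ_zero_eq_one, Fin.succ_last] at this
      simp only [Fin.sum_univ_succ, Fin.cons_zero, Fin.cons_succ, ← add_assoc]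
      rw [this]
      simp only [← Fin.succ_castSucc, add_assoc]
    simp only [casc, hrec]
    rw [gaus_eq_gs, gauss_step (hm 0) (hΛ 1) (hΛ 0) (by simpa using hstep 0)]
    simp only [Fin.sum_univ_succ, Fin.succ_zero_eq_one, Fin.castSucc_zero]
    ring

/-- The second moments of a standard Gaussian vector. -/
theorem integral_dot_quad (A : Matrix (Fin n) (Fin n) ℝ) :
    ∫ z, z ⬝ᵥ A *ᵥ z ∂gs n = A.trace := by
  have hint : ∀ i j : Fin n, Integrable (fun z : Fin n → ℝ => z i * z j) (gs n) := fun i j => by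
    have h := fun k : Fin n => (measurePreserving_eval (μ := fun _ : Fin n => gaussianReal 0 1) k)
    have hL : ∀ k, MemLp (fun z : Fin n → ℝ => z k) 2 (gs n) := fun k => by
      have := (memLp_id_gaussianReal (μ := 0) (v := 1) 2).comp_measurePreserving (h k)
      simpa [gs, Function.comp_def] using this
    exact (hL i).integrable_mul (hL j)
  have hval : ∀ i j : Fin n, ∫ z, z i * z j ∂gs n = if i = j then 1 else 0 := fun i j => by
    have hind : iIndepFun (fun k (z : Fin n → ℝ) => z k) (gs n) := by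
      rw [gs]
      exact iIndepFun_pi (X := fun _ x => x) (fun _ => measurable_id.aemeasurable)
    have h1 : ∀ k : Fin n, ∫ z, z k ∂gs n = 0 := fun k => by
      exact (integral_comp_eval (μ := fun _ : Fin n => gaussianReal 0 1) (i := k)
        (f := fun x : ℝ => x) measurable_id.aestronglyMeasurable).trans integral_id_gaussianReal
    by_cases hij : i = j
    · subst hij
      rw [if_pos rfl, gs, integral_comp_eval (f := fun x => x * x) (by fun_prop)]
      have h := variance_eq_sub (μ := gaussianReal 0 1) (memLp_id_gaussianReal 2)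
      rw [variance_id_gaussianReal] at h
      simp only [Pi.pow_apply, id_eq, integral_id_gaussianReal] at h
      simpa [pow_two] using h.symm
    · rw [if_neg hij, (hind.indepFun hij).integral_fun_mul_eq_mul_integral
        (measurable_pi_apply i).aestronglyMeasurable (measurable_pi_apply j).aestronglyMeasurable,
        h1, zero_mul]
  simp only [dotProduct, Matrix.mulVec, Finset.mul_sum, mul_left_comm _ (A _ _)]
  refine (integral_finsetSum (f := fun i (z : Fin n → ℝ) => ∑ j, A i j * (z i * z j)) _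
    fun i _ => integrable_finsetSum _ fun j _ => (hint i j).const_mul _).trans ?_
  refine Finset.sum_congr rfl fun i _ => ?_
  refine (integral_finsetSum (f := fun j (z : Fin n → ℝ) => A i j * (z i * z j)) _
    fun j _ => (hint i j).const_mul _).trans ?_
  simp [integral_const_mul, hval]

end Vale.Agent.P166.Formula
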