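import Vale.Agent.P166.Formula.Ent
import Vale.Agent.P166.Formula.GaussCasc

/-!
The endpoint value of one Gaussian spin in cascade fields equals `spinVal` (P166, formula side).
-/

open MeasureTheory ProbabilityTheory Matrix Finset Real

namespace Vale.Agent.P166.Formula

open Vale.Agent.P166
open Vale.Agent.P157.Casc (casc gaus mlev)

variable {n K : ℕ}

/-- The weights of the uniform grid with `K` levels. -/
noncomputable def gridM (K : ℕ) (l : ℕ) : ℝ := (l : ℝ) / ((K : ℝ) + 1)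

theorem gridM_levels (K : ℕ) : Levels (gridM K) K where
  zero := by simp [gridM]
  pos l h1 _ := by
    have : (0 : ℝ) < l := by exact_mod_cast h1
    unfold gridM
    positivity
  mono l _ := by
    unfold gridM
    push_cast
    gcongr
    linarith
  top := by
    unfold gridM
    push_cast
    exact div_self (by positivity)

theorem gridM_succ (l : Fin K) : gridM K (l.val + 1) = mlev K l := by
  simp [gridM, mlev]

/-- The integral over one Gaussian spin of variance `τ` with precision `Λ`. -/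
theorem gauss_leaf {τ : ℝ} (hτ : 0 < τ) {Λ : Matrix (Fin n) (Fin n) ℝ} (hΛ : Λ.PosDef)
    (h : Fin n → ℝ) :
    log (∫ g, exp (h ⬝ᵥ (√τ • g) - (√τ • g) ⬝ᵥ (Λ - τ⁻¹ • 1) *ᵥ (√τ • g) / 2) ∂gs n)
      = h ⬝ᵥ Λ⁻¹ *ᵥ h / 2 - (log Λ.det + n * log τ) / 2 := by
  have hM : (τ • Λ).PosDef := hΛ.smul hτ
  obtain ⟨-, hv⟩ := gauss_quad hM (√τ • h)
  have e : ∀ g : Fin n → ℝ,
      h ⬝ᵥ (√τ • g) - (√τ • g) ⬝ᵥ (Λ - τ⁻¹ • 1) *ᵥ (√τ • g) / 2
        = (√τ • h) ⬝ᵥ g - g ⬝ᵥ (τ • Λ - 1) *ᵥ g / 2 := fun g => by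
    simp only [Matrix.sub_mulVec, Matrix.smul_mulVec, Matrix.mulVec_smul, Matrix.one_mulVec,
      dotProduct_sub, dotProduct_smul, smul_dotProduct, smul_eq_mul, ← mul_assoc]
    field_simp
    linear_combination (-(g ⬝ᵥ Λ *ᵥ g * τ - g ⬝ᵥ g)) * mul_self_sqrt hτ.le
  simp only [e]
  have hd : (τ • Λ).det = τ ^ n * Λ.det := by rw [det_smul, Fintype.card_fin]
  rw [hv, log_mul (by have := hM.det_pos; positivity) (exp_pos _).ne', log_exp, log_inv,
    log_sqrt hM.det_pos.le, hd, log_mul (by positivity) hΛ.det_pos.ne', log_pow]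
  have hi : (τ • Λ)⁻¹ = τ⁻¹ • Λ⁻¹ := by
    refine Matrix.inv_eq_right_inv ?_
    rw [smul_mul_assoc, mul_smul_comm, smul_smul, mul_inv_cancel₀ hτ.ne', one_smul,
      Matrix.mul_nonsing_inv _ (isUnit_iff_ne_zero.2 hΛ.det_pos.ne')]
  rw [hi]
  simp only [Matrix.smul_mulVec, Matrix.mulVec_smul, dotProduct_smul, smul_dotProduct, smul_eq_mul]
  field_simp
  rw [sq_sqrt hτ.le]
  ring

/-- The cascade value of one Gaussian spin in fields with square roots `S`. -/
theorem spinVal_eq_casc {τ : ℝ} (hτ : 0 < τ) {D L : Matrix (Fin n) (Fin n) ℝ}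
    {p : ℕ → Matrix (Fin n) (Fin n) ℝ} (hp : IsPath K p) (h0 : (tLam (gridM K) K L p 0).PosDef)
    {S0 : Matrix (Fin n) (Fin n) ℝ} {S : Fin K → Matrix (Fin n) (Fin n) ℝ}
    (hS0 : S0 * S0.transpose = p 0)
    (hS : ∀ l : Fin K, S l * (S l).transpose = p (l.val + 1) - p l.val) :
    ∫ z, casc (gaus (Fin n)) K (mlev K) (fun y =>
        log (∫ g, exp ((S0 *ᵥ z + ∑ l, S l *ᵥ y l) ⬝ᵥ (√τ • g)
          - (√τ • g) ⬝ᵥ (tLam (gridM K) K L p K - τ⁻¹ • 1) *ᵥ (√τ • g) / 2) ∂gs n)) ∂gs n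
      + ((L * D).trace - D.trace / τ) / 2
      = spinVal (gridM K) K τ D L p := by
  have hm := gridM_levels K
  have hpd := tLam_posDef hm hp h0
  simp only [gauss_leaf hτ (hpd K le_rfl), sub_eq_add_neg ((_ : ℝ) / 2)]
  have hpos : ∀ l : Fin K, 0 < mlev K l := fun l => by
    rw [← gridM_succ]
    exact hm.pos _ (by omega) (by omega)
  have hstep : ∀ l : Fin K, tLam (gridM K) K L p ((l.succ : Fin (K + 1)) : ℕ)
      = tLam (gridM K) K L p ((l.castSucc : Fin (K + 1)) : ℕ)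
        + mlev K l • (S l * (S l).transpose) := fun l => by
    rw [Fin.val_succ, Fin.val_castSucc, hS, ← gridM_succ, tLam_step (m := gridM K) L p l.isLt,
      sub_add_cancel]
  have hc := fun z c => casc_quad (n := n) K (mlev K) (fun l => tLam (gridM K) K L p l.val) S hpos
    (fun l => hpd _ (Nat.le_of_lt_succ l.isLt)) hstep (S0 *ᵥ z) c
  simp only [Fin.val_last, Fin.val_zero] at hc
  simp only [hc]
  have eq : ∀ z : Fin n → ℝ, (S0 *ᵥ z) ⬝ᵥ (tLam (gridM K) K L p 0)⁻¹ *ᵥ (S0 *ᵥ z)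
      = z ⬝ᵥ (S0.transpose * (tLam (gridM K) K L p 0)⁻¹ * S0) *ᵥ z := fun z => by
    rw [← Matrix.mulVec_mulVec, ← Matrix.mulVec_mulVec, Matrix.dotProduct_mulVec z S0.transpose,
      Matrix.vecMul_transpose]
  simp only [eq]
  have hint : Integrable (fun z : Fin n → ℝ =>
      z ⬝ᵥ (S0.transpose * (tLam (gridM K) K L p 0)⁻¹ * S0) *ᵥ z / 2) (gs n) := by
    refine Integrable.div_const ?_ 2
    simp only [dotProduct, Matrix.mulVec, Finset.mul_sum]
    refine integrable_finsetSum _ fun i _ => integrable_finsetSum _ fun j _ => ?_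
    simp only [mul_left_comm (_ : ℝ) ((S0.transpose * (tLam (gridM K) K L p 0)⁻¹ * S0) i j)]
    refine Integrable.const_mul ?_ _
    have hL : ∀ k, MemLp (fun z : Fin n → ℝ => z k) 2 (gs n) := fun k => by
      have := (memLp_id_gaussianReal (μ := 0) (v := 1) 2).comp_measurePreserving
        (measurePreserving_eval (μ := fun _ : Fin n => gaussianReal 0 1) k)
      simpa [gs, Function.comp_def] using this
    exact (hL i).integrable_mul (hL j)
  have hconst : ∀ a b : ℝ, ∫ z, (z ⬝ᵥ (S0.transpose * (tLam (gridM K) K L p 0)⁻¹ * S0) *ᵥ z / 2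
      + a + b) ∂gs n
      = (S0.transpose * (tLam (gridM K) K L p 0)⁻¹ * S0).trace / 2 + (a + b) := fun a b => by
    simp only [add_assoc]
    rw [integral_add hint (integrable_const _), integral_div, integral_dot_quad, integral_const,
      probReal_univ, one_smul]
  rw [hconst]
  have htr : (S0.transpose * (tLam (gridM K) K L p 0)⁻¹ * S0).trace
      = (p 0 * (tLam (gridM K) K L p 0)⁻¹).trace := by
    rw [Matrix.trace_mul_cycle, hS0]
  have hsum : ∑ l : Fin K, (2 * mlev K l)⁻¹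
        * (log (tLam (gridM K) K L p ((l.succ : Fin (K + 1)) : ℕ)).det
          - log (tLam (gridM K) K L p ((l.castSucc : Fin (K + 1)) : ℕ)).det)
      = 1 / 2 * ∑ l ∈ range K, (gridM K (l + 1))⁻¹
          * (log (tLam (gridM K) K L p (l + 1)).det - log (tLam (gridM K) K L p l).det) := by
    rw [Finset.mul_sum, ← Fin.sum_univ_eq_sum_range (fun l => 1 / 2 * ((gridM K (l + 1))⁻¹
      * (log (tLam (gridM K) K L p (l + 1)).det - log (tLam (gridM K) K L p l).det))) K]
    refine Finset.sum_congr rfl fun l _ => ?_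
    rw [Fin.val_succ, Fin.val_castSucc, gridM_succ, mul_inv]
    ring
  rw [htr, hsum, spinVal, levelSum]
  ring

end Vale.Agent.P166.Formula
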