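import Vale.Agent.P166.Formula.Paths

/-!
The bookkeeping of three replicas in the rotation identities, and the passage from these identities
to the stationarity equations (P166, formula side).
-/

open Finset Matrix

namespace Vale.Agent.P166.Formula

variable {n : ℕ}

/-- The three-replica term at level `l`, normalised by the probability of the level. -/
noncomputable def triple (m : ℕ → ℝ) (r : ℕ) (p q : ℕ → Matrix (Fin n) (Fin n) ℝ) (l : ℕ) :
    Matrix (Fin n) (Fin n) ℝ :=
  cum m p q l + (∑ j ∈ Finset.Ioc l r, (m (j + 1) - m j) • p j) * q l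
    + p l * (∑ j ∈ Finset.Ioc l r, (m (j + 1) - m j) • q j)
    + (2 * m (l + 1) - m l) • (p l * q l)

/-- The limiting rotation identities of a system with effective field path `p` and overlap
path `q`. -/
structure Rotation (m : ℕ → ℝ) (r : ℕ) (D : Matrix (Fin n) (Fin n) ℝ)
    (p q : ℕ → Matrix (Fin n) (Fin n) ℝ) : Prop where
  diag : (cum m p q (r + 1)).transpose * D = D * cum m p q (r + 1)
  level : ∀ l, l ≤ r → (1 - (cum m p q (r + 1)).transpose) * q l
    = D * (p l * D - triple m r p q l)

/-- The bottom precision attached to the rotation identities. -/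
noncomputable def rotL (m : ℕ → ℝ) (r : ℕ) (D : Matrix (Fin n) (Fin n) ℝ)
    (p q : ℕ → Matrix (Fin n) (Fin n) ℝ) : Matrix (Fin n) (Fin n) ℝ :=
  (1 - cum m p q (r + 1)) * D⁻¹

variable {m : ℕ → ℝ} {r : ℕ}

/-- The rotation identities imply the stationarity equations. -/
theorem Rotation.stationary {D : Matrix (Fin n) (Fin n) ℝ}
    {p q : ℕ → Matrix (Fin n) (Fin n) ℝ} (hD : D.det ≠ 0) (h : Rotation m r D p q) :
    Stationary m r (rotL m r D p q) D p q := by
  have hu := isUnit_iff_ne_zero.2 hD
  have e : rotL m r D p q = D⁻¹ * (1 - (cum m p q (r + 1)).transpose) := by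
    have h2 : D * (rotL m r D p q) = 1 - (cum m p q (r + 1)).transpose := by
      rw [rotL, ← Matrix.mul_assoc, Matrix.mul_sub, Matrix.mul_one, ← h.diag,
        Matrix.sub_mul, Matrix.mul_nonsing_inv _ hu,
        Matrix.mul_nonsing_inv_cancel_right _ _ hu]
    rw [← h2, Matrix.nonsing_inv_mul_cancel_left _ _ hu]
  refine ⟨?_, fun l hl => ?_⟩
  · rw [rotL, Matrix.nonsing_inv_mul_cancel_right _ _ hu]
    abel
  · have hl' : rotL m r D p q * q l = p l * D - triple m r p q l := by
      rw [e, Matrix.mul_assoc, h.level l hl, Matrix.nonsing_inv_mul_cancel_left _ _ hu]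
    have hl'' := hl'
    simp only [tLam, tT, tail, triple, Matrix.add_mul, Matrix.mul_sub, Matrix.mul_add,
      Matrix.smul_mul, Matrix.mul_smul] at hl'' ⊢
    rw [hl'']
    module

theorem sum_dm_Ioc {l : ℕ} (hl : l ≤ r) :
    ∑ j ∈ Finset.Ioc l r, (m (j + 1) - m j) = m (r + 1) - m (l + 1) := by
  induction hl using Nat.decreasingInduction with
  | self => simp
  | of_succ k hk ih =>
    have e : Finset.Ioc k r = insert (k + 1) (Finset.Ioc (k + 1) r) := by
      ext j
      simp only [Finset.mem_Ioc, Finset.mem_insert]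
      omega
    rw [e, Finset.sum_insert (by simp), ih]
    ring

/-- The value of the three-replica term from the two-replica identities. -/
theorem triple_value (hm : Levels m r) (p q : ℕ → Matrix (Fin n) (Fin n) ℝ) {l : ℕ} (hl : l ≤ r) :
    let dm := fun j => m (j + 1) - m j
    (∑ j ∈ range l, ((dm j * dm l / 2) • p j) * q j)
        + (∑ j ∈ Finset.Ioc l r, ((dm j * dm l / 2) • p j) * q l)
        + ((dm l * dm l / 2 + dm l / 2) • p l) * q l
        + ∑ j ∈ Finset.Ioc l r, ((dm j * dm l / 2) • p l) * (q j - q l)
      = (dm l / 2) • triple m r p q l := by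
  intro dm
  have e1 : ∀ j, dm j * dm l / 2 = dm l / 2 * dm j := fun j => by ring
  have hs : ∑ j ∈ Finset.Ioc l r, dm j = 1 - m (l + 1) := by
    rw [sum_dm_Ioc hl, hm.top]
  simp only [triple, cum, e1, mul_smul, smul_add, Finset.smul_sum, Finset.sum_mul, Finset.mul_sum,
    Matrix.smul_mul, Matrix.mul_smul, Matrix.mul_sub, Finset.sum_sub_distrib]
  rw [show (∑ j ∈ Finset.Ioc l r, (dm l / 2) • dm j • (p l * q l))
      = (dm l / 2) • ((∑ j ∈ Finset.Ioc l r, dm j) • (p l * q l)) by
    rw [Finset.sum_smul, Finset.smul_sum], hs]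
  simp only [dm]
  module

section Levels

variable {K : ℕ}

/-- Ultrametricity of the three levels of three replicas. -/
def Tri (a b c : Fin (K + 1)) : Prop := min a b ≤ c ∧ min a c ≤ b ∧ min b c ≤ a

/-- The decomposition of a function of the level of the pair `(3, 2)`, given the levels `a` of
`(1, 2)` and `b` of `(1, 3)`. -/
theorem level_decomp {V : Type*} [AddCommGroup V] [Module ℝ V] {a b c : Fin (K + 1)}
    (h : Tri a b c) (l : Fin (K + 1)) (g : Fin (K + 1) → V) :
    (if a = l then g c else 0)
      = (∑ j ∈ Finset.univ.filter (fun j => j < l), if a = l ∧ b = j then g j else 0)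
        + (∑ j ∈ Finset.univ.filter (fun j => l < j), if a = l ∧ b = j then g l else 0)
        + (if a = l ∧ b = l then g l else 0)
        + ∑ j ∈ Finset.univ.filter (fun j => l < j),
            if b = l ∧ c = j then g j - g l else 0 := by
  obtain ⟨h1, h2, h3⟩ := h
  simp only [min_le_iff] at h1 h2 h3
  have hsplit : ∀ (P : Fin (K + 1) → Prop) [DecidablePred P] (x : Fin (K + 1))
      (F : Fin (K + 1) → V),
      (∑ j ∈ Finset.univ.filter P, if x = j then F j else 0) = if P x then F x else 0 := by
    intro P _ x F
    rw [Finset.sum_ite_eq]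
    simp
  by_cases ha : a = l
  · subst ha
    simp only [true_and, if_true, hsplit]
    rcases lt_trichotomy b a with hb | hb | hb
    · have hc : c = b := le_antisymm (by omega) (by omega)
      simp [hb, hb.ne, not_lt.2 hb.le, hc]
    · subst hb
      simp only [lt_irrefl, if_false, if_true, true_and, hsplit]
      rcases (show b ≤ c by omega).lt_or_eq with hc | hc
      · simp [hc]
      · simp [hc]
    · have hc : c = a := le_antisymm (by omega) (by omega)
      simp [hb, hb.ne', not_lt.2 hb.le, hc]
  · have hlast : ∀ j ∈ Finset.univ.filter (fun j : Fin (K + 1) => l < j),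
        (if b = l ∧ c = j then g j - g l else 0) = 0 := by
      intro j hj
      rw [if_neg]
      rintro ⟨rfl, rfl⟩
      exact ha (le_antisymm (by have := (Finset.mem_filter.1 hj).2; omega)
        (by have := (Finset.mem_filter.1 hj).2; omega))
    simp [ha, Finset.sum_eq_zero hlast]

end Levels

end Vale.Agent.P166.Formula
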