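import Vale.Agent.P166.Formula.Best
import Vale.Agent.P166.Formula.SD
import Vale.Agent.P166.Casc.VMexp

/-!
Stability of the stationarity equations in mean over the levels, uniformly in their number
(P166, formula side).
-/

open Real Finset Matrix

namespace Vale.Agent.P166.Formula

open Casc (mabs)

variable {n : ℕ} {m : ℕ → ℝ} {r : ℕ}

/-- The increment of the weights at a level. -/
def dmAt (m : ℕ → ℝ) (l : ℕ) : ℝ := m (l + 1) - m l

/-- The failure of the stationarity equation at level `l`. -/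
noncomputable def resid (m : ℕ → ℝ) (r : ℕ) (L D : Matrix (Fin n) (Fin n) ℝ)
    (w q : ℕ → Matrix (Fin n) (Fin n) ℝ) (l : ℕ) : Matrix (Fin n) (Fin n) ℝ :=
  tLam m r L w l * q l - (w l * tT m r D q l - cum m w q l + m l • (w l * q l))

/-- Mean size over the levels. -/
noncomputable def lmean (m : ℕ → ℝ) (r : ℕ) (x : ℕ → Matrix (Fin n) (Fin n) ℝ) : ℝ :=
  ∑ l ∈ range (r + 1), dmAt m l * mabs (x l)

theorem Levels.dm_nonneg (hm : Levels m r) {l : ℕ} (hl : l ≤ r) : 0 ≤ dmAt m l :=
  sub_nonneg.2 (hm.mono l hl)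

theorem Levels.sum_dm (hm : Levels m r) : ∀ {l : ℕ}, l ≤ r + 1 → ∑ j ∈ range l, dmAt m j = m l := by
  intro l
  induction l with
  | zero => intro _; simp [hm.zero]
  | succ k ih => intro hk; rw [sum_range_succ, ih (by omega), dmAt]; ring

theorem Levels.le_one (hm : Levels m r) {l : ℕ} (hl : l ≤ r + 1) : 0 ≤ m l ∧ m l ≤ 1 := by
  refine ⟨?_, ?_⟩
  · rcases Nat.eq_zero_or_pos l with rfl | h
    · rw [hm.zero]
    · exact (hm.pos l h hl).le
  · rw [← hm.sum_dm hl, ← hm.top, ← hm.sum_dm le_rfl]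
    exact sum_le_sum_of_subset_of_nonneg (range_subset_range.2 hl) fun j hj _ =>
      hm.dm_nonneg (Nat.lt_succ_iff.1 (mem_range.1 hj))

theorem lmean_nonneg (hm : Levels m r) (x : ℕ → Matrix (Fin n) (Fin n) ℝ) : 0 ≤ lmean m r x :=
  sum_nonneg fun l hl => mul_nonneg (hm.dm_nonneg (Nat.lt_succ_iff.1 (mem_range.1 hl)))
    (Casc.mabs_nonneg _)

theorem mabs_sum_dm_le (hm : Levels m r) (x : ℕ → Matrix (Fin n) (Fin n) ℝ) {s : Finset ℕ}
    (hs : s ⊆ range (r + 1)) : mabs (∑ j ∈ s, dmAt m j • x j) ≤ lmean m r x := by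
  refine (Casc.mabs_sum _ _).trans ((sum_le_sum fun j hj => ?_).trans
    (sum_le_sum_of_subset_of_nonneg hs fun j hj _ =>
      mul_nonneg (hm.dm_nonneg (Nat.lt_succ_iff.1 (mem_range.1 hj))) (Casc.mabs_nonneg _)))
  rw [Casc.mabs_smul, abs_of_nonneg (hm.dm_nonneg (Nat.lt_succ_iff.1 (mem_range.1 (hs hj))))]

/-- The two tail matrices fail to be inverse by the accumulated failures above. -/
theorem tLam_mul_tT (hm : Levels m r) {L D : Matrix (Fin n) (Fin n) ℝ}
    {w q : ℕ → Matrix (Fin n) (Fin n) ℝ} (hdiag : L * D + cum m w q (r + 1) = 1) :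
    ∀ l, l ≤ r → tLam m r L w l * tT m r D q l
      = 1 - (∑ j ∈ Ioc l r, dmAt m j • resid m r L D w q j) - m (l + 1) • resid m r L D w q l := by
  intro l hl
  induction hl using Nat.decreasingInduction with
  | self =>
    simp only [Ioc_self, sum_empty, sub_zero, hm.top, one_smul, resid, tLam_top hm, tT_top hm]
    rw [← hdiag, cum_succ, hm.top]
    simp only [Matrix.add_mul, Matrix.mul_sub, sub_smul, one_smul]
    abel
  | of_succ k hk ih =>
    have hk' : k < r := hk
    have e : Ioc k r = insert (k + 1) (Ioc (k + 1) r) := by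
      ext j; simp only [mem_Ioc, mem_insert]; omega
    rw [e, sum_insert (by simp)]
    rw [eq_sub_iff_add_eq, eq_sub_iff_add_eq] at ih
    rw [← ih]
    simp only [resid, dmAt, cum_succ, tLam_step (m := m) L w hk', tT_step (m := m) D q hk']
    simp only [Matrix.add_mul, Matrix.mul_add, Matrix.sub_mul, Matrix.mul_sub, Matrix.smul_mul,
      Matrix.mul_smul, smul_sub, smul_add, sub_smul, smul_smul]
    module

theorem mabs_tLam_mul_tT_le (hm : Levels m r) {L D : Matrix (Fin n) (Fin n) ℝ}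
    {w q : ℕ → Matrix (Fin n) (Fin n) ℝ} (hdiag : L * D + cum m w q (r + 1) = 1) {l : ℕ}
    (hl : l ≤ r) : mabs (tLam m r L w l * tT m r D q l - 1)
      ≤ lmean m r (resid m r L D w q) + mabs (resid m r L D w q l) := by
  rw [tLam_mul_tT hm hdiag l hl, show ∀ a b c : Matrix (Fin n) (Fin n) ℝ, a - b - c - a = -(b + c)
    from fun a b c => by abel, Casc.mabs_neg]
  refine (Casc.mabs_add _ _).trans (add_le_add (mabs_sum_dm_le hm _ fun j hj => ?_) ?_)
  · simp only [mem_Ioc, mem_range] at hj ⊢; omega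
  · obtain ⟨h0, h1⟩ := hm.le_one (l := l + 1) (by omega)
    rw [Casc.mabs_smul, abs_of_nonneg h0]
    exact mul_le_of_le_one_left (Casc.mabs_nonneg _) h1

/-- Mutually inverse tail matrices with the root equation satisfy every level equation. -/
theorem resid_eq_zero (hm : Levels m r) {L D : Matrix (Fin n) (Fin n) ℝ}
    {w q : ℕ → Matrix (Fin n) (Fin n) ℝ}
    (h : ∀ l, l ≤ r → tLam m r L w l * tT m r D q l = 1)
    (hroot : q 0 = tT m r D q 0 * w 0 * tT m r D q 0) :
    ∀ l, l ≤ r → resid m r L D w q l = 0 := by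
  intro l
  induction l with
  | zero =>
    intro _
    have e : tLam m r L w 0 * q 0 = w 0 * tT m r D q 0 := by
      conv_lhs => rw [hroot, ← Matrix.mul_assoc, ← Matrix.mul_assoc, h 0 (Nat.zero_le r),
        Matrix.one_mul]
    simp [resid, e, cum, hm.zero]
  | succ k ih =>
    intro hk
    have hk' : k < r := hk
    have ha := h (k + 1) hk
    have hb := h k hk'.le
    have hpos := hm.pos (k + 1) (by omega) (by omega)
    have hstep : tLam m r L w (k + 1) * (q (k + 1) - q k) = (w (k + 1) - w k) * tT m r D q k := by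
      have e : m (k + 1) • (tLam m r L w (k + 1) * (q (k + 1) - q k))
          = m (k + 1) • ((w (k + 1) - w k) * tT m r D q k) := by
        have e1 : tLam m r L w k * tT m r D q k
            = tLam m r L w (k + 1) * tT m r D q (k + 1)
              + m (k + 1) • (tLam m r L w (k + 1) * (q (k + 1) - q k))
              - m (k + 1) • ((w (k + 1) - w k) * tT m r D q k) := by
          conv_lhs => rw [tLam_step (m := m) L w hk', Matrix.sub_mul, Matrix.smul_mul]
          conv_lhs => arg 1; rw [tT_step (m := m) D q hk', Matrix.mul_add, Matrix.mul_smul]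
        rw [ha, hb, eq_sub_iff_add_eq] at e1
        exact (add_left_cancel e1).symm
      exact smul_right_injective _ hpos.ne' e
    have hprev := ih hk'.le
    simp only [resid] at hprev ⊢
    have eA : tLam m r L w (k + 1) * q (k + 1) = tLam m r L w k * q k
        + m (k + 1) • ((w (k + 1) - w k) * q k) + (w (k + 1) - w k) * tT m r D q k := by
      rw [← hstep, tLam_step (m := m) L w hk']
      simp only [Matrix.sub_mul, Matrix.mul_sub, Matrix.smul_mul]
      abel
    rw [eA, sub_eq_zero.1 hprev, cum_succ, tT_step (m := m) D q hk']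
    simp only [Matrix.mul_add, Matrix.sub_mul, Matrix.mul_sub, Matrix.mul_smul, smul_sub, sub_smul]
    module

/-- A definite matrix has a bounded inverse. -/
theorem mabs_inv_le {A : Matrix (Fin n) (Fin n) ℝ} {c : ℝ} (hc : 0 < c)
    (hA : (A - c • (1 : Matrix (Fin n) (Fin n) ℝ)).PosSemidef) :
    A.PosDef ∧ mabs A⁻¹ ≤ (n : ℝ) ^ 2 / c := by
  have hpd : A.PosDef := by
    have := (Matrix.PosDef.one.smul hc).add_posSemidef hA
    rwa [add_sub_cancel] at this
  refine ⟨hpd, ?_⟩
  refine (Finset.sum_le_sum fun i _ => Finset.sum_le_sum fun j _ =>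
    (show |A⁻¹ i j| ≤ 1 / c from ?_)).trans_eq (by simp; ring)
  set x : Fin n → ℝ := A⁻¹ *ᵥ Pi.single j 1 with hx
  have hxi : ∀ i, x i = A⁻¹ i j := fun i => by simp [hx]
  have hAx : A *ᵥ x = Pi.single j 1 := by
    rw [hx, Matrix.mulVec_mulVec, Matrix.mul_nonsing_inv _ (isUnit_iff_ne_zero.2 hpd.det_pos.ne'),
      Matrix.one_mulVec]
  have h := hA.dotProduct_mulVec_nonneg x
  simp only [star_trivial, Matrix.sub_mulVec, hAx, Matrix.smul_mulVec, Matrix.one_mulVec,
    dotProduct_sub, dotProduct_smul, dotProduct_single, mul_one, smul_eq_mul] at h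
  have hsq : ∀ i, x i ^ 2 ≤ x ⬝ᵥ x := fun i => by
    rw [dotProduct]
    refine le_trans (le_of_eq (sq (x i))) (single_le_sum (f := fun i => x i * x i)
      (fun i _ => mul_self_nonneg _) (mem_univ i))
  have hj : x j ≤ 1 / c := by
    rw [le_div_iff₀ hc]
    by_contra hlt
    push Not at hlt
    have h2 : 0 < x j := pos_of_mul_pos_left (zero_lt_one.trans hlt) hc.le
    nlinarith [mul_le_mul_of_nonneg_left (hsq j) hc.le, mul_lt_mul_of_pos_left hlt h2]
  rw [← hxi, ← abs_of_pos (one_div_pos.2 hc), ← sq_le_sq]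
  have e1 : x ⬝ᵥ x ≤ x j / c := by rw [le_div_iff₀ hc]; linarith
  calc x i ^ 2 ≤ x j / c := (hsq i).trans e1
    _ ≤ (1 / c) / c := (div_le_div_iff_of_pos_right hc).2 hj
    _ = (1 / c) ^ 2 := by ring

theorem tT_sub_psd (hm : Levels m r) (D : Matrix (Fin n) (Fin n) ℝ)
    {q : ℕ → Matrix (Fin n) (Fin n) ℝ} (hq : IsPath r q) {l : ℕ} (hl : l ≤ r) :
    (tT m r D q l - (D - q r)).PosSemidef := by
  induction hl using Nat.decreasingInduction with
  | self => rw [tT_top hm, sub_self]; exact Matrix.PosSemidef.zero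
  | of_succ k hk ih =>
    rw [tT_step (m := m) D q hk, add_sub_right_comm]
    exact ih.add ((hq.step k hk).smul (hm.pos (k + 1) (by omega) (by omega)).le)

theorem IsPath.psd {q : ℕ → Matrix (Fin n) (Fin n) ℝ} (hq : IsPath r q) {l : ℕ} (hl : l ≤ r) :
    (q l).PosSemidef := by
  induction l with
  | zero => exact hq.nonneg
  | succ k ih => simpa using (ih (Nat.le_of_succ_le hl)).add (hq.step k hl)

/-- Nearly stationary field paths are close to the best response, level by level. -/
theorem response_point (hm : Levels m r) {L D : Matrix (Fin n) (Fin n) ℝ}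
    {w q : ℕ → Matrix (Fin n) (Fin n) ℝ} (hdiag : L * D + cum m w q (r + 1) = 1)
    (hq : IsPath r q) {c B : ℝ} (hc : 0 < c)
    (hD : (D - q r - c • (1 : Matrix (Fin n) (Fin n) ℝ)).PosSemidef)
    (hB : ∀ l, l ≤ r → mabs (q l) ≤ B) :
    let k := (n : ℝ) ^ 2 / c
    ∀ l, l ≤ r → mabs (w l - bestPath m r D q l)
      ≤ k * B * (∑ j ∈ range l, dmAt m j * mabs (w j - bestPath m r D q j))
        + k * (k * B + 1) * (lmean m r (resid m r L D w q) + mabs (resid m r L D w q l)) := by
  intro k l hl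
  have hk0 : 0 ≤ k := by positivity
  have hB0 : 0 ≤ B := (Casc.mabs_nonneg _).trans (hB 0 (Nat.zero_le r))
  set δ := lmean m r (resid m r L D w q) with hδ
  have hδ0 : 0 ≤ δ := lmean_nonneg hm _
  have hT : ∀ l, l ≤ r → (tT m r D q l - c • (1 : Matrix (Fin n) (Fin n) ℝ)).PosSemidef := fun l hl => by
    have := (tT_sub_psd hm D hq hl).add hD
    rwa [show tT m r D q l - (D - q r) + (D - q r - c • (1 : Matrix (Fin n) (Fin n) ℝ))
      = tT m r D q l - c • (1 : Matrix (Fin n) (Fin n) ℝ) by abel] at this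
  have hG : ∀ l, l ≤ r →
      (tT m r D q l + m l • q l).PosDef ∧ mabs (tT m r D q l + m l • q l)⁻¹ ≤ k := fun l hl => by
    refine mabs_inv_le hc ?_
    rw [add_sub_right_comm]
    exact (hT l hl).add ((hq.psd hl).smul (hm.le_one (by omega)).1)
  have hpd : (D - q r).PosDef := (mabs_inv_le hc hD).1
  set p := bestPath m r D q
  set Ls := bestTilt m r D q
  have hinv := bestPath_mul_eq_one hm hq hpd
  have h0 := resid_eq_zero hm hinv (bestPath_root hm hq hpd)
  obtain ⟨gpd, gb⟩ := hG l hl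
  obtain ⟨tpd, tb⟩ := mabs_inv_le hc (hT l hl)
  have e : (w l - p l) * (tT m r D q l + m l • q l)
      = (tLam m r L w l - tLam m r Ls p l) * q l + (cum m w q l - cum m p q l)
        - resid m r L D w q l := by
    rw [← sub_zero ((tLam m r L w l - tLam m r Ls p l) * q l + _ - _), ← neg_zero,
      ← h0 l hl]
    simp only [resid, Matrix.mul_add, Matrix.sub_mul, Matrix.mul_smul, smul_sub]
    abel
  have eX : tLam m r L w l - tLam m r Ls p l
      = (tLam m r L w l * tT m r D q l - 1) * (tT m r D q l)⁻¹ := by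
    have hu := isUnit_iff_ne_zero.2 tpd.det_pos.ne'
    rw [Matrix.sub_mul, Matrix.mul_nonsing_inv_cancel_right _ _ hu, Matrix.one_mul,
      ← Matrix.inv_eq_left_inv (hinv l hl)]
  have hX : mabs (tLam m r L w l - tLam m r Ls p l)
      ≤ (δ + mabs (resid m r L D w q l)) * k := by
    rw [eX]
    exact Casc.mabs_mul_le (mabs_tLam_mul_tT_le hm hdiag hl) tb
  have hcum : mabs (cum m w q l - cum m p q l)
      ≤ (∑ j ∈ range l, dmAt m j * mabs (w j - p j)) * B := by
    rw [cum, cum, ← sum_sub_distrib, Finset.sum_mul]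
    refine (Casc.mabs_sum _ _).trans (sum_le_sum fun j hj => ?_)
    have hj' := mem_range.1 hj
    rw [← smul_sub, ← Matrix.sub_mul, Casc.mabs_smul,
      show m (j + 1) - m j = dmAt m j from rfl, abs_of_nonneg (hm.dm_nonneg (l := j) (by omega)), mul_assoc]
    exact mul_le_mul_of_nonneg_left (Casc.mabs_mul_le le_rfl (hB j (by omega)))
      (hm.dm_nonneg (by omega))
  have e' : w l - p l = ((tLam m r L w l - tLam m r Ls p l) * q l + (cum m w q l - cum m p q l)
      - resid m r L D w q l) * (tT m r D q l + m l • q l)⁻¹ := by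
    rw [← e, Matrix.mul_nonsing_inv_cancel_right _ _ (isUnit_iff_ne_zero.2 gpd.det_pos.ne')]
  rw [e']
  refine (Casc.mabs_mul_le ((Casc.mabs_sub _ _).trans (add_le_add ((Casc.mabs_add _ _).trans
    (add_le_add (Casc.mabs_mul_le hX (hB l hl)) hcum)) le_rfl)) gb).trans ?_
  nlinarith [mul_nonneg hk0 hδ0, Casc.mabs_nonneg (resid m r L D w q l)]

/-- Nearly stationary field paths are close to the best response, in mean over the levels. -/
theorem response_close (hm : Levels m r) {L D : Matrix (Fin n) (Fin n) ℝ}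
    {w q : ℕ → Matrix (Fin n) (Fin n) ℝ} (hdiag : L * D + cum m w q (r + 1) = 1)
    (hq : IsPath r q) {c B : ℝ} (hc : 0 < c)
    (hD : (D - q r - c • (1 : Matrix (Fin n) (Fin n) ℝ)).PosSemidef)
    (hB : ∀ l, l ≤ r → mabs (q l) ≤ B) :
    let k := (n : ℝ) ^ 2 / c
    lmean m r (fun l => w l - bestPath m r D q l)
      ≤ exp (k * B) * (k * (k * B + 1)) * (2 * lmean m r (resid m r L D w q)) := by
  intro k
  have hk0 : 0 ≤ k := by positivity
  have hB0 : 0 ≤ B := (Casc.mabs_nonneg _).trans (hB 0 (Nat.zero_le r))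
  set δ := lmean m r (resid m r L D w q) with hδ
  have hδ0 : 0 ≤ δ := lmean_nonneg hm _
  have hT : ∀ l, l ≤ r → (tT m r D q l - c • (1 : Matrix (Fin n) (Fin n) ℝ)).PosSemidef := fun l hl => by
    have := (tT_sub_psd hm D hq hl).add hD
    rwa [show tT m r D q l - (D - q r) + (D - q r - c • (1 : Matrix (Fin n) (Fin n) ℝ))
      = tT m r D q l - c • (1 : Matrix (Fin n) (Fin n) ℝ) by abel] at this
  have hG : ∀ l, l ≤ r →
      (tT m r D q l + m l • q l).PosDef ∧ mabs (tT m r D q l + m l • q l)⁻¹ ≤ k := fun l hl => by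
    refine mabs_inv_le hc ?_
    rw [add_sub_right_comm]
    exact (hT l hl).add ((hq.psd hl).smul (hm.le_one (by omega)).1)
  have hpd : (D - q r).PosDef := (mabs_inv_le hc hD).1
  set p := bestPath m r D q
  have hkey := response_point hm hdiag hq hc hD hB
  set a := fun l => ∑ j ∈ range l, dmAt m j * mabs (w j - p j) with ha
  set s := fun l => ∑ j ∈ range l, dmAt m j * (δ + mabs (resid m r L D w q j)) with hs
  have hgr : ∀ l, l ≤ r + 1 → a l ≤ exp (k * B * m l) * (k * (k * B + 1) * s l) := by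
    intro l
    induction l with
    | zero => intro _; simp [ha, hs]
    | succ j ih =>
      intro hj
      have hj' : j ≤ r := by omega
      have hd := hm.dm_nonneg hj'
      have hs0 : 0 ≤ s j := sum_nonneg fun i hi =>
        mul_nonneg (hm.dm_nonneg (by have := mem_range.1 hi; omega))
          (add_nonneg hδ0 (Casc.mabs_nonneg _))
      have hCs : 0 ≤ k * (k * B + 1) * s j := by positivity
      have hv : 0 ≤ δ + mabs (resid m r L D w q j) := add_nonneg hδ0 (Casc.mabs_nonneg _)
      have e1 : a (j + 1) ≤ a j * (1 + k * B * dmAt m j)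
          + k * (k * B + 1) * (dmAt m j * (δ + mabs (resid m r L D w q j))) := by
        simp only [ha, sum_range_succ]
        nlinarith [mul_le_mul_of_nonneg_left (hkey j hj') hd]
      have e2 : (1 : ℝ) + k * B * dmAt m j ≤ exp (k * B * dmAt m j) := by
        linarith [add_one_le_exp (k * B * dmAt m j)]
      have e3 : exp (k * B * m j) * exp (k * B * dmAt m j) = exp (k * B * m (j + 1)) := by
        rw [← Real.exp_add, dmAt]; ring_nf
      have e4 : 1 ≤ exp (k * B * m (j + 1)) :=
        one_le_exp (mul_nonneg (mul_nonneg hk0 hB0) (hm.le_one hj).1)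
      have e5 : a j * (1 + k * B * dmAt m j)
          ≤ exp (k * B * m (j + 1)) * (k * (k * B + 1) * s j) := by
        refine (mul_le_mul (ih (by omega)) e2 (by positivity) (by positivity)).trans_eq ?_
        rw [← e3]; ring
      have e6 : s (j + 1) = s j + dmAt m j * (δ + mabs (resid m r L D w q j)) := by
        simp only [hs, sum_range_succ]
      rw [e6, mul_add, mul_add]
      refine e1.trans (add_le_add e5 ?_)
      exact le_mul_of_one_le_left (by positivity) e4
  have hfin := hgr (r + 1) le_rfl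
  have hsr : s (r + 1) = 2 * δ := by
    simp only [hs, mul_add, sum_add_distrib, ← Finset.sum_mul, hm.sum_dm le_rfl, hm.top, hδ, lmean]
    ring
  rw [hsr, hm.top, mul_one] at hfin
  show a (r + 1) ≤ _
  linarith

theorem lmean_add_le (hm : Levels m r) {x y z : ℕ → Matrix (Fin n) (Fin n) ℝ}
    (h : ∀ l, l ≤ r → mabs (z l) ≤ mabs (x l) + mabs (y l)) :
    lmean m r z ≤ lmean m r x + lmean m r y := by
  simp only [lmean, ← sum_add_distrib]
  refine sum_le_sum fun l hl => ?_
  rw [← mul_add]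
  have hl' := Nat.lt_succ_iff.1 (mem_range.1 hl)
  exact mul_le_mul_of_nonneg_left (h l hl') (hm.dm_nonneg hl')

theorem abs_trace_le (A : Matrix (Fin n) (Fin n) ℝ) : |A.trace| ≤ mabs A :=
  (Finset.abs_sum_le_sum_abs _ _).trans (sum_le_sum fun i _ =>
    single_le_sum (f := fun j => |A i j|) (fun _ _ => abs_nonneg _) (mem_univ i))

theorem mabs_cum_le (hm : Levels m r) {x y : ℕ → Matrix (Fin n) (Fin n) ℝ} {B : ℝ}
    (hy : ∀ l, l ≤ r → mabs (y l) ≤ B) {l : ℕ} (hl : l ≤ r + 1) :
    mabs (cum m x y l) ≤ lmean m r x * B ∧ mabs (cum m y x l) ≤ lmean m r x * B := by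
  have hsub : range l ⊆ range (r + 1) := range_subset_range.2 hl
  have key : ∀ z : ℕ → Matrix (Fin n) (Fin n) ℝ, (∀ j, j ≤ r → mabs (z j) ≤ mabs (x j) * B) →
      mabs (∑ j ∈ range l, dmAt m j • z j) ≤ lmean m r x * B := fun z hz => by
    refine (mabs_sum_dm_le hm _ hsub).trans ?_
    rw [lmean, lmean, Finset.sum_mul]
    refine sum_le_sum fun j hj => ?_
    have hj' := Nat.lt_succ_iff.1 (mem_range.1 hj)
    rw [mul_assoc]
    exact mul_le_mul_of_nonneg_left (hz j hj') (hm.dm_nonneg hj')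
  exact ⟨key (fun j => x j * y j) fun j hj => Casc.mabs_mul_le le_rfl (hy j hj),
    key (fun j => y j * x j) fun j hj => (Casc.mabs_mul_le (hy j hj) le_rfl).trans_eq (mul_comm _ _)⟩

theorem mabs_tail_le (hm : Levels m r) (x : ℕ → Matrix (Fin n) (Fin n) ℝ) {l : ℕ} (hl : l ≤ r) :
    mabs (tail m r x l) ≤ lmean m r x + mabs (x l) := by
  refine (Casc.mabs_add _ _).trans (add_le_add (mabs_sum_dm_le hm _ fun j hj => ?_) ?_)
  · simp only [mem_Ioc, mem_range] at hj ⊢; omega
  · obtain ⟨h0, h1⟩ := hm.le_one (l := l + 1) (by omega)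
    rw [Casc.mabs_smul, abs_of_nonneg h0]
    exact mul_le_of_le_one_left (Casc.mabs_nonneg _) h1

theorem lmean_le_of_bound (hm : Levels m r) {x : ℕ → Matrix (Fin n) (Fin n) ℝ} {B : ℝ}
    (h : ∀ l, l ≤ r → mabs (x l) ≤ B) : lmean m r x ≤ B := by
  refine (sum_le_sum (g := fun l => dmAt m l * B) fun l hl => ?_).trans_eq
    (by rw [← Finset.sum_mul, hm.sum_dm le_rfl, hm.top, one_mul])
  have hl' := Nat.lt_succ_iff.1 (mem_range.1 hl)
  exact mul_le_mul_of_nonneg_left (h l hl') (hm.dm_nonneg hl')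

/-- A level near the top where a nonnegative sequence of small mean is small. -/
theorem exists_small (hm : Levels m r) {γ τ : ℝ} (hγ : ∀ l, l ≤ r → dmAt m l ≤ γ) (hτ : τ ≤ 1)
    {f : ℕ → ℝ} (hf : ∀ l, l ≤ r → 0 ≤ f l) (hγτ : γ < τ) :
    ∃ k, k ≤ r ∧ 1 - m k ≤ τ ∧ (τ - γ) * f k ≤ ∑ l ∈ range (r + 1), dmAt m l * f l := by
  classical
  set s := (range (r + 1)).filter fun l => 1 - m l ≤ τ with hs
  have hmass : τ - γ ≤ ∑ l ∈ s, dmAt m l := by
    have hc := sum_filter_add_sum_filter_not (range (r + 1)) (fun l => 1 - m l ≤ τ) (dmAt m)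
    rw [hm.sum_dm le_rfl, hm.top, ← hs] at hc
    have key : ∀ j, j ≤ r + 1 →
        ∑ l ∈ (range j).filter (fun l => ¬(1 - m l ≤ τ)), dmAt m l ≤ 1 - τ + γ := by
      intro j
      induction j with
      | zero =>
        intro _
        have h0 : 0 ≤ γ := (hm.dm_nonneg (Nat.zero_le r)).trans (hγ 0 (Nat.zero_le r))
        simp; linarith
      | succ i ih =>
        intro hi
        by_cases hp : 1 - m i ≤ τ
        · rw [range_add_one, filter_insert, if_neg (not_not.2 hp)]
          exact ih (by omega)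
        · refine (sum_le_sum_of_subset_of_nonneg (filter_subset _ _) fun l hl _ =>
            hm.dm_nonneg (by have := mem_range.1 hl; omega)).trans ?_
          rw [hm.sum_dm hi]
          have := hγ i (by omega)
          rw [dmAt] at this
          linarith [not_le.1 hp]
    linarith [key (r + 1) le_rfl]
  have hne : s.Nonempty := nonempty_of_sum_ne_zero (by linarith : ∑ l ∈ s, dmAt m l ≠ 0)
  obtain ⟨k, hk, hmin⟩ := s.exists_min_image f hne
  simp only [hs, mem_filter, mem_range] at hk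
  refine ⟨k, by omega, hk.2, ?_⟩
  calc (τ - γ) * f k ≤ (∑ l ∈ s, dmAt m l) * f k :=
        mul_le_mul_of_nonneg_right hmass (hf k (by omega))
    _ ≤ ∑ l ∈ s, dmAt m l * f l := by
        rw [Finset.sum_mul]
        exact sum_le_sum fun l hl => mul_le_mul_of_nonneg_left (hmin l hl)
          (hm.dm_nonneg (by simp only [hs, mem_filter, mem_range] at hl; omega))
    _ ≤ _ := sum_le_sum_of_subset_of_nonneg (filter_subset _ _) fun l hl _ =>
        mul_nonneg (hm.dm_nonneg (Nat.lt_succ_iff.1 (mem_range.1 hl)))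
          (hf l (Nat.lt_succ_iff.1 (mem_range.1 hl)))

/-- An almost semidefinite symmetric matrix with an almost inverse is definite. -/
theorem sub_psd_of_approx_inv {T Lam : Matrix (Fin n) (Fin n) ℝ} (hT : T.IsHermitian) {b ε : ℝ}
    (hb : 0 < b) (hL : mabs Lam ≤ b) (hE : mabs (Lam * T - 1) ≤ 1 / 2)
    (hlow : (T + ε • (1 : Matrix (Fin n) (Fin n) ℝ)).PosSemidef) (hε : ε < 1 / (2 * b)) :
    (T - (1 / (2 * b)) • (1 : Matrix (Fin n) (Fin n) ℝ)).PosSemidef := by
  classical
  set c := 1 / (2 * b) with hc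
  have hA : (T - c • (1 : Matrix (Fin n) (Fin n) ℝ)).IsHermitian :=
    hT.sub (by simp [Matrix.IsHermitian, Matrix.conjTranspose_smul])
  refine hA.posSemidef_iff_eigenvalues_nonneg.2 fun i => ?_
  set μ := hA.eigenvalues i + c with hμ
  set v : Fin n → ℝ := ⇑(hA.eigenvectorBasis i) with hv
  have hTv : T *ᵥ v = μ • v := by
    have := hA.mulVec_eigenvectorBasis i
    rw [Matrix.sub_mulVec, Matrix.smul_mulVec, Matrix.one_mulVec, sub_eq_iff_eq_add] at this
    rw [hμ, add_smul]
    simpa [hv] using this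
  have hvn : v ≠ 0 := fun h0 => hA.eigenvectorBasis.orthonormal.ne_zero i (by
    ext k; exact congrFun h0 k)
  obtain ⟨j0, hj0⟩ : ∃ j, v j ≠ 0 := Function.ne_iff.1 hvn
  obtain ⟨j, -, hj⟩ := Finset.univ.exists_max_image (fun j => |v j|) ⟨j0, mem_univ _⟩
  have hvj : 0 < |v j| := (abs_pos.2 hj0).trans_le (hj j0 (mem_univ _))
  have hmv : ∀ (M : Matrix (Fin n) (Fin n) ℝ) {β : ℝ}, mabs M ≤ β → |(M *ᵥ v) j| ≤ β * |v j| := by
    intro M β hM
    simp only [Matrix.mulVec, dotProduct]
    refine (Finset.abs_sum_le_sum_abs _ _).trans ((sum_le_sum (g := fun l => |M j l| * |v j|)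
      fun l _ => ?_).trans ?_)
    · rw [abs_mul]; exact mul_le_mul_of_nonneg_left (hj l (mem_univ _)) (abs_nonneg _)
    · rw [← Finset.sum_mul]
      exact mul_le_mul_of_nonneg_right ((single_le_sum (f := fun k => ∑ l, |M k l|)
        (fun _ _ => sum_nonneg fun _ _ => abs_nonneg _) (mem_univ j)).trans hM) (abs_nonneg _)
  have h1 := hmv _ hE
  have h2 : |μ * (Lam *ᵥ v) j| ≤ |μ| * (b * |v j|) := by
    rw [abs_mul]; exact mul_le_mul_of_nonneg_left (hmv _ hL) (abs_nonneg _)
  rw [Matrix.sub_mulVec, ← Matrix.mulVec_mulVec, hTv, Matrix.mulVec_smul, Matrix.one_mulVec,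
    Pi.sub_apply, Pi.smul_apply, smul_eq_mul] at h1
  have h3 : |v j| * (1 / 2) ≤ |v j| * (|μ| * b) := by
    nlinarith [abs_sub_abs_le_abs_sub (v j) (μ * (Lam *ᵥ v) j),
      abs_sub_comm (v j) (μ * (Lam *ᵥ v) j)]
  have h4 : c ≤ |μ| := by
    have := le_of_mul_le_mul_left h3 hvj
    rw [hc, div_le_iff₀ (by positivity)]
    linarith
  have h5 : -ε ≤ μ := by
    have h := hlow.dotProduct_mulVec_nonneg v
    simp only [star_trivial, Matrix.add_mulVec, hTv, Matrix.smul_mulVec, Matrix.one_mulVec,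
      dotProduct_add, dotProduct_smul, smul_eq_mul, ← add_mul] at h
    have hvv : 0 < v ⬝ᵥ v := by
      refine lt_of_lt_of_le (mul_self_pos.2 hj0) ?_
      exact single_le_sum (f := fun k => v k * v k) (fun k _ => mul_self_nonneg _) (mem_univ j0)
    linarith [nonneg_of_mul_nonneg_left h hvv]
  show (0 : ℝ) ≤ hA.eigenvalues i
  rcases abs_cases μ with h | h <;> linarith [h.1, h.2]

/-- The error constant of the nearby exact pair. -/
noncomputable def exactC (n : ℕ) (B : ℝ) : ℝ :=
  let k := (n : ℝ) ^ 2 * (6 * B)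
  exp (k * B) * (k * (k * B + 1)) * (2 * (1 + (3 * B ^ 3 + 8 * B) * (2 * B)))

/-- An approximately stationary pair has a nearby exact one: an overlap path uniformly below the
self-overlap, and its best response, close in mean over the levels. -/
theorem exists_exact (hm : Levels m r) {γ τ ε δ B : ℝ} (hγ : ∀ l, l ≤ r → dmAt m l ≤ γ)
    (hτ : τ ≤ 1) (hγτ : γ < τ) (hB : 1 ≤ B) {D L : Matrix (Fin n) (Fin n) ℝ}
    {w q : ℕ → Matrix (Fin n) (Fin n) ℝ} (hDu : D.det ≠ 0) (hDi : mabs D⁻¹ ≤ B)
    (hL : mabs L ≤ B) (hdiag : L * D + cum m w q (r + 1) = 1)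
    (hres : lmean m r (resid m r L D w q) ≤ δ) (hδτ : δ + δ / (τ - γ) ≤ 1 / 2)
    (hwB : ∀ l, l ≤ r → mabs (w l) ≤ B)
    (hq : IsPath r q) (hqB : ∀ l, l ≤ r → mabs (q l) ≤ B)
    (hup : (D - q r + ε • (1 : Matrix (Fin n) (Fin n) ℝ)).PosSemidef) (hε : ε < 1 / (6 * B)) :
    ∃ q' : ℕ → Matrix (Fin n) (Fin n) ℝ, IsPath r q' ∧ (∀ l, l ≤ r → mabs (q' l) ≤ B) ∧
      (D - q' r - (1 / (6 * B)) • (1 : Matrix (Fin n) (Fin n) ℝ)).PosSemidef ∧
      lmean m r (fun l => q' l - q l) ≤ τ * (2 * B) ∧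
      lmean m r (fun l => w l - bestPath m r D q' l) ≤ exactC n B * (δ + τ) := by
  obtain ⟨k0, hk0, hk0τ, hk0f⟩ := exists_small hm hγ hτ
    (f := fun l => mabs (resid m r L D w q l)) (fun l _ => Casc.mabs_nonneg _) hγτ
  have hB0 : 0 < B := zero_lt_one.trans_le hB
  have hδ0 : 0 ≤ δ := (lmean_nonneg hm _).trans hres
  have hw1 := lmean_le_of_bound hm hwB
  have hT0 : (tT m r D q k0 + ε • (1 : Matrix (Fin n) (Fin n) ℝ)).PosSemidef := by
    have := (tT_sub_psd hm D hq hk0).add hup
    rwa [show tT m r D q k0 - (D - q r) + (D - q r + ε • (1 : Matrix (Fin n) (Fin n) ℝ))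
      = tT m r D q k0 + ε • (1 : Matrix (Fin n) (Fin n) ℝ) by abel] at this
  have hLam : mabs (tLam m r L w k0) ≤ 3 * B :=
    (Casc.mabs_add _ _).trans (by linarith [mabs_tail_le hm w hk0, hwB k0 hk0])
  have hE : mabs (tLam m r L w k0 * tT m r D q k0 - 1) ≤ 1 / 2 := by
    refine (mabs_tLam_mul_tT_le hm hdiag hk0).trans (le_trans (add_le_add hres ?_) hδτ)
    rw [le_div_iff₀ (by linarith), mul_comm]
    exact hk0f.trans hres
  have hTh : (tT m r D q k0).IsHermitian := by
    have := hT0.isHermitian.sub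
      (show (ε • (1 : Matrix (Fin n) (Fin n) ℝ)).IsHermitian by
        simp [Matrix.IsHermitian, Matrix.conjTranspose_smul])
    rwa [add_sub_cancel_right] at this
  have hc6 := sub_psd_of_approx_inv hTh (by positivity : (0 : ℝ) < 3 * B) hLam hE hT0
    (by rw [show 2 * (3 * B) = 6 * B by ring]; exact hε)
  -- the path stopped at `k0`
  set q' : ℕ → Matrix (Fin n) (Fin n) ℝ := fun l => q (min l k0) with hq'
  have hq'p : IsPath r q' := ⟨by simpa [hq'] using hq.nonneg, fun l hl => by
    simp only [hq']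
    rcases lt_or_ge l k0 with h | h
    · rw [min_eq_left (by omega : l + 1 ≤ k0), min_eq_left h.le]
      exact hq.step l hl
    · rw [min_eq_right (by omega : k0 ≤ l + 1), min_eq_right h, sub_self]
      exact Matrix.PosSemidef.zero⟩
  have hq'B : ∀ l, l ≤ r → mabs (q' l) ≤ B := fun l _ => hqB _ (by omega)
  set x : ℕ → Matrix (Fin n) (Fin n) ℝ := fun l => q' l - q l with hx
  have hx1 : lmean m r x ≤ τ * (2 * B) := by
    have e : ∀ l ∈ range (r + 1), dmAt m l * mabs (x l)
        ≤ if k0 ≤ l then dmAt m l * (2 * B) else 0 := fun l hl => by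
      have hl' := Nat.lt_succ_iff.1 (mem_range.1 hl)
      split_ifs with h
      · refine mul_le_mul_of_nonneg_left ((Casc.mabs_sub _ _).trans ?_) (hm.dm_nonneg hl')
        linarith [hq'B l hl', hqB l hl']
      · simp [hx, hq', min_eq_left (not_le.1 h).le]
    refine (sum_le_sum e).trans ?_
    rw [← sum_filter, ← Finset.sum_mul]
    refine mul_le_mul_of_nonneg_right ?_ (by positivity)
    have hc := sum_filter_add_sum_filter_not (range (r + 1)) (fun l => k0 ≤ l) (dmAt m)
    rw [hm.sum_dm le_rfl, hm.top,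
      show (range (r + 1)).filter (fun l => ¬k0 ≤ l) = range k0 by
        ext l; simp only [mem_filter, mem_range]; omega,
      hm.sum_dm (by omega)] at hc
    linarith
  have hD'' : (D - q' r - (1 / (6 * B)) • (1 : Matrix (Fin n) (Fin n) ℝ)).PosSemidef := by
    have hqr : q' r = q k0 := by simp [hq', min_eq_right hk0]
    have hdec : (D - q k0 - tT m r D q k0).PosSemidef := by
      have hs := sum_dm_Ioc (m := m) hk0
      have e : D - q k0 - tT m r D q k0
          = ∑ j ∈ Ioc k0 r, dmAt m j • (q j - q k0) := by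
        simp only [tT, tail, dmAt, smul_sub, sum_sub_distrib, ← Finset.sum_smul, hs, hm.top]
        module
      rw [e]
      refine Matrix.posSemidef_sum _ fun j hj => ?_
      simp only [mem_Ioc] at hj
      refine Matrix.PosSemidef.smul ?_ (hm.dm_nonneg hj.2)
      have hind : ∀ j, k0 ≤ j → j ≤ r → (q j - q k0).PosSemidef := by
        intro j
        induction j with
        | zero =>
          intro h _
          rw [Nat.le_zero.1 h, sub_self]; exact Matrix.PosSemidef.zero
        | succ i ih =>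
          intro h h'
          rcases h.eq_or_lt with h | h
          · rw [← h, sub_self]; exact Matrix.PosSemidef.zero
          · have := (ih (by omega) (by omega)).add (hq.step i h')
            rwa [add_comm, sub_add_sub_cancel] at this
      exact hind j hj.1.le hj.2
    have := hdec.add hc6
    rw [hqr]
    rwa [show (1 : ℝ) / (2 * (3 * B)) = 1 / (6 * B) by ring,
      ← add_sub_assoc, sub_add_cancel] at this
  set L' := L - cum m w x (r + 1) * D⁻¹ with hL'
  have hcumq' : ∀ l, cum m w q' l = cum m w q l + cum m w x l := fun l => by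
    simp only [cum, hx, Matrix.mul_sub, smul_sub, sum_sub_distrib]
    abel
  have hdiag' : L' * D + cum m w q' (r + 1) = 1 := by
    rw [hL', Matrix.sub_mul, Matrix.nonsing_inv_mul_cancel_right _ _ (isUnit_iff_ne_zero.2 hDu),
      hcumq', ← hdiag]
    abel
  have hdiff : ∀ l, l ≤ r → resid m r L' D w q' l = resid m r L D w q l
      + ((L' - L) * q' l + tLam m r L w l * x l + w l * tail m r x l + cum m w x l
          - m l • (w l * x l)) := fun l _ => by
    have ht : tail m r q' l = tail m r q l + tail m r x l := by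
      simp only [tail, hx, smul_sub, sum_sub_distrib]; abel
    simp only [resid, tT, ht, hcumq', tLam, hx, Matrix.add_mul, Matrix.mul_sub, Matrix.sub_mul,
      Matrix.mul_add, smul_sub]
    abel
  have hres' : lmean m r (resid m r L' D w q') ≤ δ + (3 * B ^ 3 + 8 * B) * (τ * (2 * B)) := by
    set X := lmean m r x with hX
    have hX0 : 0 ≤ X := lmean_nonneg hm _
    have hpt : ∀ l, l ≤ r → mabs (resid m r L' D w q' l) ≤ mabs (resid m r L D w q l)
        + ((B ^ 3 + 2 * B) * X + 5 * B * mabs (x l)) := fun l hl => by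
      obtain ⟨h0, h1⟩ := hm.le_one (l := l) (by omega)
      have c1 : mabs (L' - L) ≤ X * B * B := by
        rw [hL', sub_sub_cancel_left, Casc.mabs_neg]
        exact Casc.mabs_mul_le ((mabs_cum_le hm hwB le_rfl).2) hDi
      have c2 : mabs (cum m w x l) ≤ X * B := (mabs_cum_le hm hwB (by omega)).2
      have c3 : mabs (tail m r x l) ≤ X + mabs (x l) := mabs_tail_le hm x hl
      have c4 : mabs (tLam m r L w l) ≤ 3 * B :=
        (Casc.mabs_add _ _).trans (by linarith [mabs_tail_le hm w hl, hwB l hl])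
      have c5 : mabs (m l • (w l * x l)) ≤ B * mabs (x l) := by
        rw [Casc.mabs_smul, abs_of_nonneg h0]
        exact (mul_le_of_le_one_left (Casc.mabs_nonneg _) h1).trans
          (Casc.mabs_mul_le (hwB l hl) le_rfl)
      rw [hdiff l hl]
      refine (Casc.mabs_add _ _).trans (add_le_add le_rfl ((Casc.mabs_sub _ _).trans
        ((add_le_add ((Casc.mabs_add _ _).trans (add_le_add ((Casc.mabs_add _ _).trans (add_le_add
          ((Casc.mabs_add _ _).trans (add_le_add (Casc.mabs_mul_le c1 (hq'B l hl))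
            (Casc.mabs_mul_le c4 le_rfl))) (Casc.mabs_mul_le (hwB l hl) c3))) c2)) c5).trans ?_)))
      linarith
    refine le_trans (sum_le_sum (g := fun l => dmAt m l * mabs (resid m r L D w q l)
      + (dmAt m l * ((B ^ 3 + 2 * B) * X) + 5 * B * (dmAt m l * mabs (x l)))) fun l hl => ?_) ?_
    · have hl' := Nat.lt_succ_iff.1 (mem_range.1 hl)
      refine (mul_le_mul_of_nonneg_left (hpt l hl') (hm.dm_nonneg hl')).trans_eq ?_
      ring
    · rw [sum_add_distrib, sum_add_distrib, ← Finset.sum_mul, ← Finset.mul_sum, hm.sum_dm le_rfl,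
        hm.top, one_mul]
      have := mul_le_mul_of_nonneg_left hx1 (by positivity : (0 : ℝ) ≤ 3 * B ^ 3 + 8 * B)
      show lmean m r (resid m r L D w q) + ((B ^ 3 + 2 * B) * X + 5 * B * X) ≤ _
      nlinarith [mul_nonneg hX0 (pow_nonneg hB0.le 3)]
  have hclose := response_close hm hdiag' hq'p (by positivity : (0 : ℝ) < 1 / (6 * B)) hD'' hq'B
  dsimp only at hclose
  rw [show (n : ℝ) ^ 2 / (1 / (6 * B)) = (n : ℝ) ^ 2 * (6 * B) by field_simp] at hclose
  refine ⟨q', hq'p, hq'B, hD'', hx1, hclose.trans ?_⟩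
  have hτ0 : 0 ≤ τ := by
    linarith [(hm.dm_nonneg (Nat.zero_le r)).trans (hγ 0 (Nat.zero_le r))]
  have hc1 : δ + (3 * B ^ 3 + 8 * B) * (τ * (2 * B))
      ≤ (1 + (3 * B ^ 3 + 8 * B) * (2 * B)) * (δ + τ) := by
    have : 0 ≤ (3 * B ^ 3 + 8 * B) * (2 * B) * δ := by positivity
    linarith
  simp only [exactC]
  refine (mul_le_mul_of_nonneg_left (mul_le_mul_of_nonneg_left (hres'.trans hc1)
    (zero_le_two (α := ℝ))) (by positivity)).trans_eq ?_
  ring

/-- The best response of a path uniformly below the self-overlap is bounded. -/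
theorem bestPath_bound (hm : Levels m r) {D : Matrix (Fin n) (Fin n) ℝ}
    {q : ℕ → Matrix (Fin n) (Fin n) ℝ} (hDu : D.det ≠ 0) {c B : ℝ} (hc : 0 < c)
    (hDi : mabs D⁻¹ ≤ B) (hq : IsPath r q)
    (hD : (D - q r - c • (1 : Matrix (Fin n) (Fin n) ℝ)).PosSemidef)
    (hB : ∀ l, l ≤ r → mabs (q l) ≤ B) :
    let k := (n : ℝ) ^ 2 / c
    ∀ l, l ≤ r → mabs (bestPath m r D q l)
      ≤ k * B * (exp (k * B) * (k * (k * B + 1)) * (2 * B ^ 2)) + k * (k * B + 1) * (2 * B ^ 2) := by
  intro k l hl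
  have hk0 : 0 ≤ k := by positivity
  have hB0 : 0 ≤ B := (Casc.mabs_nonneg _).trans hDi
  set w : ℕ → Matrix (Fin n) (Fin n) ℝ := fun _ => 0 with hw
  have hdiag : D⁻¹ * D + cum m w q (r + 1) = 1 := by
    rw [Matrix.nonsing_inv_mul _ (isUnit_iff_ne_zero.2 hDu)]
    simp [cum, hw]
  have hres : ∀ j, j ≤ r → mabs (resid m r D⁻¹ D w q j) ≤ B ^ 2 := fun j hj => by
    have e : resid m r D⁻¹ D w q j = D⁻¹ * q j := by simp [resid, tLam, tail, cum, hw]
    rw [e, sq]
    exact Casc.mabs_mul_le hDi (hB j hj)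
  have hδ : lmean m r (resid m r D⁻¹ D w q) ≤ B ^ 2 := lmean_le_of_bound hm hres
  have h1 := response_close hm hdiag hq hc hD hB
  have h2 := response_point hm hdiag hq hc hD hB l hl
  dsimp only at h1 h2
  simp only [hw, zero_sub, Casc.mabs_neg] at h1 h2
  refine h2.trans (add_le_add (mul_le_mul_of_nonneg_left ?_ (mul_nonneg hk0 hB0))
    (mul_le_mul_of_nonneg_left ?_ (by positivity)))
  · refine le_trans ((sum_le_sum_of_subset_of_nonneg (range_subset_range.2 (by omega : l ≤ r + 1))
      fun j hj _ => mul_nonneg (hm.dm_nonneg (Nat.lt_succ_iff.1 (mem_range.1 hj)))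
        (Casc.mabs_nonneg _)).trans ((le_of_eq ?_).trans h1)) ?_
    · simp only [lmean, Casc.mabs_neg]
    · exact mul_le_mul_of_nonneg_left (mul_le_mul_of_nonneg_left hδ zero_le_two) (by positivity)
  · linarith [hres l hl]

/-- The error constant of approximate monotonicity. -/
noncomputable def monoC (n : ℕ) (B : ℝ) : ℝ := 2 * B * exactC n B + 4 * B ^ 2

/-- Approximate stationarity gives the monotonicity of the response up to a small error, uniformly
in the number of levels. -/
theorem monotone_approx (hm : Levels m r) {γ τ ε δ B : ℝ} (hγ : ∀ l, l ≤ r → dmAt m l ≤ γ)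
    (hτ : τ ≤ 1) (hγτ : γ < τ) (hB : 1 ≤ B) {D L : Matrix (Fin n) (Fin n) ℝ}
    {w q : ℕ → Matrix (Fin n) (Fin n) ℝ} (hDu : D.det ≠ 0) (hDi : mabs D⁻¹ ≤ B)
    (hL : mabs L ≤ B) (hdiag : L * D + cum m w q (r + 1) = 1)
    (hres : lmean m r (resid m r L D w q) ≤ δ) (hδτ : δ + δ / (τ - γ) ≤ 1 / 2)
    (hwB : ∀ l, l ≤ r → mabs (w l) ≤ B)
    (hq : IsPath r q) (hqB : ∀ l, l ≤ r → mabs (q l) ≤ B)
    (hup : (D - q r + ε • (1 : Matrix (Fin n) (Fin n) ℝ)).PosSemidef) (hε : ε < 1 / (6 * B))
    {Q : ℕ → Matrix (Fin n) (Fin n) ℝ} (hQ : IsPath r Q) (hQD : (D - Q r).PosDef)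
    (hQB : ∀ l, l ≤ r → mabs (Q l) ≤ B) (hPB : ∀ l, l ≤ r → mabs (bestPath m r D Q l) ≤ B) :
    -(monoC n B * (δ + τ)) ≤ pairing m r w q - pairing m r w Q
      - pairing m r (bestPath m r D Q) q + pairing m r (bestPath m r D Q) Q := by
  have hB0 : 0 < B := zero_lt_one.trans_le hB
  obtain ⟨q', hq'p, hq'B, hD'', hx1, hclose⟩ :=
    exists_exact hm hγ hτ hγτ hB hDu hDi hL hdiag hres hδτ hwB hq hqB hup hε
  set x : ℕ → Matrix (Fin n) (Fin n) ℝ := fun l => q' l - q l with hx
  set p := bestPath m r D q'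
  set P := bestPath m r D Q
  have hpd' : (D - q' r).PosDef := (mabs_inv_le (by positivity) hD'').1
  have hmono := pairing_ge_of_stationary hm (bestPath_isPath hm hq'p hpd') hq'p hpd'
    (bestPath_isPath hm hQ hQD) hQ hQD (bestPath_mul_eq_one hm hq'p hpd')
    (bestPath_mul_eq_one hm hQ hQD) (bestPath_root hm hq'p hpd') (bestPath_root hm hQ hQD)
  simp only [sub_self, Matrix.mul_zero, Matrix.trace_zero, neg_zero] at hmono
  have edec : pairing m r w q - pairing m r w Q - pairing m r P q + pairing m r P Q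
      = (pairing m r p q' - pairing m r p Q - pairing m r P q' + pairing m r P Q)
        + (cum m (fun l => w l - p l) (fun l => q' l - Q l) (r + 1)).trace
        - (cum m (fun l => w l - P l) x (r + 1)).trace := by
    simp only [pairing, cum, hx, Matrix.sub_mul, Matrix.mul_sub, smul_sub, sum_sub_distrib,
      Matrix.trace_sub]
    ring
  have a1 := (abs_trace_le _).trans (mabs_cum_le hm (x := fun l => w l - p l)
    (y := fun l => q' l - Q l) (B := 2 * B) (fun l hl => (Casc.mabs_sub _ _).trans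
      (by linarith [hq'B l hl, hQB l hl])) (le_refl (r + 1))).1
  have a2 := (abs_trace_le _).trans (mabs_cum_le hm (x := x)
    (y := fun l => w l - P l) (B := 2 * B) (fun l hl => (Casc.mabs_sub _ _).trans
      (by linarith [hwB l hl, hPB l hl])) (le_refl (r + 1))).2
  rw [edec]
  have hb := (abs_le.1 a1).1
  have hb2 := (abs_le.1 a2).2
  have hδ0 : 0 ≤ δ := (lmean_nonneg hm _).trans hres
  have h6 := mul_le_mul_of_nonneg_right hclose (by positivity : (0 : ℝ) ≤ 2 * B)
  have h7 := mul_le_mul_of_nonneg_right hx1 (by positivity : (0 : ℝ) ≤ 2 * B)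
  have h8 : 0 ≤ 4 * B ^ 2 * δ := by positivity
  rw [monoC]
  nlinarith

end Vale.Agent.P166.Formula
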