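import Vale.Agent.P166.Formula.Ent

/-!
The best response to an overlap path exists and is an increasing path (P166, formula side).
-/

open Real Finset Matrix

namespace Vale.Agent.P166.Formula

variable {n : ℕ} {m : ℕ → ℝ} {r : ℕ}

/-- The best response to the overlap path `q`. -/
noncomputable def bestPath (m : ℕ → ℝ) (r : ℕ) (D : Matrix (Fin n) (Fin n) ℝ)
    (q : ℕ → Matrix (Fin n) (Fin n) ℝ) (l : ℕ) : Matrix (Fin n) (Fin n) ℝ :=
  (tT m r D q 0)⁻¹ * q 0 * (tT m r D q 0)⁻¹
    + ∑ j ∈ range l, (m (j + 1))⁻¹ • ((tT m r D q (j + 1))⁻¹ - (tT m r D q j)⁻¹)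

/-- The bottom precision of the best response. -/
noncomputable def bestTilt (m : ℕ → ℝ) (r : ℕ) (D : Matrix (Fin n) (Fin n) ℝ)
    (q : ℕ → Matrix (Fin n) (Fin n) ℝ) : Matrix (Fin n) (Fin n) ℝ :=
  tiltFor m r D q (bestPath m r D q)

theorem bestPath_isPath (hm : Levels m r) {D : Matrix (Fin n) (Fin n) ℝ}
    {q : ℕ → Matrix (Fin n) (Fin n) ℝ} (hq : IsPath r q) (hD : (D - q r).PosDef) :
    IsPath r (bestPath m r D q) := by
  have hT := tT_posDef hm hq hD
  refine ⟨?_, fun l hl => ?_⟩
  · have h := hq.nonneg.mul_mul_conjTranspose_same (tT m r D q 0)⁻¹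
    rw [(hT 0 (Nat.zero_le r)).inv.isHermitian.eq] at h
    simpa [bestPath] using h
  · have hmp := hm.pos (l + 1) (by omega) (by omega)
    have e : bestPath m r D q (l + 1) - bestPath m r D q l
        = (m (l + 1))⁻¹ • ((tT m r D q (l + 1))⁻¹ - (tT m r D q l)⁻¹) := by
      simp only [bestPath, Finset.sum_range_succ]
      abel
    rw [e]
    exact (inv_antitone (hT l hl.le) (hT (l + 1) hl) ((hq.step l hl).smul hmp.le)
      (tT_step D q hl)).smul (inv_pos.2 hmp).le

theorem bestPath_mul_eq_one (hm : Levels m r) {D : Matrix (Fin n) (Fin n) ℝ}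
    {q : ℕ → Matrix (Fin n) (Fin n) ℝ} (hq : IsPath r q) (hD : (D - q r).PosDef) :
    ∀ l, l ≤ r →
      tLam m r (bestTilt m r D q) (bestPath m r D q) l * tT m r D q l = 1 := by
  have hT := tT_posDef hm hq hD
  have key : ∀ l, l ≤ r →
      tLam m r (bestTilt m r D q) (bestPath m r D q) l = (tT m r D q l)⁻¹ := by
    intro l
    induction l with
    | zero => exact fun _ => tLam_tiltFor D q _
    | succ k ih =>
      intro hk
      have e := tLam_step (m := m) (bestTilt m r D q) (bestPath m r D q) (Nat.lt_of_succ_le hk)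
      rw [eq_sub_iff_add_eq] at e
      have hne : m (k + 1) ≠ 0 := (hm.pos (k + 1) (by omega) (by omega)).ne'
      rw [← e, ih (by omega)]
      simp only [bestPath, Finset.sum_range_succ, add_sub_add_left_eq_sub, add_sub_cancel_left,
        smul_smul, mul_inv_cancel₀ hne, one_smul]
      abel
  intro l hl
  rw [key l hl]
  exact Matrix.nonsing_inv_mul _ (isUnit_iff_ne_zero.2 (hT l hl).det_pos.ne')

theorem bestPath_root (hm : Levels m r) {D : Matrix (Fin n) (Fin n) ℝ}
    {q : ℕ → Matrix (Fin n) (Fin n) ℝ} (hq : IsPath r q) (hD : (D - q r).PosDef) :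
    q 0 = tT m r D q 0 * bestPath m r D q 0 * tT m r D q 0 := by
  have hu := isUnit_iff_ne_zero.2 ((tT_posDef hm hq hD) 0 (Nat.zero_le r)).det_pos.ne'
  simp only [bestPath, Finset.range_zero, Finset.sum_empty, add_zero, ← Matrix.mul_assoc,
    Matrix.mul_nonsing_inv _ hu, Matrix.one_mul]
  rw [Matrix.mul_assoc, Matrix.nonsing_inv_mul _ hu, Matrix.mul_one]

/-- The best response attains the entropy. -/
theorem bestPath_eq_ent (hm : Levels m r) (τ : ℝ) {D : Matrix (Fin n) (Fin n) ℝ}
    {q : ℕ → Matrix (Fin n) (Fin n) ℝ} (hq : IsPath r q) (hD : (D - q r).PosDef) :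
    spinVal m r τ D (bestTilt m r D q) (bestPath m r D q)
      + pairing m r (bestPath m r D q) q / 2 = ent m r τ D q :=
  spinVal_eq_ent hm τ (bestPath_mul_eq_one hm hq hD)

end Vale.Agent.P166.Formula
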