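import Vale.Agent.P166.Casc.BlockShell
import Vale.Agent.P166.Formula.Best
import Vale.Agent.P166.Formula.GaussPsi

/-!
The value of a family of overlap paths of the types at given self-overlaps, and its infimum: the
variational formula of the penalised free energy (P166, formula side).
-/

open MeasureTheory ProbabilityTheory Finset Real
open Matrix hiding comp

namespace Vale.Agent.P166.Formula

open Vale.Agent.P166.Pen
open Vale.Agent.P166.Casc (comp comp_mem exists_comp)
open Vale.Agent.P157.Casc (casc gaus mlev)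
open Vale.Agent.P150.Fast.Dom (arrMap)

variable {d : ℕ}

/-- Upper end of the sites of a type. -/
noncomputable def tHi (γ : Fin d → ℝ) (t : Finset (Fin d)) : ℝ := t.fold min 1 γ

/-- Lower end of the sites of a type. -/
noncomputable def tLo (γ : Fin d → ℝ) (t : Finset (Fin d)) : ℝ := tᶜ.fold max 0 γ

/-- The fraction of the sites which have a type. -/
noncomputable def tfrac (γ : Fin d → ℝ) (t : Finset (Fin d)) : ℝ := max 0 (tHi γ t - tLo γ t)

/-- The selection of the components of a type. -/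
def selM (t : Finset (Fin d)) : Matrix (Fin t.card) (Fin d) ℝ :=
  (1 : Matrix (Fin d) (Fin d) ℝ).submatrix (comp t) id

/-- A matrix on the components of a type as a matrix on all components. -/
def liftM (t : Finset (Fin d)) (X : Matrix (Fin t.card) (Fin t.card) ℝ) :
    Matrix (Fin d) (Fin d) ℝ :=
  (selM t).transpose * X * selM t

/-- The self-overlaps of all types together. -/
def dTot (dd : OIdx d → ℝ) : Matrix (Fin d) (Fin d) ℝ := Matrix.of fun k l => ∑ t, dd (t, k, l)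

/-- The self-overlaps of one type. -/
def tmat (dd : OIdx d → ℝ) (t : Finset (Fin d)) : Matrix (Fin t.card) (Fin t.card) ℝ :=
  Matrix.of fun b b' => dd (t, comp t b, comp t b')

/-- The self-overlaps of one type, per site of the type. -/
noncomputable def typD (γ : Fin d → ℝ) (dd : OIdx d → ℝ) (t : Finset (Fin d)) :
    Matrix (Fin t.card) (Fin t.card) ℝ :=
  (tfrac γ t)⁻¹ • tmat dd t

/-- A family of paths, one for each type. -/
abbrev TPath (d : ℕ) : Type :=
  (t : Finset (Fin d)) → ℕ → Matrix (Fin t.card) (Fin t.card) ℝ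

/-- The overlap path of all types together. -/
noncomputable def qTot (γ : Fin d → ℝ) (q : TPath d) (l : ℕ) : Matrix (Fin d) (Fin d) ℝ :=
  ∑ t, tfrac γ t • liftM t (q t l)

/-- Increasing paths of the types strictly below the self-overlaps. -/
structure Adm (γ : Fin d → ℝ) (dd : OIdx d → ℝ) (r : ℕ) (q : TPath d) : Prop where
  path : ∀ t, Occupied γ t → IsPath r (q t)
  top : ∀ t, Occupied γ t → (typD γ dd t - q t r).PosDef

/-- The value of a family of paths: rows at ratio `α` and the entropies of the types. -/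
noncomputable def pathVal (τ : ℝ) (f : (Fin d → ℝ) → ℝ) (γ : Fin d → ℝ) (α : ℝ)
    (dd : OIdx d → ℝ) (r : ℕ) (q : TPath d) : ℝ :=
  α * rowVal f r (dTot dd) (qTot γ q)
    + ∑ t, tfrac γ t * ent (gridM r) r τ (typD γ dd t) (q t)

/-- All values at given self-overlaps. -/
def valSet (τ : ℝ) (f : (Fin d → ℝ) → ℝ) (γ : Fin d → ℝ) (α : ℝ) (dd : OIdx d → ℝ) : Set ℝ :=
  {v | ∃ r q, Adm γ dd r q ∧ v = pathVal τ f γ α dd r q}

/-- The variational value at given self-overlaps. -/
noncomputable def gVal (τ : ℝ) (f : (Fin d → ℝ) → ℝ) (γ : Fin d → ℝ) (α : ℝ)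
    (dd : OIdx d → ℝ) : ℝ :=
  sInf (valSet τ f γ α dd)

section Frac

variable {γ : Fin d → ℝ} {N : ℕ}

theorem tfrac_nonneg (γ : Fin d → ℝ) (t : Finset (Fin d)) : 0 ≤ tfrac γ t := le_max_left _ _

theorem tLo_nonneg (γ : Fin d → ℝ) (t : Finset (Fin d)) : 0 ≤ tLo γ t :=
  (Finset.le_fold_max _).2 (Or.inl le_rfl)

theorem tfrac_le_one (γ : Fin d → ℝ) (t : Finset (Fin d)) : tfrac γ t ≤ 1 := by
  have h1 : tHi γ t ≤ 1 := (Finset.fold_min_le _).2 (Or.inl le_rfl)
  have := tLo_nonneg γ t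
  exact max_le zero_le_one (by linarith)

theorem occupied_lt (hγ : ∀ k, 0 < γ k ∧ γ k ≤ 1) {t : Finset (Fin d)} (h : Occupied γ t) :
    tLo γ t < tHi γ t := by
  obtain ⟨k0, hk0⟩ := h.1
  refine (Finset.fold_max_lt _).2 ⟨(Finset.lt_fold_min _).2 ⟨one_pos, fun k _ => (hγ k).1⟩, ?_⟩
  intro l hl
  refine (Finset.lt_fold_min _).2 ⟨?_, fun k hk => h.2 k hk l (Finset.mem_compl.1 hl)⟩
  exact (h.2 k0 hk0 l (Finset.mem_compl.1 hl)).trans_le (hγ k0).2

theorem tfrac_pos (hγ : ∀ k, 0 < γ k ∧ γ k ≤ 1) {t : Finset (Fin d)} (h : Occupied γ t) :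
    0 < tfrac γ t :=
  lt_max_of_lt_right (sub_pos.2 (occupied_lt hγ h))

theorem tfrac_eq_zero (hγ : ∀ k, 0 < γ k ∧ γ k ≤ 1) {t : Finset (Fin d)} (ht : t.Nonempty)
    (h : ¬Occupied γ t) : tfrac γ t = 0 := by
  simp only [Occupied, ht, true_and, not_forall, not_lt] at h
  obtain ⟨k, hk, l, hl, hkl⟩ := h
  have h1 : tHi γ t ≤ γ k := (Finset.fold_min_le _).2 (Or.inr ⟨k, hk, le_rfl⟩)
  have h2 : γ l ≤ tLo γ t := (Finset.le_fold_max _).2 (Or.inr ⟨l, Finset.mem_compl.2 hl, le_rfl⟩)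
  exact max_eq_left (by linarith)

/-- The sites of a type are an interval. -/
theorem count_typ (hγ : ∀ k, 0 < γ k ∧ γ k ≤ 1) (hN : 0 < N) (t : Finset (Fin d)) :
    |((univ.filter fun j : Fin N => typ γ j = t).card : ℝ) / N - tfrac γ t| ≤ 1 / N := by
  set lo := ⌊tLo γ t * N⌋₊
  set hi := ⌊tHi γ t * N⌋₊
  have hN' : (0 : ℝ) < N := Nat.cast_pos.2 hN
  have hhi0 : 0 ≤ tHi γ t := (Finset.le_fold_min _).2 ⟨zero_le_one, fun k _ => (hγ k).1.le⟩
  have hlo0 := tLo_nonneg γ t
  have hhi1 : tHi γ t ≤ 1 := (Finset.fold_min_le _).2 (Or.inl le_rfl)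
  have hmem : ∀ j : Fin N, typ γ j = t ↔ lo ≤ j.val ∧ j.val < hi := fun j => by
    have hlt : j.val < hi ↔ ∀ k ∈ t, j.val < blk γ N k := by
      rw [Nat.lt_iff_add_one_le, Nat.le_floor_iff (by positivity), ← div_le_iff₀ hN', tHi,
        Finset.le_fold_min]
      refine ⟨fun h k hk => ?_, fun h => ⟨?_, fun k hk => ?_⟩⟩
      · rw [Nat.lt_iff_add_one_le, blk,
          Nat.le_floor_iff (mul_nonneg (hγ k).1.le hN'.le), ← div_le_iff₀ hN']
        exact h.2 k hk
      · rw [div_le_one hN']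
        exact_mod_cast j.isLt
      · have := h k hk
        rwa [Nat.lt_iff_add_one_le, blk,
          Nat.le_floor_iff (mul_nonneg (hγ k).1.le hN'.le), ← div_le_iff₀ hN'] at this
    have hle : lo ≤ j.val ↔ ∀ k ∉ t, blk γ N k ≤ j.val := by
      rw [← Nat.lt_add_one_iff, Nat.floor_lt (by positivity), ← lt_div_iff₀ hN', tLo,
        Finset.fold_max_lt]
      refine ⟨fun h k hk => ?_, fun h => ⟨by positivity, fun k hk => ?_⟩⟩
      · rw [← Nat.lt_add_one_iff, blk, Nat.floor_lt (mul_nonneg (hγ k).1.le hN'.le),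
          ← lt_div_iff₀ hN']
        exact h.2 k (Finset.mem_compl.2 hk)
      · have := h k (Finset.mem_compl.1 hk)
        rwa [← Nat.lt_add_one_iff, blk, Nat.floor_lt (mul_nonneg (hγ k).1.le hN'.le),
          ← lt_div_iff₀ hN'] at this
    rw [hlt, hle, Finset.ext_iff]
    simp only [typ, mem_filter, mem_univ, true_and]
    refine ⟨fun h => ⟨fun k hk => not_lt.1 fun h' => hk ((h k).1 h'), fun k hk => (h k).2 hk⟩,
      fun h k => ⟨fun hk => ?_, fun hk => h.2 k hk⟩⟩
    by_contra hk'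
    exact absurd hk (not_lt.2 (h.1 k hk'))
  have hhiN : hi ≤ N := Nat.floor_le_of_le (mul_le_of_le_one_left hN'.le hhi1)
  have hcard : (univ.filter fun j : Fin N => typ γ j = t).card = hi - lo := by
    rw [Finset.filter_congr fun j _ => hmem j, ← Finset.card_map Fin.valEmbedding,
      ← Nat.card_Ico lo hi]
    congr 1
    ext x
    simp only [mem_map, mem_filter, mem_univ, true_and, Fin.valEmbedding_apply, mem_Ico]
    exact ⟨fun ⟨j, hj, e⟩ => e ▸ hj, fun hx => ⟨⟨x, hx.2.trans_le hhiN⟩, hx, rfl⟩⟩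
  have e1 : (hi : ℝ) ≤ tHi γ t * N ∧ tHi γ t * N < hi + 1 :=
    ⟨Nat.floor_le (by positivity), Nat.lt_floor_add_one _⟩
  have e2 : (lo : ℝ) ≤ tLo γ t * N ∧ tLo γ t * N < lo + 1 :=
    ⟨Nat.floor_le (by positivity), Nat.lt_floor_add_one _⟩
  rw [hcard, div_sub' hN'.ne', abs_div, abs_of_pos hN']
  refine div_le_div_of_nonneg_right ?_ hN'.le
  rw [tfrac, mul_max_of_nonneg _ _ hN'.le, mul_zero]
  rcases le_total lo hi with h | h
  · rw [Nat.cast_sub h]
    have h' : (lo : ℝ) ≤ hi := Nat.cast_le.2 h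
    rcases max_cases (0 : ℝ) ((N : ℝ) * (tHi γ t - tLo γ t)) with ⟨hm, hc⟩ | ⟨hm, hc⟩ <;>
      rw [hm, abs_le] <;> constructor <;> nlinarith
  · rw [Nat.sub_eq_zero_of_le h, Nat.cast_zero]
    have h' : (hi : ℝ) ≤ lo := Nat.cast_le.2 h
    rcases max_cases (0 : ℝ) ((N : ℝ) * (tHi γ t - tLo γ t)) with ⟨hm, hc⟩ | ⟨hm, hc⟩ <;>
      rw [hm, abs_le] <;> constructor <;> nlinarith

end Frac

section Lift

variable {γ : Fin d → ℝ} {t : Finset (Fin d)}

theorem liftM_zero (t : Finset (Fin d)) : liftM t 0 = 0 := by simp [liftM]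

theorem liftM_sub (X Y : Matrix (Fin t.card) (Fin t.card) ℝ) :
    liftM t (X - Y) = liftM t X - liftM t Y := by
  simp [liftM, Matrix.mul_sub, Matrix.sub_mul]

theorem liftM_smul (a : ℝ) (X : Matrix (Fin t.card) (Fin t.card) ℝ) :
    liftM t (a • X) = a • liftM t X := by
  simp [liftM]

theorem liftM_psd {X : Matrix (Fin t.card) (Fin t.card) ℝ} (hX : X.PosSemidef) :
    (liftM t X).PosSemidef := by
  have h := hX.conjTranspose_mul_mul_same (selM t)
  rwa [conjTranspose_eq_transpose_of_trivial] at h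

theorem liftM_apply (X : Matrix (Fin t.card) (Fin t.card) ℝ) (k l : Fin d) :
    liftM t X k l
      = ∑ b, ∑ b', if comp t b = k ∧ comp t b' = l then X b b' else 0 := by
  simp only [liftM, selM, Matrix.mul_apply, Matrix.transpose_apply, Matrix.submatrix_apply,
    Matrix.one_apply, id_eq, Finset.sum_mul, mul_ite, mul_one, mul_zero, ite_mul, one_mul,
    zero_mul]
  conv_rhs => rw [Finset.sum_comm]
  refine Finset.sum_congr rfl fun b _ => ?_
  by_cases h2 : comp t b = l <;> simp [h2]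

theorem liftM_apply_comp (X : Matrix (Fin t.card) (Fin t.card) ℝ) (b b' : Fin t.card) :
    liftM t X (comp t b) (comp t b') = X b b' := by
  simp [liftM_apply, (comp t).injective.eq_iff, ite_and, Finset.sum_ite_eq']

theorem liftM_tmat {dd : OIdx d → ℝ} (hd : Clean γ dd) (t : Finset (Fin d)) :
    liftM t (tmat dd t) = Matrix.of fun k l => dd (t, k, l) := by
  ext k l
  by_cases h : k ∈ t ∧ l ∈ t
  · obtain ⟨b, rfl⟩ := exists_comp h.1
    obtain ⟨b', rfl⟩ := exists_comp h.2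
    exact liftM_apply_comp _ b b'
  · rw [liftM_apply, Matrix.of_apply, hd.2 t k l fun h' => h h'.2]
    exact Finset.sum_eq_zero fun b _ => Finset.sum_eq_zero fun b' _ =>
      if_neg fun h' : comp t b = k ∧ comp t b' = l => h ⟨h'.1 ▸ comp_mem t b, h'.2 ▸ comp_mem t b'⟩

theorem dTot_eq (hγ : ∀ k, 0 < γ k ∧ γ k ≤ 1) {dd : OIdx d → ℝ} (hd : Clean γ dd) :
    dTot dd = ∑ t, tfrac γ t • liftM t (typD γ dd t) := by
  ext k l
  simp only [dTot, Matrix.of_apply, Matrix.sum_apply]
  refine Finset.sum_congr rfl fun t _ => ?_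
  rw [typD, liftM_smul, smul_smul, liftM_tmat hd]
  rcases eq_or_lt_of_le (tfrac_nonneg γ t) with h | h
  · rw [← h, zero_mul, zero_smul, Matrix.zero_apply]
    exact hd.2 t k l fun ho => absurd h (tfrac_pos hγ ho.1).ne
  · rw [mul_inv_cancel₀ h.ne', one_smul]
    rfl

theorem qTot_isPath {r : ℕ} {q : TPath d}
    (hγ : ∀ k, 0 < γ k ∧ γ k ≤ 1) (hq : ∀ t, Occupied γ t → IsPath r (q t)) :
    IsPath r (qTot γ q) := by
  have hz : ∀ (t : Finset (Fin d)) (X : Matrix (Fin t.card) (Fin t.card) ℝ),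
      (Occupied γ t → X.PosSemidef) → (tfrac γ t • liftM t X).PosSemidef := fun t X hX => by
    by_cases ho : Occupied γ t
    · exact (liftM_psd (hX ho)).smul (tfrac_nonneg γ t)
    rcases t.eq_empty_or_nonempty with rfl | hne
    · have : X = 0 := Matrix.ext fun b => absurd b.isLt (by simp)
      rw [this, liftM_zero, smul_zero]
      exact Matrix.PosSemidef.zero
    · rw [tfrac_eq_zero hγ hne ho, zero_smul]
      exact Matrix.PosSemidef.zero
  refine ⟨Matrix.posSemidef_sum _ fun t _ => hz t _ fun ho => (hq t ho).nonneg, fun l hl => ?_⟩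
  simp only [qTot, ← Finset.sum_sub_distrib, ← smul_sub, ← liftM_sub]
  exact Matrix.posSemidef_sum _ fun t _ => hz t _ fun ho => (hq t ho).step l hl

theorem qTot_top {r : ℕ} {q : TPath d} {dd : OIdx d → ℝ} (hγ : ∀ k, 0 < γ k ∧ γ k ≤ 1)
    (hd : Clean γ dd) (hq : Adm γ dd r q) : (dTot dd - qTot γ q r).PosSemidef := by
  rw [dTot_eq hγ hd, qTot, ← Finset.sum_sub_distrib]
  refine Matrix.posSemidef_sum _ fun t _ => ?_
  rw [← smul_sub, ← liftM_sub]
  by_cases ho : Occupied γ t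
  · exact (liftM_psd (hq.top t ho).posSemidef).smul (tfrac_nonneg γ t)
  rcases t.eq_empty_or_nonempty with rfl | hne
  · have e : typD γ dd ∅ - q ∅ r = 0 := Matrix.ext fun b => absurd b.isLt (by simp)
    rw [e, liftM_zero, smul_zero]
    exact Matrix.PosSemidef.zero
  · rw [tfrac_eq_zero hγ hne ho, zero_smul]
    exact Matrix.PosSemidef.zero

theorem typD_posDef {κ L : ℝ} (hκ : 0 < κ) (hγ : ∀ k, 0 < γ k ∧ γ k ≤ 1) {dd : OIdx d → ℝ}
    (hd : GoodCentre γ κ L dd) {t : Finset (Fin d)} (ht : Occupied γ t) :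
    (typD γ dd t - (κ / tfrac γ t) • (1 : Matrix (Fin t.card) (Fin t.card) ℝ)).PosSemidef := by
  have ha := tfrac_pos hγ ht
  have e : typD γ dd t - (κ / tfrac γ t) • 1 = (tfrac γ t)⁻¹ • (tmat dd t - κ • 1) := by
    rw [typD, smul_sub, smul_smul, div_eq_inv_mul]
  rw [e]
  refine Matrix.PosSemidef.smul ?_ (inv_nonneg.2 ha.le)
  refine Matrix.PosSemidef.of_dotProduct_mulVec_nonneg ?_ fun x => ?_
  · refine Matrix.IsHermitian.sub ?_ ((Matrix.isHermitian_one).smul (star_trivial κ))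
    refine Matrix.IsHermitian.ext fun b b' => ?_
    simp only [tmat, Matrix.of_apply, star_trivial]
    exact hd.1.1 t _ _
  set v : Fin d → ℝ := fun k => ∑ b, if comp t b = k then x b else 0
  have hv : ∀ k ∉ t, v k = 0 := fun k hk =>
    Finset.sum_eq_zero fun b _ => if_neg fun h : comp t b = k => hk (h ▸ comp_mem t b)
  have hvc : ∀ b, v (comp t b) = x b := fun b => by
    simp [v, (comp t).injective.eq_iff, Finset.sum_ite_eq']
  have h := hd.2.2 t ht v hv
  have hs : ∀ F : Fin d → ℝ, (∀ k ∉ t, F k = 0) → ∑ k, F k = ∑ b, F (comp t b) := fun F hF => by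
    rw [← Casc.sum_comp_eq t F, ← Finset.sum_subset (Finset.subset_univ t) fun k _ hk => hF k hk]
  have hin : ∀ k, ∑ l, v k * v l * dd (t, k, l) = ∑ b, v k * v (comp t b) * dd (t, k, comp t b) :=
    fun k => hs _ fun l hl => by simp [hv l hl]
  rw [hs (fun k => v k ^ 2) (fun k hk => by simp [hv k hk])] at h
  simp only [hin] at h
  rw [hs (fun k => ∑ b, v k * v (comp t b) * dd (t, k, comp t b))
    (fun k hk => by simp [hv k hk])] at h
  simp only [hvc] at h
  simp only [star_trivial, Matrix.sub_mulVec, Matrix.smul_mulVec, Matrix.one_mulVec,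
    dotProduct_sub, dotProduct_smul, smul_eq_mul, sub_nonneg]
  calc κ * (x ⬝ᵥ x) = κ * ∑ b, x b ^ 2 := by simp only [dotProduct, pow_two]
    _ ≤ _ := h
    _ = x ⬝ᵥ tmat dd t *ᵥ x := by
        simp only [dotProduct, Matrix.mulVec, tmat, Matrix.of_apply, Finset.mul_sum]
        exact Finset.sum_congr rfl fun b _ => Finset.sum_congr rfl fun b' _ => by ring

end Lift

section Bound

theorem abs_rowVal_le {f : (Fin d → ℝ) → ℝ} {b : ℝ} (hf : Measurable f) (hb : ∀ v, |f v| ≤ b)
    (K : ℕ) (D : Matrix (Fin d) (Fin d) ℝ) (q : ℕ → Matrix (Fin d) (Fin d) ℝ) :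
    |rowVal f K D q| ≤ b := by
  set S : Fin K → Fin d → Fin d → ℝ := fun l => facOf (q (l.val + 1) - q l.val)
  set T := facOf (D - q K)
  have hm : Measurable fun h => casc (gaus (Fin d)) K (mlev K) fun y =>
      rowLeaf f T (rowFld S h y) := measurable_casc_fld S _ (measurable_rowLeaf hf T)
  refine abs_le.2 ?_
  have hbd : ∀ z, |casc (gaus (Fin d)) K (mlev K) (fun y =>
      rowLeaf f T (rowFld S (arrMap (facOf (q 0)) z) y))| ≤ b := fun z =>
    P157.Casc.casc_bdd _ _ (P157.Casc.grid_mlev K).pos ((measurable_rowLeaf hf T).comp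
      ((continuous_rowFld S).measurable.comp measurable_prodMk_left))
      fun y => abs_rowLeaf_le hf hb T _
  refine abs_le.1 ?_
  rw [← Real.norm_eq_abs, rowVal, rowCasc]
  refine (norm_integral_le_of_norm_le_const (ae_of_all _ fun z =>
    (Real.norm_eq_abs _).trans_le (hbd z))).trans_eq ?_
  simp

variable {n : ℕ} {m : ℕ → ℝ} {r : ℕ}

/-- The entropy of a path is at least that of the zero path. -/
theorem ent_zero_le (hm : Levels m r) (τ : ℝ) {D : Matrix (Fin n) (Fin n) ℝ} (hD0 : D.PosDef)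
    {q : ℕ → Matrix (Fin n) (Fin n) ℝ} (hq : IsPath r q) (hD : (D - q r).PosDef) :
    1 / 2 * (log D.det - D.trace / τ + n * (1 - log τ)) ≤ ent m r τ D q := by
  have hp : IsPath r (fun _ => (0 : Matrix (Fin n) (Fin n) ℝ)) :=
    ⟨Matrix.PosSemidef.zero, fun _ _ => by simpa using Matrix.PosSemidef.zero⟩
  have h := spinVal_le_ent hm τ hp hq hD
  have hT := tT_posDef hm hq hD 0 (Nat.zero_le r)
  have htail : ∀ l, tail m r (fun _ => (0 : Matrix (Fin n) (Fin n) ℝ)) l = 0 := fun l => by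
    simp [tail]
  have hpair : pairing m r (fun _ => (0 : Matrix (Fin n) (Fin n) ℝ)) q = 0 := by
    simp [pairing, cum]
  have hg := P150.Fast.logdet_tangent hT.inv hD0.inv
  rw [Matrix.nonsing_inv_nonsing_inv _ (isUnit_iff_ne_zero.2 hD0.det_pos.ne'),
    Matrix.det_nonsing_inv, Matrix.det_nonsing_inv, Ring.inverse_eq_inv', log_inv, log_inv, Matrix.mul_sub, Matrix.trace_sub,
    Matrix.mul_nonsing_inv _ (isUnit_iff_ne_zero.2 hD0.det_pos.ne'), Matrix.trace_one,
    Fintype.card_fin, Matrix.trace_mul_comm D] at hg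
  refine le_trans ?_ h
  rw [hpair]
  simp only [spinVal, tiltFor, htail, tLam, sub_zero, add_zero, Matrix.zero_mul, Matrix.trace_zero,
    levelSum, sub_self, mul_zero, Finset.sum_const_zero, zero_sub, zero_div, Matrix.det_nonsing_inv,
    Ring.inverse_eq_inv', log_inv]
  linarith

variable {γ : Fin d → ℝ} {dd : OIdx d → ℝ} {κ L b τ α : ℝ} {f : (Fin d → ℝ) → ℝ}

/-- The values are bounded below. -/
theorem bddBelow_valSet (hγ : ∀ k, 0 < γ k ∧ γ k ≤ 1) (hκ : 0 < κ) (hd : GoodCentre γ κ L dd)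
    (hα : 0 ≤ α) (hf : Measurable f) (hb : ∀ y, |f y| ≤ b) :
    BddBelow (valSet τ f γ α dd) := by
  refine ⟨-(α * b) + ∑ t, tfrac γ t * (1 / 2 * (log (typD γ dd t).det - (typD γ dd t).trace / τ
    + (t.card : ℝ) * (1 - log τ))), ?_⟩
  rintro _ ⟨r, q, hq, rfl⟩
  refine add_le_add ?_ (Finset.sum_le_sum fun t _ => ?_)
  · rw [← mul_neg]
    refine mul_le_mul_of_nonneg_left ?_ hα
    exact neg_le_of_abs_le (abs_rowVal_le hf hb r _ _)
  · by_cases ho : Occupied γ t
    · have hpos : (typD γ dd t).PosDef := by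
        have h := Matrix.PosDef.posSemidef_add (typD_posDef hκ hγ hd ho)
          (Matrix.PosDef.one.smul (div_pos hκ (tfrac_pos hγ ho)))
        simpa using h
      exact mul_le_mul_of_nonneg_left
        (ent_zero_le (gridM_levels r) τ hpos (hq.path t ho) (hq.top t ho)) (tfrac_nonneg γ t)
    rcases t.eq_empty_or_nonempty with rfl | hne
    · refine mul_le_mul_of_nonneg_left (le_of_eq ?_) (tfrac_nonneg γ _)
      have h0 : ∀ X : Matrix (Fin (∅ : Finset (Fin d)).card) (Fin (∅ : Finset (Fin d)).card) ℝ,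
          X.trace = 0 ∧ log X.det = 0 := fun X => by
        have he : IsEmpty (Fin (∅ : Finset (Fin d)).card) := ⟨fun b => absurd b.isLt (by simp)⟩
        exact ⟨Finset.sum_eq_zero fun b _ => he.elim b, by rw [Matrix.det_isEmpty, log_one]⟩
      simp only [ent, levelSum, fun X => (h0 X).1, fun X => (h0 X).2]
      simp
    · simp [tfrac_eq_zero hγ hne ho]

theorem valSet_nonempty (hγ : ∀ k, 0 < γ k ∧ γ k ≤ 1) (hκ : 0 < κ) (hd : GoodCentre γ κ L dd) :
    (valSet τ f γ α dd).Nonempty := by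
  refine ⟨_, 0, fun _ _ => 0, ⟨fun t _ => ⟨Matrix.PosSemidef.zero, fun l hl => absurd hl (by simp)⟩,
    fun t ht => ?_⟩, rfl⟩
  have h := Matrix.PosDef.posSemidef_add (typD_posDef hκ hγ hd ht)
    (Matrix.PosDef.one.smul (div_pos hκ (tfrac_pos hγ ht)))
  simpa using h

end Bound

end Vale.Agent.P166.Formula
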