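import Vale.Agent.P150.Fast.Dom.LinLaw
import Vale.Agent.P157.Casc.EndBase
import Vale.Agent.P166.Formula.GaussPsi

/-!
The value of one row of Gaussian fields along an overlap path, its invariance under the choice of
the factors, and the merge of the top increment into the last level (P166, formula side).
-/

open MeasureTheory ProbabilityTheory Matrix Finset
open scoped MatrixOrder

namespace Vale.Agent.P166.Formula

open Vale.Agent.P166
open Vale.Agent.P157.Casc (casc gaus mlev Grid grid_mlev casc_bdd)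
open Vale.Agent.P150.Fast.Dom (arrMap arrMap_apply map_gp_eq)

variable {d K : ℕ} {J J' : Type} [Fintype J] [Fintype J']

/-- Quadratic form of the covariance of a family of factors. -/
def cq (S : Fin d → J → ℝ) (u : Fin d → ℝ) : ℝ := ∑ i, (∑ k, u k * S k i) ^ 2

/-- Fields built from the factors of the levels. -/
noncomputable def rowFld (S : Fin K → Fin d → J → ℝ) (h : Fin d → ℝ) (y : Fin K → J → ℝ) :
    Fin d → ℝ :=
  h + ∑ l, arrMap (S l) (y l)

/-- The annealed top of a row. -/
noncomputable def rowLeaf (f : (Fin d → ℝ) → ℝ) (T : Fin d → Fin d → ℝ) (h : Fin d → ℝ) : ℝ :=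
  Real.log (∫ g, Real.exp (f (h + arrMap T g)) ∂gaus (Fin d))

/-- The cascade value of one row with factors `S`, the root having `A0`. -/
noncomputable def rowCasc (f : (Fin d → ℝ) → ℝ) (A0 : Fin d → J → ℝ)
    (S : Fin K → Fin d → J → ℝ) : ℝ :=
  ∫ z, casc (gaus J) K (mlev K) (fun y => f (rowFld S (arrMap A0 z) y)) ∂gaus J

/-- A square root of a positive semidefinite matrix, as a family of factors. -/
noncomputable def facOf (P : Matrix (Fin d) (Fin d) ℝ) : Fin d → Fin d → ℝ :=
  fun k i => CFC.sqrt P k i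

/-- The value of one row along the path `q` with self-overlap `D`. -/
noncomputable def rowVal (f : (Fin d → ℝ) → ℝ) (K : ℕ) (D : Matrix (Fin d) (Fin d) ℝ)
    (q : ℕ → Matrix (Fin d) (Fin d) ℝ) : ℝ :=
  rowCasc (rowLeaf f (facOf (D - q K))) (facOf (q 0))
    fun l : Fin K => facOf (q (l.val + 1) - q l.val)

theorem cq_facOf {P : Matrix (Fin d) (Fin d) ℝ} (hP : P.PosSemidef) (u : Fin d → ℝ) :
    cq (facOf P) u = u ⬝ᵥ P *ᵥ u := by
  have hs : (CFC.sqrt P).PosSemidef := Matrix.nonneg_iff_posSemidef.1 (CFC.sqrt_nonneg P)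
  have hb : CFC.sqrt P * CFC.sqrt P = P := CFC.sqrt_mul_sqrt_self P hP.nonneg
  have ht : (CFC.sqrt P).transpose = CFC.sqrt P := by
    have := hs.isHermitian.eq
    rwa [conjTranspose_eq_transpose_of_trivial] at this
  calc cq (facOf P) u = (u ᵥ* CFC.sqrt P) ⬝ᵥ (u ᵥ* CFC.sqrt P) := by
        simp only [cq, facOf, dotProduct, Matrix.vecMul, pow_two]
    _ = u ⬝ᵥ P *ᵥ u := by
        conv_lhs => rw [← Matrix.dotProduct_mulVec, ← Matrix.mulVec_transpose, ht,
          Matrix.mulVec_mulVec, hb]

theorem integral_image_eq {S : Fin d → J → ℝ} {S' : Fin d → J' → ℝ}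
    (h : ∀ u, cq S u = cq S' u) {F : (Fin d → ℝ) → ℝ} (hF : Measurable F) :
    ∫ x, F (arrMap S x) ∂gaus J = ∫ x, F (arrMap S' x) ∂gaus J' := by
  rw [← integral_map (arrMap S).continuous.aemeasurable hF.aestronglyMeasurable,
    ← integral_map (arrMap S').continuous.aemeasurable hF.aestronglyMeasurable]
  exact congrArg (fun μ => ∫ x, F x ∂μ) (map_gp_eq S S' h)

theorem rowFld_cons (S : Fin (K + 1) → Fin d → J → ℝ) (h : Fin d → ℝ) (x : J → ℝ)
    (y : Fin K → J → ℝ) :
    rowFld S h (Fin.cons x y) = rowFld (fun l => S l.succ) (h + arrMap (S 0) x) y := by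
  simp only [rowFld, Fin.sum_univ_succ, Fin.cons_zero, Fin.cons_succ, add_assoc]

theorem continuous_rowFld (S : Fin K → Fin d → J → ℝ) :
    Continuous fun p : (Fin d → ℝ) × (Fin K → J → ℝ) => rowFld S p.1 p.2 :=
  continuous_fst.add (continuous_finsetSum _ fun l _ =>
    (arrMap (S l)).continuous.comp ((continuous_apply l).comp continuous_snd))

theorem measurable_casc_fld (S : Fin K → Fin d → J → ℝ) (m : Fin K → ℝ)
    {f : (Fin d → ℝ) → ℝ} (hf : Measurable f) :
    Measurable fun h => casc (gaus J) K m fun y => f (rowFld S h y) :=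
  Vale.Agent.P157.Casc.measurable_casc_param (H := fun h y => f (rowFld S h y)) K m
    (hf.comp (continuous_rowFld S).measurable)

theorem casc_fld_succ (m : Fin (K + 1) → ℝ) (S : Fin (K + 1) → Fin d → J → ℝ)
    (f : (Fin d → ℝ) → ℝ) (h : Fin d → ℝ) :
    casc (gaus J) (K + 1) m (fun y => f (rowFld S h y))
      = (m 0)⁻¹ * Real.log (∫ x, Real.exp (m 0 * casc (gaus J) K (fun l => m l.succ)
          fun y => f (rowFld (fun l => S l.succ) (h + arrMap (S 0) x) y)) ∂gaus J) := by
  simp only [← rowFld_cons]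
  rfl

/-- The recursion only sees the covariances of the levels. -/
theorem casc_fld_congr : ∀ (K : ℕ) (m : Fin K → ℝ) (S : Fin K → Fin d → J → ℝ)
    (S' : Fin K → Fin d → J' → ℝ), (∀ l u, cq (S l) u = cq (S' l) u) →
    ∀ {f : (Fin d → ℝ) → ℝ}, Measurable f → ∀ h,
      casc (gaus J) K m (fun y => f (rowFld S h y))
        = casc (gaus J') K m fun y => f (rowFld S' h y)
  | 0, m, S, S', _, f, _, h => by simp [casc, rowFld]
  | K + 1, m, S, S', hS, f, hf, h => by
    simp only [casc, rowFld_cons]
    simp only [casc_fld_congr K (fun l => m l.succ) (fun l => S l.succ) (fun l => S' l.succ)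
      (fun l => hS l.succ) hf]
    rw [integral_image_eq (hS 0) (F := fun v => Real.exp (m 0 *
      casc (gaus J') K (fun l => m l.succ) fun y => f (rowFld (fun l => S' l.succ) (h + v) y)))
      ((((measurable_casc_fld _ _ hf).comp (measurable_const_add h)).const_mul _).exp)]

theorem rowCasc_congr {A0 : Fin d → J → ℝ} {A0' : Fin d → J' → ℝ}
    {S : Fin K → Fin d → J → ℝ} {S' : Fin K → Fin d → J' → ℝ} (h0 : ∀ u, cq A0 u = cq A0' u)
    (hS : ∀ l u, cq (S l) u = cq (S' l) u) {f : (Fin d → ℝ) → ℝ} (hf : Measurable f) :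
    rowCasc f A0 S = rowCasc f A0' S' := by
  simp only [rowCasc, casc_fld_congr K (mlev K) S S' hS hf]
  exact integral_image_eq h0 (measurable_casc_fld S' _ hf)

section Bdd

variable {f : (Fin d → ℝ) → ℝ} {b : ℝ}

theorem measurable_rowLeaf (hf : Measurable f) (T : Fin d → Fin d → ℝ) :
    Measurable (rowLeaf f T) := by
  have hc : Measurable fun p : (Fin d → ℝ) × (Fin d → ℝ) =>
      Real.exp (f (p.1 + arrMap T p.2)) :=
    (hf.comp (measurable_fst.add ((arrMap T).continuous.measurable.comp measurable_snd))).exp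
  exact (StronglyMeasurable.integral_prod_right' (ν := gaus (Fin d))
    hc.stronglyMeasurable).measurable.log

theorem exp_mem {v : ℝ} (hv : |v| ≤ b) :
    Real.exp (-b) ≤ Real.exp v ∧ Real.exp v ≤ Real.exp b :=
  ⟨Real.exp_le_exp.2 (abs_le.1 hv).1, Real.exp_le_exp.2 (abs_le.1 hv).2⟩

theorem abs_log_integral_exp {X : Type*} [MeasurableSpace X] {μ : Measure X}
    [IsProbabilityMeasure μ] {F : X → ℝ} (hF : Measurable F) (hb : ∀ x, |F x| ≤ b) :
    Integrable (fun x => Real.exp (F x)) μ ∧ 0 < ∫ x, Real.exp (F x) ∂μ ∧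
      |Real.log (∫ x, Real.exp (F x) ∂μ)| ≤ b := by
  have hi : Integrable (fun x => Real.exp (F x)) μ :=
    (integrable_const (Real.exp b)).mono' hF.exp.aestronglyMeasurable (ae_of_all _ fun x => by
      rw [Real.norm_eq_abs, abs_of_pos (Real.exp_pos _)]; exact (exp_mem (hb x)).2)
  have h1 : Real.exp (-b) ≤ ∫ x, Real.exp (F x) ∂μ := by
    simpa using integral_mono (integrable_const (Real.exp (-b))) hi fun x => (exp_mem (hb x)).1
  have h2 : ∫ x, Real.exp (F x) ∂μ ≤ Real.exp b := by
    simpa using integral_mono hi (integrable_const (Real.exp b)) fun x => (exp_mem (hb x)).2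
  have hp := (Real.exp_pos _).trans_le h1
  refine ⟨hi, hp, abs_le.2 ⟨?_, ?_⟩⟩
  · simpa using Real.log_le_log (Real.exp_pos _) h1
  · simpa using Real.log_le_log hp h2

theorem abs_rowLeaf_le (hf : Measurable f) (hb : ∀ v, |f v| ≤ b) (T : Fin d → Fin d → ℝ)
    (h : Fin d → ℝ) : |rowLeaf f T h| ≤ b :=
  (abs_log_integral_exp (μ := gaus (Fin d))
    (hf.comp (measurable_const_add h |>.comp (arrMap T).continuous.measurable))
    fun _ => hb _).2.2

/-- One step: the top increment inside the last level, against the annealed top. -/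
theorem merge_step {S : Fin d → J → ℝ} {S' : Fin d → J' → ℝ} {T : Fin d → Fin d → ℝ}
    (hS : ∀ u, cq S' u = cq S u + cq T u) (hf : Measurable f) (hb : ∀ v, |f v| ≤ b) {m : ℝ}
    (hm : 0 < m) (hm1 : m ≤ 1) (h : Fin d → ℝ) :
    m⁻¹ * Real.log (∫ x, Real.exp (m * f (h + arrMap S' x)) ∂gaus J')
        ≤ m⁻¹ * Real.log (∫ x, Real.exp (m * rowLeaf f T (h + arrMap S x)) ∂gaus J) ∧
    m⁻¹ * Real.log (∫ x, Real.exp (m * rowLeaf f T (h + arrMap S x)) ∂gaus J)
        - 2 * b * (1 - m) / m
      ≤ m⁻¹ * Real.log (∫ x, Real.exp (m * f (h + arrMap S' x)) ∂gaus J') := by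
  set W : Fin d → (J ⊕ Fin d) → ℝ := fun k => Sum.elim (S k) (T k)
  have hW : ∀ u, cq S' u = cq W u := fun u => by
    simp only [cq, W, Fintype.sum_sum_type, Sum.elim_inl, Sum.elim_inr]
    exact hS u
  have hmf : Measurable fun v => Real.exp (m * f (h + v)) :=
    ((hf.comp (measurable_const_add h)).const_mul m).exp
  have e1 := integral_image_eq hW hmf
  have hmp := measurePreserving_sumPiEquivProdPi_symm
    (X := fun _ : J ⊕ Fin d => ℝ) fun _ => gaussianReal 0 1
  have hW' : ∀ (x : J → ℝ) (g : Fin d → ℝ),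
      arrMap W ((MeasurableEquiv.sumPiEquivProdPi fun _ : J ⊕ Fin d => ℝ).symm (x, g))
        = arrMap S x + arrMap T g := fun x g => funext fun k => by
    simp only [arrMap_apply, Fintype.sum_sum_type, Pi.add_apply, W, Sum.elim_inl, Sum.elim_inr]
    rfl
  have hjm : Measurable fun p : (J → ℝ) × (Fin d → ℝ) =>
      Real.exp (m * f (h + arrMap S p.1 + arrMap T p.2)) :=
    ((hf.comp ((measurable_const.add ((arrMap S).continuous.measurable.comp measurable_fst)).add
      ((arrMap T).continuous.measurable.comp measurable_snd))).const_mul m).exp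
  have hji : Integrable (fun p : (J → ℝ) × (Fin d → ℝ) =>
      Real.exp (m * f (h + arrMap S p.1 + arrMap T p.2))) ((gaus J).prod (gaus (Fin d))) := by
    refine (integrable_const (Real.exp (m * b))).mono' hjm.aestronglyMeasurable
      (ae_of_all _ fun p => ?_)
    rw [Real.norm_eq_abs, abs_of_pos (Real.exp_pos _)]
    exact Real.exp_le_exp.2 (mul_le_mul_of_nonneg_left (abs_le.1 (hb _)).2 hm.le)
  have e2 : ∫ x, Real.exp (m * f (h + arrMap W x)) ∂gaus (J ⊕ Fin d)
      = ∫ x, ∫ g, Real.exp (m * f (h + arrMap S x + arrMap T g)) ∂gaus (Fin d) ∂gaus J := by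
    show ∫ x, Real.exp (m * f (h + arrMap W x)) ∂Measure.pi _ = _
    rw [← hmp.integral_comp' (fun x => Real.exp (m * f (h + arrMap W x)))]
    simp only [hW', ← add_assoc]
    exact integral_prod _ hji
  have hb0 : 0 ≤ b := (abs_nonneg _).trans (hb 0)
  have key : ∀ x, ∫ g, Real.exp (m * f (h + arrMap S x + arrMap T g)) ∂gaus (Fin d)
        ≤ Real.exp (m * rowLeaf f T (h + arrMap S x)) ∧
      Real.exp (m * rowLeaf f T (h + arrMap S x)) * Real.exp (-(2 * b * (1 - m)))
        ≤ ∫ g, Real.exp (m * f (h + arrMap S x + arrMap T g)) ∂gaus (Fin d) := fun x => by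
    set v := h + arrMap S x
    have hfv : Measurable fun g => f (v + arrMap T g) :=
      hf.comp ((measurable_const_add v).comp (arrMap T).continuous.measurable)
    obtain ⟨hi1, hp1, hl1⟩ := abs_log_integral_exp (μ := gaus (Fin d)) hfv fun g => hb _
    obtain ⟨him, -, -⟩ := abs_log_integral_exp (μ := gaus (Fin d)) (hfv.const_mul m)
      (b := m * b) fun g => by
        rw [abs_mul, abs_of_pos hm]; exact mul_le_mul_of_nonneg_left (hb _) hm.le
    set Z := ∫ g, Real.exp (f (v + arrMap T g)) ∂gaus (Fin d)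
    have eZ : Real.exp (m * rowLeaf f T v) = Z ^ m := by
      rw [Real.rpow_def_of_pos hp1, mul_comm]
      rfl
    constructor
    · rw [eZ]
      have hpt : ∀ g, Real.exp (m * f (v + arrMap T g))
          ≤ Z ^ m * (m * (Real.exp (f (v + arrMap T g)) / Z) + (1 - m)) := fun g => by
        have hj := Real.geom_mean_le_arith_mean2_weighted hm.le (by linarith)
          (div_pos (Real.exp_pos (f (v + arrMap T g))) hp1).le zero_le_one (add_sub_cancel m 1)
        rw [Real.one_rpow, mul_one, mul_one, Real.div_rpow (Real.exp_pos _).le hp1.le,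
          ← Real.exp_mul, mul_comm _ m, div_le_iff₀ (Real.rpow_pos_of_pos hp1 m)] at hj
        linarith
      refine (integral_mono him (((hi1.div_const Z).const_mul m).add
        (integrable_const (1 - m)) |>.const_mul (Z ^ m)) hpt).trans_eq ?_
      simp only [Pi.add_apply]
      rw [integral_const_mul, integral_add ((hi1.div_const Z).const_mul m) (integrable_const _),
        integral_const_mul, integral_div, integral_const, probReal_univ, one_smul,
        div_self hp1.ne']
      ring
    · have hpt : ∀ g, Real.exp (f (v + arrMap T g)) * Real.exp (-((1 - m) * b))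
          ≤ Real.exp (m * f (v + arrMap T g)) := fun g => by
        rw [← Real.exp_add, Real.exp_le_exp]
        nlinarith [(abs_le.1 (hb (v + arrMap T g))).2]
      have h1 : Z * Real.exp (-((1 - m) * b))
          ≤ ∫ g, Real.exp (m * f (v + arrMap T g)) ∂gaus (Fin d) := by
        rw [← integral_mul_const]
        exact integral_mono (hi1.mul_const _) him hpt
      refine le_trans (le_of_le_of_eq ?_ rfl) h1
      have hZ : Z = Real.exp (rowLeaf f T v) := (Real.exp_log hp1).symm
      rw [hZ, ← Real.exp_add, ← Real.exp_add, Real.exp_le_exp]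
      nlinarith [(abs_le.1 hl1).1, (abs_le.1 hl1).2, show rowLeaf f T v = Real.log Z from rfl]
  have hml : Measurable fun x => m * rowLeaf f T (h + arrMap S x) :=
    ((measurable_rowLeaf hf T).comp
      ((measurable_const_add h).comp (arrMap S).continuous.measurable)).const_mul m
  obtain ⟨hli, hlp, -⟩ := abs_log_integral_exp (μ := gaus J) hml (b := m * b) fun x => by
    rw [abs_mul, abs_of_pos hm]
    exact mul_le_mul_of_nonneg_left (abs_rowLeaf_le hf hb T _) hm.le
  have hup := integral_mono hji.integral_prod_left hli fun x => (key x).1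
  have hlo := integral_mono (hli.mul_const _) hji.integral_prod_left fun x => (key x).2
  rw [integral_mul_const] at hlo
  have hinv : 0 ≤ m⁻¹ := inv_nonneg.2 hm.le
  rw [e1, e2]
  refine ⟨mul_le_mul_of_nonneg_left (Real.log_le_log (lt_of_lt_of_le
    (mul_pos hlp (Real.exp_pos _)) hlo) hup) hinv, ?_⟩
  have := Real.log_le_log (mul_pos hlp (Real.exp_pos _)) hlo
  rw [Real.log_mul hlp.ne' (Real.exp_pos _).ne', Real.log_exp] at this
  have := mul_le_mul_of_nonneg_left this hinv
  rw [mul_add, mul_neg, ← sub_eq_add_neg, inv_mul_eq_div _ (2 * b * (1 - m))] at this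
  exact this

/-- The top increment inside the last level, against the annealed top, through the levels. -/
theorem casc_merge (hf : Measurable f) (hb : ∀ v, |f v| ≤ b) : ∀ (K : ℕ) {m : Fin (K + 1) → ℝ},
    (∀ l, 0 < m l) → m (Fin.last K) ≤ 1 → ∀ (S : Fin (K + 1) → Fin d → J → ℝ)
    (S' : Fin (K + 1) → Fin d → J' → ℝ) (T : Fin d → Fin d → ℝ),
    (∀ l, l ≠ Fin.last K → ∀ u, cq (S' l) u = cq (S l) u) →
    (∀ u, cq (S' (Fin.last K)) u = cq (S (Fin.last K)) u + cq T u) → ∀ h,
    casc (gaus J') (K + 1) m (fun y => f (rowFld S' h y))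
        ≤ casc (gaus J) (K + 1) m (fun y => rowLeaf f T (rowFld S h y)) ∧
    casc (gaus J) (K + 1) m (fun y => rowLeaf f T (rowFld S h y))
        - 2 * b * (1 - m (Fin.last K)) / m (Fin.last K)
      ≤ casc (gaus J') (K + 1) m fun y => f (rowFld S' h y)
  | 0, m, hm, hm1, S, S', T, _, hlast, h => by
    simp only [casc, rowFld_cons]
    simp only [rowFld, Finset.univ_eq_empty, Finset.sum_empty, add_zero]
    exact merge_step hlast hf hb (hm 0) hm1 h
  | K + 1, m, hm, hm1, S, S', T, hne, hlast, h => by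
    have hlast' : (Fin.last K).succ = Fin.last (K + 1) := Fin.succ_last K
    set c := 2 * b * (1 - m (Fin.last (K + 1))) / m (Fin.last (K + 1))
    have ih : ∀ v, _ := fun v => casc_merge hf hb K (m := fun l => m l.succ) (fun l => hm _)
      (by rw [hlast']; exact hm1) (fun l => S l.succ) (fun l => S' l.succ) T
      (fun l hl => hne l.succ fun e => hl (Fin.succ_injective _ (e.trans hlast'.symm)))
      (by rw [hlast']; exact hlast) v
    set X := fun v => casc (gaus J) (K + 1) (fun l => m l.succ)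
      fun y => rowLeaf f T (rowFld (fun l => S l.succ) v y)
    set X' := fun v => casc (gaus J') (K + 1) (fun l => m l.succ)
      fun y => f (rowFld (fun l => S' l.succ) v y)
    have hXm : Measurable fun v => X (h + v) :=
      (measurable_casc_fld (fun l => S l.succ) (fun l => m l.succ)
        (measurable_rowLeaf hf T)).comp (measurable_const_add h)
    have hXm' : Measurable fun v => X' (h + v) :=
      (measurable_casc_fld (fun l => S' l.succ) (fun l => m l.succ) hf).comp
        (measurable_const_add h)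
    have hXb : ∀ v, |X v| ≤ b := fun v => casc_bdd _ _ (fun l => hm _)
      ((measurable_rowLeaf hf T).comp ((continuous_rowFld _).measurable.comp
        measurable_prodMk_left)) fun y => abs_rowLeaf_le hf hb T _
    have hXb' : ∀ v, |X' v| ≤ b := fun v => casc_bdd _ _ (fun l => hm _)
      (hf.comp ((continuous_rowFld _).measurable.comp measurable_prodMk_left)) fun y => hb _
    have h0 := hm 0
    have hbd : ∀ {F : (Fin d → ℝ) → ℝ}, (∀ v, |F v| ≤ b) → ∀ v, |m 0 * F v| ≤ m 0 * b :=
      fun hF v => by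
        rw [abs_mul, abs_of_pos h0]; exact mul_le_mul_of_nonneg_left (hF v) h0.le
    have hmS := (arrMap (S 0)).continuous.measurable
    obtain ⟨i1, p1, -⟩ := abs_log_integral_exp (μ := gaus J) (b := m 0 * b)
      ((hXm.comp hmS).const_mul (m 0)) fun x => hbd hXb _
    obtain ⟨i2, p2, -⟩ := abs_log_integral_exp (μ := gaus J) (b := m 0 * b)
      ((hXm'.comp hmS).const_mul (m 0)) fun x => hbd hXb' _
    have e : ∫ x, Real.exp (m 0 * X' (h + arrMap (S' 0) x)) ∂gaus J'
        = ∫ x, Real.exp (m 0 * X' (h + arrMap (S 0) x)) ∂gaus J :=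
      integral_image_eq (hne 0 (by simp [Fin.ext_iff])) ((hXm'.const_mul (m 0)).exp)
    rw [casc_fld_succ m S' f h, casc_fld_succ m S (rowLeaf f T) h]
    show (m 0)⁻¹ * Real.log (∫ x, Real.exp (m 0 * X' (h + arrMap (S' 0) x)) ∂gaus J')
        ≤ (m 0)⁻¹ * Real.log (∫ x, Real.exp (m 0 * X (h + arrMap (S 0) x)) ∂gaus J) ∧
      (m 0)⁻¹ * Real.log (∫ x, Real.exp (m 0 * X (h + arrMap (S 0) x)) ∂gaus J) - c
        ≤ (m 0)⁻¹ * Real.log (∫ x, Real.exp (m 0 * X' (h + arrMap (S' 0) x)) ∂gaus J')
    rw [e]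
    have hinv : 0 ≤ (m 0)⁻¹ := inv_nonneg.2 h0.le
    refine ⟨mul_le_mul_of_nonneg_left (Real.log_le_log p2 (integral_mono i2 i1 fun x =>
      Real.exp_le_exp.2 (mul_le_mul_of_nonneg_left (ih _).1 h0.le))) hinv, ?_⟩
    have hle : Real.exp (-(m 0 * c)) * ∫ x, Real.exp (m 0 * X (h + arrMap (S 0) x)) ∂gaus J
        ≤ ∫ x, Real.exp (m 0 * X' (h + arrMap (S 0) x)) ∂gaus J := by
      rw [← integral_const_mul]
      refine integral_mono (i1.const_mul _) i2 fun x => ?_
      rw [← Real.exp_add, Real.exp_le_exp]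
      have := (ih (h + arrMap (S 0) x)).2
      simp only [hlast'] at this
      nlinarith
    have hl := mul_le_mul_of_nonneg_left
      (Real.log_le_log (mul_pos (Real.exp_pos _) p1) hle) hinv
    rw [Real.log_mul (Real.exp_pos _).ne' p1.ne', Real.log_exp, mul_add, mul_neg, ← mul_assoc,
      inv_mul_cancel₀ h0.ne', one_mul] at hl
    simp only [Function.comp_apply] at hl
    linarith

/-- Factors of the levels of the model for the row path `q` with self-overlap `D`: the top
increment sits inside the last level. -/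
structure RowFac (K : ℕ) (D : Matrix (Fin d) (Fin d) ℝ) (q : ℕ → Matrix (Fin d) (Fin d) ℝ)
    (A : Fin (K + 1) → Fin d → J → ℝ) : Prop where
  root : ∀ u, cq (A 0) u = u ⬝ᵥ q 0 *ᵥ u
  level : ∀ l : Fin K, l.val + 1 < K → ∀ u, cq (A l.succ) u = u ⬝ᵥ (q (l.val + 1) - q l.val) *ᵥ u
  last : ∀ l : Fin K, l.val + 1 = K → ∀ u, cq (A l.succ) u = u ⬝ᵥ (D - q l.val) *ᵥ u

/-- The value of a row of the model against the value of the path. -/
theorem rowVal_merge {D : Matrix (Fin d) (Fin d) ℝ} {q : ℕ → Matrix (Fin d) (Fin d) ℝ} (hK : 0 < K)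
    (hq : IsPath K q) (hD : (D - q K).PosSemidef) {A : Fin (K + 1) → Fin d → J → ℝ}
    (hA : RowFac K D q A) (hf : Measurable f) (hb : ∀ v, |f v| ≤ b) :
    rowCasc f (A 0) (fun l => A l.succ) ≤ rowVal f K D q ∧
      rowVal f K D q - 2 * b / K ≤ rowCasc f (A 0) (fun l => A l.succ) := by
  obtain ⟨K, rfl⟩ : ∃ j, K = j + 1 := ⟨K - 1, by omega⟩
  set T := facOf (D - q (K + 1))
  set S : Fin (K + 1) → Fin d → Fin d → ℝ := fun l => facOf (q (l.val + 1) - q l.val)
  have hS : ∀ l u, cq (S l) u = u ⬝ᵥ (q (l.val + 1) - q l.val) *ᵥ u := fun l u =>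
    cq_facOf (hq.step l.val l.isLt) u
  have hlast : ∀ u, cq (A (Fin.last K).succ) u = cq (S (Fin.last K)) u + cq T u := fun u => by
    rw [hA.last (Fin.last K) (by simp) u, hS, cq_facOf hD, Fin.val_last, ← dotProduct_add,
      ← Matrix.add_mulVec, add_comm (q (K + 1) - q K), sub_add_sub_cancel]
  have h0 : ∀ u, cq (facOf (q 0)) u = cq (A 0) u := fun u => by rw [cq_facOf hq.nonneg, hA.root]
  have hm : mlev (K + 1) (Fin.last K) = ((K + 1 : ℕ) : ℝ) / ((K + 1 : ℕ) + 1) := by
    simp [mlev]
  have hmle : mlev (K + 1) (Fin.last K) ≤ 1 := by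
    rw [hm, div_le_one (by positivity)]; linarith
  have hc := fun h => casc_merge hf hb K (m := mlev (K + 1)) (grid_mlev (K + 1)).pos hmle S
    (fun l => A l.succ) T (fun l hl u => by
      rw [hA.level l (by
        have := Fin.val_ne_of_ne hl
        simp only [Fin.val_last] at this
        omega) u, hS]) hlast h
  have hval : rowVal f (K + 1) D q = rowCasc (rowLeaf f T) (facOf (q 0)) S := rfl
  have hS' : rowCasc f (A 0) (fun l => A l.succ)
      = ∫ z, casc (gaus J) (K + 1) (mlev (K + 1))
          (fun y => f (rowFld (fun l => A l.succ) (arrMap (facOf (q 0)) z) y)) ∂gaus (Fin d) :=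
    (integral_image_eq h0 (measurable_casc_fld _ _ hf)).symm
  have hg := (grid_mlev (K + 1)).pos
  have hm1 := measurable_casc_fld (fun l => A l.succ) (mlev (K + 1)) hf
  have hm2 := measurable_casc_fld S (mlev (K + 1)) (measurable_rowLeaf hf T)
  have i1 : Integrable (fun z => casc (gaus J) (K + 1) (mlev (K + 1))
      (fun y => f (rowFld (fun l => A l.succ) (arrMap (facOf (q 0)) z) y))) (gaus (Fin d)) :=
    Vale.Agent.P157.Casc.integrable_of_bdd
      (hm1.comp (arrMap _).continuous.measurable).aestronglyMeasurable (C := b) fun z =>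
      casc_bdd _ _ hg (hf.comp ((continuous_rowFld _).measurable.comp measurable_prodMk_left))
        fun y => hb _
  have i2 : Integrable (fun z => casc (gaus (Fin d)) (K + 1) (mlev (K + 1))
      (fun y => rowLeaf f T (rowFld S (arrMap (facOf (q 0)) z) y))) (gaus (Fin d)) :=
    Vale.Agent.P157.Casc.integrable_of_bdd
      (hm2.comp (arrMap _).continuous.measurable).aestronglyMeasurable (C := b) fun z =>
      casc_bdd _ _ hg ((measurable_rowLeaf hf T).comp
        ((continuous_rowFld _).measurable.comp measurable_prodMk_left))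
        fun y => abs_rowLeaf_le hf hb T _
  rw [hS', hval, rowCasc]
  have herr : 2 * b * (1 - mlev (K + 1) (Fin.last K)) / mlev (K + 1) (Fin.last K)
      = 2 * b / (K + 1 : ℕ) := by
    rw [hm]
    field_simp
    ring
  refine ⟨integral_mono i1 i2 fun z => (hc _).1, ?_⟩
  have := integral_mono (i2.sub (integrable_const (2 * b / (K + 1 : ℕ)))) i1 fun z => by
    have := (hc (arrMap (facOf (q 0)) z)).2
    rw [herr] at this
    simpa only [Pi.sub_apply] using this
  rw [Pi.sub_def, integral_sub i2 (integrable_const _), integral_const, probReal_univ, one_smul]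
    at this
  exact this

end Bdd

end Vale.Agent.P166.Formula
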