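import Vale.Agent.P166.Formula.Stable

/-!
At a stationary tilt the value of a Gaussian spin grows at most quadratically in the tilt, with a
constant that does not depend on the number of levels (P166, formula side).
-/

open Real Finset Matrix

namespace Vale.Agent.P166.Formula

open Casc (mabs mabs_add mabs_sub mabs_mul_le mabs_smul mabs_sum mabs_nonneg)

variable {n : ℕ} {m : ℕ → ℝ} {r : ℕ}

/-- Entries of a positive semidefinite matrix are bounded by its diagonal. -/
theorem mabs_le_trace {A : Matrix (Fin n) (Fin n) ℝ} (hA : A.PosSemidef) :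
    mabs A ≤ n * A.trace := by
  have key : ∀ k l, |A k l| ≤ (A k k + A l l) / 2 := fun k l => by
    have hsym : A l k = A k l := by
      simpa using congrFun (congrFun hA.isHermitian.eq k) l
    have hq : ∀ s : ℝ, 0 ≤ A k k + A l l * (s * s) + 2 * s * A k l := fun s => by
      have h := hA.dotProduct_mulVec_nonneg (Pi.single k (1 : ℝ) + s • Pi.single l 1)
      simp only [star_trivial, Matrix.mulVec_add, Matrix.mulVec_smul, dotProduct_add,
        add_dotProduct, smul_dotProduct, dotProduct_smul, smul_eq_mul, single_dotProduct,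
        Matrix.mulVec_single_one, Matrix.col_apply, one_mul, hsym] at h
      nlinarith [h]
    exact abs_le.2 ⟨by linarith [hq 1], by linarith [hq (-1)]⟩
  refine (Finset.sum_le_sum fun k _ => Finset.sum_le_sum fun l _ => key k l).trans_eq ?_
  simp only [← Finset.sum_div, Finset.sum_add_distrib, Finset.sum_const, Finset.card_univ,
    Fintype.card_fin, nsmul_eq_mul, Matrix.trace, Matrix.diag, ← Finset.mul_sum]
  ring

/-- Inverses move linearly. -/
theorem mabs_inv_sub_le {A A' : Matrix (Fin n) (Fin n) ℝ} (hA : A.PosDef) (hA' : A'.PosDef)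
    {B : ℝ} (h : mabs A⁻¹ ≤ B) (h' : mabs A'⁻¹ ≤ B) :
    mabs (A⁻¹ - A'⁻¹) ≤ B ^ 2 * mabs (A' - A) := by
  have u := isUnit_iff_ne_zero.2 hA.det_pos.ne'
  have u' := isUnit_iff_ne_zero.2 hA'.det_pos.ne'
  rw [Matrix.inv_sub_inv (iff_of_true ((Matrix.isUnit_iff_isUnit_det A).2 u)
    ((Matrix.isUnit_iff_isUnit_det A').2 u'))]
  refine (mabs_mul_le (mabs_mul_le h le_rfl) h').trans_eq ?_
  ring

/-- The increments of the overlap path dual to a field path. -/
noncomputable def dualStep (T : ℕ → Matrix (Fin n) (Fin n) ℝ)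
    (p : ℕ → Matrix (Fin n) (Fin n) ℝ) (j : ℕ) : Matrix (Fin n) (Fin n) ℝ :=
  T (j + 1) * (p (j + 1) - p j) * T j

/-- The overlap path dual to a field path. -/
noncomputable def dualPath (T : ℕ → Matrix (Fin n) (Fin n) ℝ)
    (p : ℕ → Matrix (Fin n) (Fin n) ℝ) (l : ℕ) : Matrix (Fin n) (Fin n) ℝ :=
  T 0 * p 0 * T 0 + ∑ j ∈ range l, dualStep T p j

/-- The self-overlap that makes a tilt stationary. -/
noncomputable def dualD (m : ℕ → ℝ) (r : ℕ) (L : Matrix (Fin n) (Fin n) ℝ)
    (p : ℕ → Matrix (Fin n) (Fin n) ℝ) : Matrix (Fin n) (Fin n) ℝ :=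
  (tLam m r L p r)⁻¹ + dualPath (fun l => (tLam m r L p l)⁻¹) p r

theorem tT_dual (hm : Levels m r) {L : Matrix (Fin n) (Fin n) ℝ}
    {p : ℕ → Matrix (Fin n) (Fin n) ℝ} (hpd : ∀ l, l ≤ r → (tLam m r L p l).PosDef) :
    ∀ l, l ≤ r → tT m r (dualD m r L p) (dualPath (fun l => (tLam m r L p l)⁻¹) p) l
      = (tLam m r L p l)⁻¹ := by
  intro l hl
  induction hl using Nat.decreasingInduction with
  | self => rw [tT_top hm, dualD, add_sub_cancel_right]
  | of_succ k hk ih =>
    set A := tLam m r L p (k + 1)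
    set B := tLam m r L p k
    have uA := isUnit_iff_ne_zero.2 (hpd (k + 1) hk).det_pos.ne'
    have uB := isUnit_iff_ne_zero.2 (hpd k hk.le).det_pos.ne'
    have e : m (k + 1) • (p (k + 1) - p k) = A - B := by
      simp only [A, B, tLam_step (m := m) L p hk]; abel
    rw [tT_step (m := m) _ _ hk, ih, dualPath, dualPath, Finset.sum_range_succ,
      add_sub_add_left_eq_sub, add_sub_cancel_left, dualStep, ← Matrix.smul_mul, ← Matrix.mul_smul,
      e, Matrix.mul_sub, Matrix.nonsing_inv_mul _ uA, Matrix.sub_mul, Matrix.one_mul,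
      Matrix.mul_assoc, Matrix.mul_nonsing_inv _ uB, Matrix.mul_one]
    abel

/-- A stationary tilt has the self-overlap of its dual path. -/
theorem dualD_eq (hm : Levels m r) {L D : Matrix (Fin n) (Fin n) ℝ}
    {p q : ℕ → Matrix (Fin n) (Fin n) ℝ}
    (h : ∀ l, l ≤ r → tLam m r L p l * tT m r D q l = 1)
    (hroot : q 0 = tT m r D q 0 * p 0 * tT m r D q 0) :
    dualD m r L p = D := by
  have hinv : ∀ l, l ≤ r → (tLam m r L p l)⁻¹ = tT m r D q l :=
    fun l hl => Matrix.inv_eq_right_inv (h l hl)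
  have key : ∀ l, l ≤ r → dualPath (fun l => (tLam m r L p l)⁻¹) p l = q l := by
    intro l
    induction l with
    | zero =>
      intro hl
      rw [dualPath, Finset.range_zero, Finset.sum_empty, add_zero, hinv 0 hl, ← hroot]
    | succ k ih =>
      intro hk
      have hk' : k < r := hk
      have hmp : m (k + 1) ≠ 0 := (hm.pos (k + 1) (by omega) (by omega)).ne'
      have h1 := h (k + 1) hk
      have h0 := h k hk'.le
      have e : dualStep (fun l => (tLam m r L p l)⁻¹) p k = q (k + 1) - q k := by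
        simp only [dualStep, hinv _ hk, hinv _ hk'.le]
        apply (smul_right_injective _ hmp)
        simp only
        rw [← Matrix.smul_mul, ← Matrix.mul_smul,
          show m (k + 1) • (p (k + 1) - p k) = tLam m r L p (k + 1) - tLam m r L p k by
            rw [tLam_step (m := m) L p hk']; abel,
          Matrix.mul_sub, mul_eq_one_comm.1 h1, Matrix.sub_mul, Matrix.one_mul, Matrix.mul_assoc,
          h0, Matrix.mul_one, tT_step (m := m) D q hk', add_sub_cancel_left]
      have e2 : ∀ T : ℕ → Matrix (Fin n) (Fin n) ℝ,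
          dualPath T p (k + 1) = dualPath T p k + dualStep T p k := fun T => by
        simp only [dualPath, Finset.sum_range_succ, add_assoc]
      rw [e2, ih hk'.le, e, add_sub_cancel]
  rw [dualD, key r le_rfl, hinv r le_rfl, tT_top hm, sub_add_cancel]

/-- The value of a spin is at most quadratic around a stationary tilt. -/
theorem spinVal_quad (hm : Levels m r) (τ : ℝ) {D L e : Matrix (Fin n) (Fin n) ℝ}
    {p q : ℕ → Matrix (Fin n) (Fin n) ℝ} (hp : IsPath r p)
    (h : ∀ l, l ≤ r → tLam m r L p l * tT m r D q l = 1)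
    (hroot : q 0 = tT m r D q 0 * p 0 * tT m r D q 0) {c B : ℝ} (hc : 0 < c)
    (hL : ∀ l, l ≤ r →
      (tLam m r L p l - c • (1 : Matrix (Fin n) (Fin n) ℝ)).PosSemidef)
    (hL' : ∀ l, l ≤ r →
      (tLam m r (L + e) p l - c • (1 : Matrix (Fin n) (Fin n) ℝ)).PosSemidef)
    (hB : mabs (p r) ≤ B) :
    spinVal m r τ D (L + e) p ≤ spinVal m r τ D L p
      + ((n : ℝ) ^ 2 / c) ^ 2 * (1 + 4 * ((n : ℝ) ^ 2 / c) * (n * B)) / 2
        * mabs e ^ 2 := by
  set k := (n : ℝ) ^ 2 / c with hk
  have hk0 : 0 ≤ k := by positivity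
  set T := fun l => (tLam m r L p l)⁻¹
  set T' := fun l => (tLam m r (L + e) p l)⁻¹
  have hT : ∀ l, l ≤ r → (tLam m r L p l).PosDef ∧ mabs (T l) ≤ k := fun l hl =>
    mabs_inv_le hc (hL l hl)
  have hT' : ∀ l, l ≤ r → (tLam m r (L + e) p l).PosDef ∧ mabs (T' l) ≤ k := fun l hl =>
    mabs_inv_le hc (hL' l hl)
  have hd : ∀ l, l ≤ r → mabs (T l - T' l) ≤ k ^ 2 * mabs e := fun l hl => by
    refine (mabs_inv_sub_le (hT l hl).1 (hT' l hl).1 (hT l hl).2 (hT' l hl).2).trans_eq ?_
    rw [show tLam m r (L + e) p l - tLam m r L p l = e by simp only [tLam]; abel]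
  have htri : ∀ (A A' X C C' : Matrix (Fin n) (Fin n) ℝ) (x : ℝ), mabs A' ≤ k → mabs X ≤ x →
      mabs C ≤ k → mabs (A - A') ≤ k ^ 2 * mabs e → mabs (C - C') ≤ k ^ 2 * mabs e →
      mabs (A * X * C - A' * X * C') ≤ 2 * k * (k ^ 2 * mabs e) * x := by
    intro A A' X C C' x hA' hX hC h1 h2
    rw [show A * X * C - A' * X * C' = (A - A') * X * C + A' * X * (C - C') by
      simp only [Matrix.sub_mul, Matrix.mul_sub]; abel]
    refine ((mabs_add _ _).trans (add_le_add (mabs_mul_le (mabs_mul_le h1 hX) hC)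
      (mabs_mul_le (mabs_mul_le hA' hX) h2))).trans_eq ?_
    ring
  have htr : ∀ A : Matrix (Fin n) (Fin n) ℝ, |A.trace| ≤ mabs A := abs_trace_le
  have hpr : ∀ l, l ≤ r → (p l).trace ≤ B := fun l hl => by
    refine le_trans ?_ ((le_abs_self _).trans ((htr _).trans hB))
    induction hl using Nat.decreasingInduction with
    | self => exact le_rfl
    | of_succ j hj ih =>
      have := (hp.step j hj).trace_nonneg
      rw [Matrix.trace_sub] at this
      linarith
  have hp0 : mabs (p 0) ≤ n * B :=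
    (mabs_le_trace hp.nonneg).trans (mul_le_mul_of_nonneg_left (hpr 0 (Nat.zero_le r))
      (Nat.cast_nonneg n))
  have hB0 : 0 ≤ B := (mabs_nonneg _).trans hB
  have hsum : ∑ j ∈ range r, mabs (p (j + 1) - p j) ≤ n * B := by
    refine (Finset.sum_le_sum fun j hj => mabs_le_trace (hp.step j (Finset.mem_range.1 hj))).trans ?_
    rw [← Finset.mul_sum]
    refine mul_le_mul_of_nonneg_left ?_ (Nat.cast_nonneg n)
    simp only [Matrix.trace_sub]
    rw [Finset.sum_range_sub (fun j => (p j).trace) r]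
    linarith [hp.nonneg.trace_nonneg, hpr r le_rfl]
  have hD : mabs (dualD m r L p - dualD m r (L + e) p)
      ≤ k ^ 2 * mabs e * (1 + 4 * k * (n * B)) := by
    have e1 : dualD m r L p - dualD m r (L + e) p = (T r - T' r)
        + ((T 0 * p 0 * T 0 - T' 0 * p 0 * T' 0)
          + ∑ j ∈ range r, (dualStep T p j - dualStep T' p j)) := by
      simp only [dualD, dualPath, Finset.sum_sub_distrib, T, T']
      abel
    have h2 := htri (T 0) (T' 0) (p 0) (T 0) (T' 0) (n * B) (hT' 0 (Nat.zero_le r)).2 hp0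
      (hT 0 (Nat.zero_le r)).2 (hd 0 (Nat.zero_le r)) (hd 0 (Nat.zero_le r))
    have h3 : mabs (∑ j ∈ range r, (dualStep T p j - dualStep T' p j))
        ≤ 2 * k * (k ^ 2 * mabs e) * (n * B) := by
      refine (mabs_sum _ _).trans ((Finset.sum_le_sum fun j hj => ?_).trans
        (le_of_eq_of_le (Finset.mul_sum _ _ _).symm
          (mul_le_mul_of_nonneg_left hsum (mul_nonneg (mul_nonneg zero_le_two hk0)
            (mul_nonneg (sq_nonneg k) (mabs_nonneg e))))))
      have hj' : j < r := Finset.mem_range.1 hj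
      exact htri _ _ _ _ _ _ (hT' (j + 1) hj').2 le_rfl (hT j hj'.le).2 (hd (j + 1) hj')
        (hd j hj'.le)
    rw [e1]
    refine ((mabs_add _ _).trans (add_le_add (hd r le_rfl) ((mabs_add _ _).trans
      (add_le_add h2 h3)))).trans_eq ?_
    ring
  rw [dualD_eq hm h hroot] at hD
  set q' := dualPath T' p
  set D' := dualD m r (L + e) p
  have hq' : ∀ l, l ≤ r → tLam m r (L + e) p l * tT m r D' q' l = 1 := fun l hl => by
    rw [tT_dual hm (fun l hl => (hT' l hl).1) l hl]
    exact Matrix.mul_nonsing_inv _ (isUnit_iff_ne_zero.2 (hT' l hl).1.det_pos.ne')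
  have hr' : q' 0 = tT m r D' q' 0 * p 0 * tT m r D' q' 0 := by
    rw [tT_dual hm (fun l hl => (hT' l hl).1) 0 (Nat.zero_le r)]
    simp [q', T', dualPath]
  have hmin := spinVal_min hm τ hp hq' hr' (fun l hl => (hT' l hl).1)
    (hT 0 (Nat.zero_le r)).1
  have s1 := spinVal_sub (m := m) (r := r) τ D D' (L + e) p
  have s2 := spinVal_sub (m := m) (r := r) τ D D' L p
  have he : spinVal m r τ D (L + e) p - spinVal m r τ D L p ≤ (e * (D - D')).trace / 2 := by
    simp only [Matrix.add_mul, Matrix.mul_sub, Matrix.trace_add, Matrix.trace_sub] at s1 s2 ⊢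
    linarith
  have hbound : (e * (D - D')).trace
      ≤ mabs e * (k ^ 2 * mabs e * (1 + 4 * k * (n * B))) :=
    (le_abs_self _).trans ((htr _).trans (mabs_mul_le le_rfl hD))
  nlinarith [he, hbound]

end Vale.Agent.P166.Formula
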