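import Vale.Agent.P157.Casc.LimitRec
import Vale.Agent.P166.Formula.GaussPsi

/-!
One Gaussian spin cut to a cube in cascade fields: below the closed value and converging to it as
the cube grows (P166, formula side).
-/

open MeasureTheory ProbabilityTheory Matrix Finset Filter Topology

namespace Vale.Agent.P166.Formula

open Vale.Agent.P166
open Vale.Agent.P157.Casc (casc gaus measurable_casc_param)

variable {d K : ℕ}

/-- The exponent of one spin of variance `τ` in the field `h` with quadratic term `P`. -/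
noncomputable def leafW (τ : ℝ) (P : Matrix (Fin d) (Fin d) ℝ) (h g : Fin d → ℝ) : ℝ :=
  h ⬝ᵥ (√τ • g) - (√τ • g) ⬝ᵥ P *ᵥ (√τ • g) / 2

/-- Cubes exhausting the space. -/
def cubeSet (d R : ℕ) : Set (Fin d → ℝ) := Set.univ.pi fun _ => Set.Icc (-((R : ℝ) + 1)) ((R : ℝ) + 1)

/-- A standard Gaussian cut to a cube. -/
noncomputable def cubeMeas (d R : ℕ) : Measure (Fin d → ℝ) := (gs d).restrict (cubeSet d R)

/-- The log partition function of one spin in a cube. -/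
noncomputable def leafR (τ : ℝ) (P : Matrix (Fin d) (Fin d) ℝ) (R : ℕ) (h : Fin d → ℝ) : ℝ :=
  Real.log (∫ g, Real.exp (leafW τ P h g) ∂cubeMeas d R)

instance cubeMeas_finite (d R : ℕ) : IsFiniteMeasure (cubeMeas d R) := by
  unfold cubeMeas; infer_instance

theorem measurableSet_cubeSet (d R : ℕ) : MeasurableSet (cubeSet d R) :=
  MeasurableSet.univ_pi fun _ => measurableSet_Icc

theorem iUnion_cubeSet (d : ℕ) : ⋃ R, cubeSet d R = Set.univ := by
  refine Set.eq_univ_of_forall fun g => Set.mem_iUnion.2 ?_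
  obtain ⟨R, hR⟩ := exists_nat_ge (∑ i, |g i|)
  refine ⟨R, fun i _ => abs_le.1 ?_⟩
  linarith [Finset.single_le_sum (f := fun i => |g i|) (fun i _ => abs_nonneg _)
    (Finset.mem_univ i)]

theorem monotone_cubeSet (d : ℕ) : Monotone (cubeSet d) := fun a b hab g hg i hi => by
  have h := hg i hi
  have : (a : ℝ) ≤ b := by exact_mod_cast hab
  exact ⟨by linarith [h.1], by linarith [h.2]⟩

theorem cubeMeas_pos (d R : ℕ) : 0 < (cubeMeas d R).real Set.univ := by
  rw [cubeMeas, measureReal_restrict_apply_univ, measureReal_def, gs, cubeSet, Measure.pi_pi,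
    ENNReal.toReal_prod]
  refine Finset.prod_pos fun _ _ => ENNReal.toReal_pos (fun h => ?_) (measure_ne_top _ _)
  have := gaussianReal_absolutelyContinuous' 0 one_ne_zero h
  rw [Real.volume_Icc, ENNReal.ofReal_eq_zero] at this
  linarith [(Nat.cast_nonneg R : (0 : ℝ) ≤ R)]

theorem continuous_leafW (τ : ℝ) (P : Matrix (Fin d) (Fin d) ℝ) :
    Continuous fun q : (Fin d → ℝ) × (Fin d → ℝ) => leafW τ P q.1 q.2 := by
  simp only [leafW, dotProduct, Matrix.mulVec, Pi.smul_apply, smul_eq_mul]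
  fun_prop

/-- The logarithm of an exponential integral against a finite measure. -/
theorem log_integral_exp_bound {X : Type*} [MeasurableSpace X] {μ : Measure X} [IsFiniteMeasure μ]
    (hμ : 0 < μ.real Set.univ) {F : X → ℝ} (hF : Measurable F) {b : ℝ}
    (hb : ∀ᵐ x ∂μ, |F x| ≤ b) :
    Integrable (fun x => Real.exp (F x)) μ ∧ 0 < ∫ x, Real.exp (F x) ∂μ ∧
      |Real.log (∫ x, Real.exp (F x) ∂μ)| ≤ b + |Real.log (μ.real Set.univ)| := by
  have hi : Integrable (fun x => Real.exp (F x)) μ :=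
    (integrable_const (Real.exp b)).mono' hF.exp.aestronglyMeasurable (hb.mono fun x hx => by
      rw [Real.norm_eq_abs, abs_of_pos (Real.exp_pos _)]
      exact Real.exp_le_exp.2 (abs_le.1 hx).2)
  have h1 : μ.real Set.univ * Real.exp (-b) ≤ ∫ x, Real.exp (F x) ∂μ := by
    simpa using integral_mono_ae (integrable_const (Real.exp (-b))) hi
      (hb.mono fun x hx => Real.exp_le_exp.2 (abs_le.1 hx).1)
  have h2 : ∫ x, Real.exp (F x) ∂μ ≤ μ.real Set.univ * Real.exp b := by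
    simpa using integral_mono_ae hi (integrable_const (Real.exp b))
      (hb.mono fun x hx => Real.exp_le_exp.2 (abs_le.1 hx).2)
  have hp := (mul_pos hμ (Real.exp_pos _)).trans_le h1
  have l1 := Real.log_le_log (mul_pos hμ (Real.exp_pos _)) h1
  have l2 := Real.log_le_log hp h2
  rw [Real.log_mul hμ.ne' (Real.exp_pos _).ne', Real.log_exp] at l1 l2
  refine ⟨hi, hp, abs_le.2 ⟨?_, ?_⟩⟩
  · linarith [neg_abs_le (Real.log (μ.real Set.univ))]
  · linarith [le_abs_self (Real.log (μ.real Set.univ))]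

theorem ae_cube (d R : ℕ) : ∀ᵐ g ∂cubeMeas d R, ∀ i, |g i| ≤ (R : ℝ) + 1 := by
  filter_upwards [ae_restrict_mem (measurableSet_cubeSet d R)] with g hg i
  exact abs_le.2 (hg i (Set.mem_univ i))

theorem measurable_leafR (τ : ℝ) (P : Matrix (Fin d) (Fin d) ℝ) (R : ℕ) :
    Measurable (leafR τ P R) :=
  (StronglyMeasurable.integral_prod_right' (ν := cubeMeas d R)
    (Real.continuous_exp.comp (continuous_leafW τ P)).measurable.stronglyMeasurable).measurable.log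

/-- Bound of the exponent on a cube. -/
theorem abs_leafW_le (τ : ℝ) (P : Matrix (Fin d) (Fin d) ℝ) (h : Fin d → ℝ) {g : Fin d → ℝ}
    {r : ℝ} (hg : ∀ i, |g i| ≤ r) :
    |leafW τ P h g| ≤ √τ * r * (∑ i, |h i|) + τ.toNNReal * r ^ 2 * (∑ i, ∑ j, |P i j|) / 2 := by
  have h1 : |h ⬝ᵥ (√τ • g)| ≤ √τ * r * ∑ i, |h i| := by
    rw [dotProduct, Finset.mul_sum]
    refine (Finset.abs_sum_le_sum_abs _ _).trans (Finset.sum_le_sum fun i _ => ?_)
    rw [Pi.smul_apply, smul_eq_mul, abs_mul, abs_mul, abs_of_nonneg (Real.sqrt_nonneg τ)]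
    calc |h i| * (√τ * |g i|) ≤ |h i| * (√τ * r) := mul_le_mul_of_nonneg_left
          (mul_le_mul_of_nonneg_left (hg i) (Real.sqrt_nonneg τ)) (abs_nonneg _)
      _ = √τ * r * |h i| := mul_comm _ _
  have h2 : |(√τ • g) ⬝ᵥ P *ᵥ (√τ • g)| ≤ τ.toNNReal * r ^ 2 * ∑ i, ∑ j, |P i j| := by
    simp only [dotProduct, Matrix.mulVec, Pi.smul_apply, smul_eq_mul, Finset.mul_sum]
    refine (Finset.abs_sum_le_sum_abs _ _).trans (Finset.sum_le_sum fun i _ => ?_)
    refine (Finset.abs_sum_le_sum_abs _ _).trans (Finset.sum_le_sum fun j _ => ?_)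
    have hs : √τ * √τ = (τ.toNNReal : ℝ) := by
      rw [Real.coe_toNNReal']
      rcases le_total 0 τ with h | h
      · rw [Real.mul_self_sqrt h, max_eq_left h]
      · rw [Real.sqrt_eq_zero_of_nonpos h, max_eq_right h, mul_zero]
    rw [show √τ * g i * (P i j * (√τ * g j)) = √τ * √τ * (g i * g j * P i j) by ring, hs, abs_mul,
      abs_of_nonneg (NNReal.coe_nonneg _), abs_mul, abs_mul, mul_assoc (τ.toNNReal : ℝ) (r ^ 2)]
    refine mul_le_mul_of_nonneg_left (mul_le_mul_of_nonneg_right ?_ (abs_nonneg _))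
      (NNReal.coe_nonneg _)
    rw [pow_two]
    exact mul_le_mul (hg i) (hg j) (abs_nonneg _) ((abs_nonneg _).trans (hg i))
  refine (abs_sub _ _).trans (add_le_add h1 ?_)
  rw [abs_div, abs_two]
  exact (div_le_div_iff_of_pos_right two_pos).2 h2

theorem abs_leafR_le (τ : ℝ) (P : Matrix (Fin d) (Fin d) ℝ) (R : ℕ) :
    ∃ A : ℝ, 0 ≤ A ∧ ∀ h, |leafR τ P R h| ≤ A * (1 + ∑ i, |h i|) := by
  set r : ℝ := (R : ℝ) + 1
  have hr : 0 ≤ r := by positivity
  refine ⟨√τ * r + τ.toNNReal * r ^ 2 * (∑ i, ∑ j, |P i j|) / 2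
    + |Real.log ((cubeMeas d R).real Set.univ)|, by positivity, fun h => ?_⟩
  have hS : 0 ≤ ∑ i, |h i| := Finset.sum_nonneg fun i _ => abs_nonneg _
  have h1 := (log_integral_exp_bound (cubeMeas_pos d R) (F := leafW τ P h)
    ((continuous_leafW τ P).comp (f := fun g => (h, g))
      (continuous_const.prodMk continuous_id)).measurable
    ((ae_cube d R).mono fun g hg => abs_leafW_le τ P h hg)).2.2
  refine h1.trans ?_
  have : 0 ≤ (τ.toNNReal : ℝ) * r ^ 2 * (∑ i, ∑ j, |P i j|) / 2 := by positivity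
  have : 0 ≤ √τ * r := by positivity
  nlinarith [abs_nonneg (Real.log ((cubeMeas d R).real Set.univ))]

/-- The closed value of one spin. -/
noncomputable def leafV (τ : ℝ) (Λ : Matrix (Fin d) (Fin d) ℝ) (h : Fin d → ℝ) : ℝ :=
  h ⬝ᵥ Λ⁻¹ *ᵥ h / 2 - (Real.log Λ.det + d * Real.log τ) / 2

theorem integrable_leafW {τ : ℝ} (hτ : 0 < τ) {Λ : Matrix (Fin d) (Fin d) ℝ} (hΛ : Λ.PosDef)
    (h : Fin d → ℝ) : Integrable (fun g => Real.exp (leafW τ (Λ - τ⁻¹ • 1) h g)) (gs d) := by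
  obtain ⟨hi, -⟩ := gauss_quad (hΛ.smul hτ) (√τ • h)
  refine hi.congr (ae_of_all _ fun g => congrArg Real.exp ?_)
  simp only [leafW, Matrix.sub_mulVec, Matrix.smul_mulVec, Matrix.mulVec_smul, Matrix.one_mulVec,
    dotProduct_sub, dotProduct_smul, smul_dotProduct, smul_eq_mul, ← mul_assoc]
  field_simp
  linear_combination (g ⬝ᵥ Λ *ᵥ g * τ - g ⬝ᵥ g) * Real.mul_self_sqrt hτ.le

theorem leafR_le_tendsto {τ : ℝ} (hτ : 0 < τ) {Λ : Matrix (Fin d) (Fin d) ℝ} (hΛ : Λ.PosDef)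
    (h : Fin d → ℝ) :
    (∀ R, leafR τ (Λ - τ⁻¹ • 1) R h ≤ leafV τ Λ h) ∧
      Tendsto (fun R => leafR τ (Λ - τ⁻¹ • 1) R h) atTop (𝓝 (leafV τ Λ h)) := by
  have hi := integrable_leafW hτ hΛ h
  have hv : Real.log (∫ g, Real.exp (leafW τ (Λ - τ⁻¹ • 1) h g) ∂gs d) = leafV τ Λ h :=
    gauss_leaf hτ hΛ h
  have hpos : ∀ R, 0 < ∫ g, Real.exp (leafW τ (Λ - τ⁻¹ • 1) h g) ∂cubeMeas d R := fun R =>
    (log_integral_exp_bound (cubeMeas_pos d R)
      ((continuous_leafW τ _).comp (f := fun g => (h, g))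
        (continuous_const.prodMk continuous_id)).measurable
      ((ae_cube d R).mono fun g hg => abs_leafW_le τ _ h hg)).2.1
  have hle : ∀ R, ∫ g, Real.exp (leafW τ (Λ - τ⁻¹ • 1) h g) ∂cubeMeas d R
      ≤ ∫ g, Real.exp (leafW τ (Λ - τ⁻¹ • 1) h g) ∂gs d := fun R =>
    setIntegral_le_integral hi (ae_of_all _ fun g => (Real.exp_pos _).le)
  refine ⟨fun R => hv ▸ Real.log_le_log (hpos R) (hle R), ?_⟩
  have ht := tendsto_setIntegral_of_monotone (μ := gs d) (fun R => measurableSet_cubeSet d R)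
    (monotone_cubeSet d) (f := fun g => Real.exp (leafW τ (Λ - τ⁻¹ • 1) h g))
    (by rw [iUnion_cubeSet]; exact hi.integrableOn)
  rw [iUnion_cubeSet, setIntegral_univ] at ht
  rw [← hv]
  exact ht.log ((hpos 0).trans_le (hle 0)).ne'

/-- The weights of one step with the closed value are integrable. -/
theorem integrable_step {A B S : Matrix (Fin d) (Fin d) ℝ} {m : ℝ} (hm : 0 < m) (hA : A.PosDef)
    (hB : B.PosDef) (hAB : A = B + m • (S * S.transpose)) (h : Fin d → ℝ) (c : ℝ) :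
    Integrable (fun x => Real.exp (m * ((h + S *ᵥ x) ⬝ᵥ A⁻¹ *ᵥ (h + S *ᵥ x) / 2 + c))) (gs d) := by
  set R : Matrix (Fin d) (Fin d) ℝ := √m • S.transpose with hRdef
  have hR : A = B + R.transpose * R := by
    rw [hAB, hRdef, transpose_smul, transpose_transpose, Matrix.smul_mul, Matrix.mul_smul,
      smul_smul, Real.mul_self_sqrt hm.le]
  obtain ⟨hM, -⟩ := schur_posDef hA hB hR
  have hAs : A⁻¹.transpose = A⁻¹ := by
    have h1 := hA.inv.isHermitian.eq
    rwa [conjTranspose_eq_transpose_of_trivial] at h1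
  set M := 1 - R * A⁻¹ * R.transpose with hMdef
  obtain ⟨hi, -⟩ := gauss_quad hM (√m • (R *ᵥ (A⁻¹ *ᵥ h)))
  refine (hi.const_mul (Real.exp (m * (h ⬝ᵥ A⁻¹ *ᵥ h / 2 + c)))).congr (ae_of_all _ fun x => ?_)
  show _ * Real.exp _ = Real.exp _
  rw [← Real.exp_add]
  congr 1
  have e1 : (√m • (R *ᵥ (A⁻¹ *ᵥ h))) ⬝ᵥ x = m * ((S *ᵥ x) ⬝ᵥ A⁻¹ *ᵥ h) := by
    rw [hRdef, Matrix.smul_mulVec, smul_smul, Real.mul_self_sqrt hm.le, smul_dotProduct,
      smul_eq_mul, dotProduct_comm, Matrix.dotProduct_mulVec, Matrix.vecMul_transpose]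
  have e2 : x ⬝ᵥ (M - 1) *ᵥ x = -(m * ((S *ᵥ x) ⬝ᵥ A⁻¹ *ᵥ (S *ᵥ x))) := by
    rw [hMdef, sub_sub_cancel_left, hRdef, transpose_smul, transpose_transpose, Matrix.smul_mul,
      Matrix.smul_mul, Matrix.mul_smul, smul_smul, Real.mul_self_sqrt hm.le, Matrix.neg_mulVec,
      dotProduct_neg, Matrix.smul_mulVec, dotProduct_smul, smul_eq_mul, ← Matrix.mulVec_mulVec,
      ← Matrix.mulVec_mulVec, Matrix.dotProduct_mulVec, Matrix.vecMul_transpose]
  have e3 : h ⬝ᵥ A⁻¹ *ᵥ (S *ᵥ x) = (S *ᵥ x) ⬝ᵥ A⁻¹ *ᵥ h := by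
    rw [Matrix.dotProduct_mulVec, ← Matrix.mulVec_transpose, hAs, dotProduct_comm]
  rw [e1, e2, Matrix.mulVec_add, dotProduct_add, add_dotProduct, add_dotProduct, e3]
  ring

/-- The truncated spin along the recursion. -/
theorem casc_leafR_lim {τ : ℝ} (hτ : 0 < τ) : ∀ (K : ℕ) (m : Fin K → ℝ)
    (Λ : Fin (K + 1) → Matrix (Fin d) (Fin d) ℝ) (S : Fin K → Matrix (Fin d) (Fin d) ℝ),
    (∀ l, 0 < m l) → (∀ l, (Λ l).PosDef) →
    (∀ l : Fin K, Λ l.succ = Λ l.castSucc + m l • (S l * (S l).transpose)) →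
    ∀ h : Fin d → ℝ,
    let val := h ⬝ᵥ (Λ 0)⁻¹ *ᵥ h / 2
      + -((Real.log (Λ (Fin.last K)).det + d * Real.log τ) / 2)
      + ∑ l : Fin K, (2 * m l)⁻¹ * (Real.log (Λ l.succ).det - Real.log (Λ l.castSucc).det)
    (∀ R, casc (gaus (Fin d)) K m
        (fun y => leafR τ (Λ (Fin.last K) - τ⁻¹ • 1) R (h + ∑ l, S l *ᵥ y l)) ≤ val) ∧
      Tendsto (fun R => casc (gaus (Fin d)) K m
        (fun y => leafR τ (Λ (Fin.last K) - τ⁻¹ • 1) R (h + ∑ l, S l *ᵥ y l))) atTop (𝓝 val) := by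
  intro K
  induction K with
  | zero =>
    intro m Λ S _ hΛ _ h
    simpa [casc, leafV, ← sub_eq_add_neg] using leafR_le_tendsto hτ (hΛ 0) h
  | succ K ih =>
    intro m Λ S hm hΛ hstep h val
    set P := Λ (Fin.last (K + 1)) - τ⁻¹ • (1 : Matrix (Fin d) (Fin d) ℝ) with hP
    set F : ℕ → (Fin d → ℝ) → ℝ := fun R x => casc (gaus (Fin d)) K (fun l => m l.succ)
      fun y => leafR τ P R ((h + S 0 *ᵥ x) + ∑ l : Fin K, S l.succ *ᵥ y l)
    set c := -((Real.log (Λ (Fin.last (K + 1))).det + d * Real.log τ) / 2)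
      + ∑ l : Fin K, (2 * m l.succ)⁻¹
          * (Real.log (Λ l.succ.succ).det - Real.log (Λ l.succ.castSucc).det)
    have hF : ∀ x, (∀ R, F R x ≤ (h + S 0 *ᵥ x) ⬝ᵥ (Λ 1)⁻¹ *ᵥ (h + S 0 *ᵥ x) / 2 + c) ∧
        Tendsto (fun R => F R x) atTop
          (𝓝 ((h + S 0 *ᵥ x) ⬝ᵥ (Λ 1)⁻¹ *ᵥ (h + S 0 *ᵥ x) / 2 + c)) := fun x => by
      have := ih (fun l => m l.succ) (fun l => Λ l.succ) (fun l => S l.succ) (fun l => hm _)
        (fun l => hΛ _) (fun l => hstep l.succ) (h + S 0 *ᵥ x)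
      simp only [Fin.succ_zero_eq_one, Fin.succ_last, add_assoc] at this
      simp only [F, c, hP, ← Fin.succ_castSucc, add_assoc]
      exact this
    have hcasc : ∀ R, casc (gaus (Fin d)) (K + 1) m
        (fun y => leafR τ P R (h + ∑ l, S l *ᵥ y l))
        = (m 0)⁻¹ * Real.log (∫ x, Real.exp (m 0 * F R x) ∂gaus (Fin d)) := fun R => by
      simp only [casc, F, Fin.sum_univ_succ, Fin.cons_zero, Fin.cons_succ, ← add_assoc]
    have hi : Integrable (fun x => Real.exp (m 0 *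
        ((h + S 0 *ᵥ x) ⬝ᵥ (Λ 1)⁻¹ *ᵥ (h + S 0 *ᵥ x) / 2 + c))) (gaus (Fin d)) :=
      integrable_step (hm 0) (hΛ 1) (hΛ 0) (by simpa using hstep 0) h c
    have hv := gauss_step (hm 0) (hΛ 1) (hΛ 0) (by simpa using hstep 0) h c
    rw [← gaus_eq_gs] at hv
    have hval : val = (m 0)⁻¹ * Real.log (∫ x, Real.exp (m 0 *
        ((h + S 0 *ᵥ x) ⬝ᵥ (Λ 1)⁻¹ *ᵥ (h + S 0 *ᵥ x) / 2 + c)) ∂gaus (Fin d)) := by
      rw [hv]
      simp only [val, c, Fin.sum_univ_succ, Fin.succ_zero_eq_one, Fin.castSucc_zero]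
      ring
    have hm' : ∀ R, Measurable fun x => Real.exp (m 0 * F R x) := fun R => by
      have hH : Measurable (Function.uncurry fun (x : Fin d → ℝ) (y : Fin K → Fin d → ℝ) =>
          leafR τ P R ((h + S 0 *ᵥ x) + ∑ l : Fin K, S l.succ *ᵥ y l)) := by
        refine (measurable_leafR τ P R).comp
          (f := fun q : (Fin d → ℝ) × (Fin K → Fin d → ℝ) =>
            (h + S 0 *ᵥ q.1) + ∑ l : Fin K, S l.succ *ᵥ q.2 l) (Continuous.measurable ?_)
        fun_prop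
      exact ((measurable_casc_param K (fun l => m l.succ) hH).const_mul _).exp
    have hb : ∀ R x, Real.exp (m 0 * F R x) ≤ Real.exp (m 0 *
        ((h + S 0 *ᵥ x) ⬝ᵥ (Λ 1)⁻¹ *ᵥ (h + S 0 *ᵥ x) / 2 + c)) := fun R x =>
      Real.exp_le_exp.2 (mul_le_mul_of_nonneg_left ((hF x).1 R) (hm 0).le)
    have hiR : ∀ R, Integrable (fun x => Real.exp (m 0 * F R x)) (gaus (Fin d)) := fun R =>
      hi.mono' (hm' R).aestronglyMeasurable (ae_of_all _ fun x => by
        rw [Real.norm_eq_abs, abs_of_pos (Real.exp_pos _)]; exact hb R x)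
    have hpos : ∀ R, 0 < ∫ x, Real.exp (m 0 * F R x) ∂gaus (Fin d) := fun R =>
      integral_exp_pos (hiR R)
    simp only [hcasc]
    rw [hval]
    refine ⟨fun R => mul_le_mul_of_nonneg_left (Real.log_le_log (hpos R)
      (integral_mono (hiR R) hi (hb R))) (inv_nonneg.2 (hm 0).le), ?_⟩
    refine (Tendsto.log ?_ (integral_exp_pos hi).ne').const_mul _
    exact tendsto_integral_of_dominated_convergence _ (fun R => (hm' R).aestronglyMeasurable) hi
      (fun R => ae_of_all _ fun x => by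
        rw [Real.norm_eq_abs, abs_of_pos (Real.exp_pos _)]; exact hb R x)
      (ae_of_all _ fun x => (((hF x).2.const_mul (m 0)).rexp))

end Vale.Agent.P166.Formula
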