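import Vale.Agent.P166.Formula.CascSum
import Vale.Agent.P166.Formula.RowVal
import Vale.Agent.P166.Formula.SpinQuad
import Vale.Agent.P166.Formula.SpinTrunc

/-!
A block of Gaussian spins whose self-overlap is confined to a shell, in cascade fields: its value
is at least the value of the tilted spins, uniformly in the number of levels (P166, formula side).
-/

open MeasureTheory ProbabilityTheory Matrix Finset Filter Topology
open scoped MatrixOrder

namespace Vale.Agent.P166.Formula

open Vale.Agent.P166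
open Vale.Agent.P157.Casc
open Vale.Agent.P166.Casc (mabs_nonneg mabs_smul mabs_sub mabs_add abs_le_mabs)

variable {d n K : ℕ}

/-- The fields of the spins of a block. -/
noncomputable def blockField (S : Fin K → Matrix (Fin d) (Fin d) ℝ)
    (y : Fin K → Fin n × Fin d → ℝ) (j : Fin n) : Fin d → ℝ :=
  ∑ l, S l *ᵥ fun k => y l (j, k)

/-- The exponent of a block. -/
noncomputable def blockH (τ : ℝ) (P : Matrix (Fin d) (Fin d) ℝ)
    (S : Fin K → Matrix (Fin d) (Fin d) ℝ) (y : Fin K → Fin n × Fin d → ℝ)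
    (g : Fin n → Fin d → ℝ) : ℝ :=
  ∑ j, leafW τ P (blockField S y j) (g j)

/-- The self-overlap of a block. -/
noncomputable def blockOv (τ : ℝ) (g : Fin n → Fin d → ℝ) (k l : Fin d) : ℝ :=
  (∑ j, (√τ * g j k) * (√τ * g j l)) / n

/-- The configurations with self-overlap near `D`. -/
def blockShell (τ es : ℝ) (D : Matrix (Fin d) (Fin d) ℝ) (n : ℕ) : Set (Fin n → Fin d → ℝ) :=
  {g | ∀ k l, |blockOv τ g k l - D k l| ≤ es}

/-- Standard Gaussian configurations. -/
noncomputable def blockGauss (d n : ℕ) : Measure (Fin n → Fin d → ℝ) :=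
  Measure.pi fun _ => gs d

instance blockGauss_prob (d n : ℕ) : IsProbabilityMeasure (blockGauss d n) := by
  unfold blockGauss; infer_instance

/-- Roots of the increments of a field path. -/
noncomputable def blockFac (p : ℕ → Matrix (Fin d) (Fin d) ℝ) (l : Fin K) :
    Matrix (Fin d) (Fin d) ℝ :=
  Matrix.of (facOf (p (l.val + 1) - p l.val))

/-- The value of a block in compensated fields of path `p`, confined to the shell. -/
noncomputable def blockVal (τ es : ℝ) (K : ℕ) (D : Matrix (Fin d) (Fin d) ℝ)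
    (p : ℕ → Matrix (Fin d) (Fin d) ℝ) (n : ℕ) : ℝ :=
  casc (gaus (Fin n × Fin d)) K (mlev K) fun y =>
    Real.log (∫ g, Real.exp (blockH τ (p K) (blockFac p) y g)
      ∂(blockGauss d n).restrict (blockShell τ es D n))

theorem measurableSet_blockShell (τ es : ℝ) (D : Matrix (Fin d) (Fin d) ℝ) (n : ℕ) :
    MeasurableSet (blockShell τ es D n) := by
  have e : blockShell τ es D n = ⋂ k, ⋂ l, {g | |blockOv τ g k l - D k l| ≤ es} := by
    ext g; simp [blockShell]
  rw [e]
  exact MeasurableSet.iInter fun k => MeasurableSet.iInter fun l => measurableSet_le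
    (by unfold blockOv; fun_prop) measurable_const

theorem continuous_blockField (S : Fin K → Matrix (Fin d) (Fin d) ℝ) (j : Fin n) :
    Continuous fun y : Fin K → Fin n × Fin d → ℝ => blockField S y j := by
  unfold blockField
  fun_prop

theorem continuous_blockH (τ : ℝ) (P : Matrix (Fin d) (Fin d) ℝ)
    (S : Fin K → Matrix (Fin d) (Fin d) ℝ) :
    Continuous fun q : (Fin K → Fin n × Fin d → ℝ) × (Fin n → Fin d → ℝ) =>
      blockH τ P S q.1 q.2 :=
  continuous_finsetSum _ fun j _ => (continuous_leafW τ P).comp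
    (f := fun q : (Fin K → Fin n × Fin d → ℝ) × (Fin n → Fin d → ℝ) =>
      (blockField S q.1 j, q.2 j))
    (((continuous_blockField S j).comp continuous_fst).prodMk
      ((continuous_apply j).comp continuous_snd))

theorem blockField_bound (S : Fin K → Matrix (Fin d) (Fin d) ℝ) : ∃ A : ℝ, 0 ≤ A ∧
    ∀ (y : Fin K → Fin n × Fin d → ℝ) j, ∑ k, |blockField S y j k| ≤ A * ∑ l, ∑ i, |y l i| := by
  refine ⟨∑ l, Casc.mabs (S l), Finset.sum_nonneg fun l _ => mabs_nonneg _, fun y j => ?_⟩
  calc ∑ k, |blockField S y j k| ≤ ∑ k, ∑ l, ∑ k', |S l k k'| * |y l (j, k')| := by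
        refine Finset.sum_le_sum fun k _ => ?_
        simp only [blockField, Finset.sum_apply, Matrix.mulVec, dotProduct]
        exact (Finset.abs_sum_le_sum_abs _ _).trans (Finset.sum_le_sum fun l _ =>
          (Finset.abs_sum_le_sum_abs _ _).trans_eq (Finset.sum_congr rfl fun k' _ => abs_mul _ _))
    _ ≤ ∑ l, Casc.mabs (S l) * ∑ i, |y l i| := by
        rw [Finset.sum_comm]
        refine Finset.sum_le_sum fun l _ => ?_
        simp only [Casc.mabs, Finset.sum_mul]
        exact Finset.sum_le_sum fun k _ => Finset.sum_le_sum fun k' _ =>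
          mul_le_mul_of_nonneg_left (Finset.single_le_sum (f := fun i => |y l i|)
            (fun i _ => abs_nonneg _) (Finset.mem_univ (j, k'))) (abs_nonneg _)
    _ ≤ (∑ l, Casc.mabs (S l)) * ∑ l, ∑ i, |y l i| := by
        rw [Finset.mul_sum]
        exact Finset.sum_le_sum fun l hl => mul_le_mul_of_nonneg_right
          (Finset.single_le_sum (f := fun l => Casc.mabs (S l)) (fun l _ => mabs_nonneg _) hl)
          (Finset.sum_nonneg fun i _ => abs_nonneg _)

/-- A block without confinement is a sum of separate spins. -/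
theorem casc_block_sum {m : Fin K → ℝ} (hm : Grid m) (S : Fin K → Matrix (Fin d) (Fin d) ℝ)
    {F : (Fin d → ℝ) → ℝ} (hF : Measurable F) {A : ℝ} (hA : 0 ≤ A)
    (hb : ∀ h, |F h| ≤ A * (1 + ∑ k, |h k|)) :
    casc (gaus (Fin n × Fin d)) K m (fun y => ∑ j, F (blockField S y j))
      = n * casc (gaus (Fin d)) K m (fun u => F (∑ l, S l *ᵥ u l)) := by
  classical
  obtain ⟨C, hC, hCb⟩ := blockField_bound (n := n) S
  have hm1 : ∀ j, Measurable fun y : Fin K → Fin n × Fin d → ℝ => F (blockField S y j) :=
    fun j => hF.comp (continuous_blockField S j).measurable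
  have hg : ∀ j, Grow fun y : Fin K → Fin n × Fin d → ℝ => F (blockField S y j) := fun j =>
    ⟨A * (1 + C), by positivity, fun y => (hb _).trans (by
      rw [mul_assoc]
      refine mul_le_mul_of_nonneg_left ?_ hA
      nlinarith [hCb y j, Finset.sum_nonneg (s := Finset.univ) fun (l : Fin K) _ =>
        Finset.sum_nonneg (s := Finset.univ) fun (i : Fin n × Fin d) _ => abs_nonneg (y l i)])⟩
  have hone : ∀ j : Fin n, casc (gaus (Fin n × Fin d)) K m (fun y => F (blockField S y j))
      = casc (gaus (Fin d)) K m (fun u => F (∑ l, S l *ᵥ u l)) := fun j => by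
    have hp : MeasurePreserving (fun (g : Fin n × Fin d → ℝ) (k : Fin d) => g (j, k))
        (gaus (Fin n × Fin d)) (gaus (Fin d)) :=
      P157.mp_comp (gaussianReal 0 1) (fun a b h => by simpa using h)
    obtain ⟨h, -, -⟩ := casc_map hp K m (H := fun u : Fin K → Fin d → ℝ => F (∑ l, S l *ᵥ u l))
      (a := fun _ => (1 : ℝ)) (hF.comp (by fun_prop)) measurable_const
    exact h
  suffices key : ∀ s : Finset (Fin n),
      casc (gaus (Fin n × Fin d)) K m (fun y => ∑ j ∈ s, F (blockField S y j))
        = s.card * casc (gaus (Fin d)) K m (fun u => F (∑ l, S l *ᵥ u l)) by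
    simpa using key Finset.univ
  intro s
  induction s using Finset.induction with
  | empty => simp [casc_fix (gaus (Fin n × Fin d)) K hm.pos]
  | insert a s ha ih =>
    obtain ⟨hs, -⟩ := casc_sep (fun i : Fin n × Fin d => i.1 = a) hm
      (H := fun y => F (blockField S y a)) (H' := fun y => ∑ j ∈ s, F (blockField S y j))
      (a := fun _ => (1 : ℝ)) (a' := fun _ => (1 : ℝ)) (hm1 a)
      (Finset.measurable_sum _ fun j _ => hm1 j) measurable_const measurable_const
      (fun y y' hy => ⟨congrArg F (Finset.sum_congr rfl fun l _ => congrArg (S l *ᵥ ·)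
        (funext fun k => hy l (a, k) rfl)), rfl⟩)
      (fun y y' hy => ⟨Finset.sum_congr rfl fun j hj => congrArg F (Finset.sum_congr rfl fun l _ =>
        congrArg (S l *ᵥ ·) (funext fun k => hy l (j, k) fun h => ha (h ▸ hj))), rfl⟩)
      ((hg a).integrable_exp (hm1 a))
      ((Grow.sum s fun j _ => hg j).integrable_exp (Finset.measurable_sum _ fun j _ => hm1 j))
    simp only [Finset.sum_insert ha, hs, ih, hone, Finset.card_insert_of_notMem ha]
    push_cast
    ring

theorem log_integral_block (τ : ℝ) (P : Matrix (Fin d) (Fin d) ℝ)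
    (S : Fin K → Matrix (Fin d) (Fin d) ℝ) (R : ℕ) (y : Fin K → Fin n × Fin d → ℝ) :
    0 < ∫ g, Real.exp (blockH τ P S y g) ∂Measure.pi (fun _ : Fin n => cubeMeas d R) ∧
    Real.log (∫ g, Real.exp (blockH τ P S y g) ∂Measure.pi (fun _ : Fin n => cubeMeas d R))
      = ∑ j, leafR τ P R (blockField S y j) := by
  have hpos : ∀ h : Fin d → ℝ, 0 < ∫ g, Real.exp (leafW τ P h g) ∂cubeMeas d R := fun h =>
    (log_integral_exp_bound (cubeMeas_pos d R)
      ((continuous_leafW τ P).comp (f := fun g => (h, g))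
        (continuous_const.prodMk continuous_id)).measurable
      ((ae_cube d R).mono fun g hg => abs_leafW_le τ P h hg)).2.1
  simp only [blockH, Real.exp_sum]
  rw [integral_fintype_prod_eq_prod (f := fun (j : Fin n) (g : Fin d → ℝ) =>
    Real.exp (leafW τ P (blockField S y j) g))]
  exact ⟨Finset.prod_pos fun j _ => hpos _, Real.log_prod fun j _ => (hpos _).ne'⟩

/-- Directions of the tilts. -/
noncomputable def tiltDir (i : Bool × Fin d × Fin d) : Matrix (Fin d) (Fin d) ℝ :=
  (if i.1 then (1 : ℝ) else -1) •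
    (Matrix.single i.2.1 i.2.2 (1 : ℝ) + Matrix.single i.2.2 i.2.1 1)

theorem mabs_tiltDir (i : Bool × Fin d × Fin d) : Casc.mabs (tiltDir i) ≤ 2 := by
  have h1 : ∀ k l : Fin d, Casc.mabs (Matrix.single k l (1 : ℝ)) ≤ 1 := fun k l => by
    simp [Casc.mabs, Matrix.single_apply, apply_ite abs, ite_and, Finset.sum_ite_eq]
  rw [tiltDir, mabs_smul]
  have hs : |if i.1 then (1 : ℝ) else -1| = 1 := by cases i.1 <;> simp
  rw [hs, one_mul]
  exact (mabs_add _ _).trans ((add_le_add (h1 _ _) (h1 _ _)).trans_eq one_add_one_eq_two)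

theorem sub_smul_one_psd {e : Matrix (Fin d) (Fin d) ℝ} (he : e.IsHermitian) {c : ℝ}
    (h : Casc.mabs e ≤ c) : (c • (1 : Matrix (Fin d) (Fin d) ℝ) + e).PosSemidef := by
  refine Matrix.PosSemidef.of_dotProduct_mulVec_nonneg
    (Matrix.IsHermitian.add (Matrix.isHermitian_one.smul (IsSelfAdjoint.all c)) he) fun x => ?_
  simp only [star_trivial, Matrix.add_mulVec, Matrix.smul_mulVec, Matrix.one_mulVec,
    dotProduct_add, dotProduct_smul, smul_eq_mul]
  have hb : |x ⬝ᵥ e *ᵥ x| ≤ Casc.mabs e * (x ⬝ᵥ x) := by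
    simp only [Casc.mabs, Finset.sum_mul]
    simp only [dotProduct, Matrix.mulVec, Finset.mul_sum]
    refine (Finset.abs_sum_le_sum_abs _ _).trans (Finset.sum_le_sum fun k _ => ?_)
    refine (Finset.abs_sum_le_sum_abs _ _).trans (Finset.sum_le_sum fun l _ => ?_)
    have h1 : ∀ i, x i * x i ≤ ∑ j, x j * x j := fun i =>
      Finset.single_le_sum (f := fun j => x j * x j) (fun j _ => mul_self_nonneg _)
        (Finset.mem_univ i)
    rw [← Finset.mul_sum, abs_mul, abs_mul, mul_left_comm]
    refine mul_le_mul_of_nonneg_left ?_ (abs_nonneg _)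
    nlinarith [sq_nonneg (|x k| - |x l|), h1 k, h1 l, abs_mul_abs_self (x k),
      abs_mul_abs_self (x l)]
  have h0 : 0 ≤ x ⬝ᵥ x := Finset.sum_nonneg fun j _ => mul_self_nonneg _
  nlinarith [(abs_le.1 hb).1, mul_le_mul_of_nonneg_right h h0]

/-- Tilting the quadratic term of a block. -/
theorem blockH_tilt {τ : ℝ} (P : Matrix (Fin d) (Fin d) ℝ)
    (S : Fin K → Matrix (Fin d) (Fin d) ℝ) (y : Fin K → Fin n × Fin d → ℝ)
    (g : Fin n → Fin d → ℝ) (hn : 0 < n) (A : Matrix (Fin d) (Fin d) ℝ) :
    blockH τ (P + A) S y g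
      = blockH τ P S y g - (n : ℝ) / 2 * ∑ k, ∑ l, A k l * blockOv τ g k l := by
  have hn' : (n : ℝ) ≠ 0 := Nat.cast_ne_zero.2 hn.ne'
  have e : (n : ℝ) / 2 * ∑ k, ∑ l, A k l * blockOv τ g k l
      = ∑ j, (√τ • g j) ⬝ᵥ A *ᵥ (√τ • g j) / 2 := by
    simp only [dotProduct, Matrix.mulVec, Pi.smul_apply, smul_eq_mul, blockOv, Finset.mul_sum,
      Finset.sum_div]
    conv_rhs => rw [Finset.sum_comm]
    refine Finset.sum_congr rfl fun k _ => ?_
    conv_rhs => rw [Finset.sum_comm]
    refine Finset.sum_congr rfl fun l _ => Finset.sum_congr rfl fun j _ => ?_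
    field_simp
  rw [e, blockH, blockH, ← Finset.sum_sub_distrib]
  refine Finset.sum_congr rfl fun j _ => ?_
  simp only [leafW, Matrix.add_mulVec, dotProduct_add]
  ring

/-- Outside the shell some tilt is large. -/
theorem exists_tilt {τ es : ℝ} {D : Matrix (Fin d) (Fin d) ℝ} (hD : D.transpose = D)
    {g : Fin n → Fin d → ℝ} (hg : g ∉ blockShell τ es D n) :
    ∃ i : Bool × Fin d × Fin d,
      es ≤ ∑ k, ∑ l, tiltDir i k l * (blockOv τ g k l - D k l) / 2 := by
  simp only [blockShell, Set.mem_ofPred_eq, not_forall, not_le] at hg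
  obtain ⟨k, l, hkl⟩ := hg
  have hs : ∀ a b, blockOv τ g a b - D a b = blockOv τ g b a - D b a := fun a b => by
    rw [show D b a = D a b by conv_lhs => rw [← hD, Matrix.transpose_apply]]
    simp only [blockOv, mul_comm (√τ * g _ a)]
  have he : ∀ s : ℝ, ∑ k', ∑ l', (s • (Matrix.single k l (1 : ℝ) + Matrix.single l k 1) : Matrix (Fin d) (Fin d) ℝ) k' l'
      * (blockOv τ g k' l' - D k' l') / 2 = s * (blockOv τ g k l - D k l) := fun s => by
    simp only [Matrix.smul_apply, Matrix.add_apply, smul_eq_mul, mul_add, add_mul, add_div,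
      Finset.sum_add_distrib, Matrix.single_apply, ite_and, mul_ite, ite_mul, mul_zero, zero_mul,
      ite_div, zero_div]
    simp only [Finset.sum_ite_irrel, Finset.sum_const_zero, Finset.sum_ite_eq, Finset.mem_univ,
      if_true, hs l k]
    ring
  rcases le_or_gt 0 (blockOv τ g k l - D k l) with h | h
  · refine ⟨(true, k, l), ?_⟩
    simp only [tiltDir, if_true, he]
    rw [abs_of_nonneg h] at hkl
    linarith
  · refine ⟨(false, k, l), ?_⟩
    simp only [tiltDir, Bool.false_eq_true, if_false, he]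
    rw [abs_of_neg h] at hkl
    linarith

theorem abs_coord_le_of_shell {τ es : ℝ} (hτ : 0 < τ) {D : Matrix (Fin d) (Fin d) ℝ}
    {g : Fin n → Fin d → ℝ} (hg : g ∈ blockShell τ es D n) (j : Fin n) (k : Fin d) :
    |g j k| ≤ √(n * (|D k k| + es) / τ) := by
  have hn : (0 : ℝ) < n := Nat.cast_pos.2 (Fin.pos j)
  refine Real.abs_le_sqrt ?_
  rw [le_div_iff₀ hτ]
  have h := (abs_le.1 (hg k k)).2
  have hsum : (√τ * g j k) * (√τ * g j k) ≤ ∑ i, (√τ * g i k) * (√τ * g i k) :=
    Finset.single_le_sum (f := fun i => (√τ * g i k) * (√τ * g i k))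
      (fun i _ => mul_self_nonneg _) (Finset.mem_univ j)
  have h2 : (∑ i, (√τ * g i k) * (√τ * g i k)) / n ≤ |D k k| + es := by
    unfold blockOv at h
    linarith [le_abs_self (D k k)]
  rw [div_le_iff₀ hn] at h2
  have : (√τ * g j k) * (√τ * g j k) = g j k ^ 2 * τ := by
    linear_combination (g j k ^ 2) * Real.mul_self_sqrt hτ.le
  linarith

/-- The logarithm of a confined block grows linearly in the fields. -/
theorem grow_shell {τ es : ℝ} (hτ : 0 < τ) (D : Matrix (Fin d) (Fin d) ℝ)
    (P : Matrix (Fin d) (Fin d) ℝ) (S : Fin K → Matrix (Fin d) (Fin d) ℝ)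
    (hpos : 0 < ((blockGauss d n).restrict (blockShell τ es D n)).real Set.univ) :
    (∀ y, Integrable (fun g => Real.exp (blockH τ P S y g))
        ((blockGauss d n).restrict (blockShell τ es D n)) ∧
      0 < ∫ g, Real.exp (blockH τ P S y g) ∂(blockGauss d n).restrict (blockShell τ es D n)) ∧
    Grow fun y : Fin K → Fin n × Fin d → ℝ => Real.log (∫ g, Real.exp (blockH τ P S y g)
      ∂(blockGauss d n).restrict (blockShell τ es D n)) := by
  obtain ⟨C, hC, hCb⟩ := blockField_bound (n := n) S
  set r := ∑ k : Fin d, √(n * (|D k k| + es) / τ)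
  have hr : 0 ≤ r := Finset.sum_nonneg fun _ _ => Real.sqrt_nonneg _
  set b := fun y : Fin K → Fin n × Fin d → ℝ => (n : ℝ) * (√τ * r * (C * ∑ l, ∑ i, |y l i|)
    + τ.toNNReal * r ^ 2 * (∑ i, ∑ j, |P i j|) / 2)
  have hae : ∀ y, ∀ᵐ g ∂(blockGauss d n).restrict (blockShell τ es D n),
      |blockH τ P S y g| ≤ b y := fun y => by
    filter_upwards [ae_restrict_mem (measurableSet_blockShell τ es D n)] with g hg
    refine (Finset.abs_sum_le_sum_abs _ _).trans ?_
    have hj : ∀ j ∈ (Finset.univ : Finset (Fin n)), |leafW τ P (blockField S y j) (g j)|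
        ≤ √τ * r * (C * ∑ l, ∑ i, |y l i|) + τ.toNNReal * r ^ 2 * (∑ i, ∑ j, |P i j|) / 2 :=
      fun j _ => by
      refine (abs_leafW_le τ P _ (r := r) fun k => (abs_coord_le_of_shell hτ hg j k).trans
        (Finset.single_le_sum (f := fun k : Fin d => √(n * (|D k k| + es) / τ))
          (fun _ _ => Real.sqrt_nonneg _) (Finset.mem_univ k))).trans ?_
      exact add_le_add (mul_le_mul_of_nonneg_left (hCb y j) (by positivity)) le_rfl
    refine (Finset.sum_le_sum hj).trans_eq ?_
    rw [Finset.sum_const, Finset.card_univ, Fintype.card_fin, nsmul_eq_mul]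
  have hm : ∀ y, Measurable fun g : Fin n → Fin d → ℝ => blockH τ P S y g := fun y =>
    ((continuous_blockH τ P S).comp (f := fun g => (y, g))
      (continuous_const.prodMk continuous_id)).measurable
  have key := fun y => log_integral_exp_bound hpos (hm y) (hae y)
  refine ⟨fun y => ⟨(key y).1, (key y).2.1⟩, ?_⟩
  set L := |Real.log (((blockGauss d n).restrict (blockShell τ es D n)).real Set.univ)|
  have hP : 0 ≤ (τ.toNNReal : ℝ) * r ^ 2 * (∑ i, ∑ j, |P i j|) / 2 := by positivity
  refine ⟨(n : ℝ) * (√τ * r * C + τ.toNNReal * r ^ 2 * (∑ i, ∑ j, |P i j|) / 2) + L,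
    by positivity, fun y => ((key y).2.2).trans ?_⟩
  set T := ∑ l, ∑ i, |y l i|
  have hT : 0 ≤ T := Finset.sum_nonneg fun _ _ => Finset.sum_nonneg fun _ _ => abs_nonneg _
  have h1 : (0 : ℝ) ≤ n * (√τ * r * C) := by positivity
  have h2 : (0 : ℝ) ≤ n * (τ.toNNReal * r ^ 2 * (∑ i, ∑ j, |P i j|) / 2) := by positivity
  have h3 : 0 ≤ L := abs_nonneg _
  simp only [b]
  nlinarith

theorem gridM_small {μ : ℝ} {p : ℕ → Matrix (Fin d) (Fin d) ℝ}
    (hp : ∀ l, l ≤ K → gridM K l < μ → p l = 0) {l : Fin K} (hl : mlev K l < μ) :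
    p (l.val + 1) - p l.val = 0 := by
  rw [← gridM_succ] at hl
  have h0 : gridM K l.val ≤ gridM K (l.val + 1) := (gridM_levels K).mono l.val l.isLt.le
  rw [hp _ l.isLt hl, hp _ l.isLt.le (h0.trans_lt hl), sub_zero]

theorem facOf_zero : facOf (0 : Matrix (Fin d) (Fin d) ℝ) = 0 := by
  funext k i
  simp [facOf]

theorem blockFac_mul {p : ℕ → Matrix (Fin d) (Fin d) ℝ} (hp : IsPath K p) (l : Fin K) :
    blockFac p l * (blockFac p l).transpose = p (l.val + 1) - p l.val := by
  have hP := hp.step l.val l.isLt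
  have h : (blockFac p l : Matrix (Fin d) (Fin d) ℝ) = CFC.sqrt (p (l.val + 1) - p l.val) := rfl
  have hs : (CFC.sqrt (p (l.val + 1) - p l.val)).PosSemidef := by
    exact Matrix.nonneg_iff_posSemidef.1 (CFC.sqrt_nonneg _)
  have ht := hs.isHermitian.eq
  rw [conjTranspose_eq_transpose_of_trivial] at ht
  rw [h, ht]
  exact CFC.sqrt_mul_sqrt_self _ hP.nonneg

/-- The closed value of a spin with vanishing root field. -/
theorem tendsto_spin {τ : ℝ} (hτ : 0 < τ) {D L : Matrix (Fin d) (Fin d) ℝ}
    {p : ℕ → Matrix (Fin d) (Fin d) ℝ} (hp : IsPath K p) (hp0 : p 0 = 0)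
    (hpd : ∀ l, l ≤ K → (tLam (gridM K) K L p l).PosDef) :
    (∀ R, casc (gaus (Fin d)) K (mlev K)
        (fun u => leafR τ (L + p K - τ⁻¹ • 1) R (∑ l, blockFac p l *ᵥ u l))
      ≤ spinVal (gridM K) K τ D L p - ((L * D).trace - D.trace / τ) / 2) ∧
    Tendsto (fun R => casc (gaus (Fin d)) K (mlev K)
        (fun u => leafR τ (L + p K - τ⁻¹ • 1) R (∑ l, blockFac p l *ᵥ u l))) atTop
      (𝓝 (spinVal (gridM K) K τ D L p - ((L * D).trace - D.trace / τ) / 2)) := by
  have hstep : ∀ l : Fin K, tLam (gridM K) K L p ((l.succ : Fin (K + 1)) : ℕ)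
      = tLam (gridM K) K L p ((l.castSucc : Fin (K + 1)) : ℕ)
        + mlev K l • (blockFac p l * (blockFac p l).transpose) := fun l => by
    rw [Fin.val_succ, Fin.val_castSucc, blockFac_mul hp, ← gridM_succ,
      tLam_step (m := gridM K) L p l.isLt, sub_add_cancel]
  have h := casc_leafR_lim hτ K (mlev K) (fun l => tLam (gridM K) K L p l.val) (blockFac p)
    (grid_mlev K).pos (fun l => hpd _ (Nat.le_of_lt_succ l.isLt)) hstep 0
  simp only [zero_add, zero_dotProduct, Matrix.mulVec_zero, zero_div, Fin.val_last,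
    tLam_top (gridM_levels K)] at h
  have e : spinVal (gridM K) K τ D L p - ((L * D).trace - D.trace / τ) / 2
      = -((Real.log (L + p K).det + d * Real.log τ) / 2) + ∑ l : Fin K, (2 * mlev K l)⁻¹
          * (Real.log (tLam (gridM K) K L p l.succ.val).det
            - Real.log (tLam (gridM K) K L p l.castSucc.val).det) := by
    have hs : ∑ l : Fin K, (2 * mlev K l)⁻¹ * (Real.log (tLam (gridM K) K L p l.succ.val).det
          - Real.log (tLam (gridM K) K L p l.castSucc.val).det)
        = 1 / 2 * ∑ l ∈ range K, (gridM K (l + 1))⁻¹ *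
          (Real.log (tLam (gridM K) K L p (l + 1)).det
            - Real.log (tLam (gridM K) K L p l).det) := by
      rw [Finset.mul_sum, ← Fin.sum_univ_eq_sum_range (fun l => 1 / 2 * ((gridM K (l + 1))⁻¹ *
        (Real.log (tLam (gridM K) K L p (l + 1)).det
          - Real.log (tLam (gridM K) K L p l).det))) K]
      refine Finset.sum_congr rfl fun l _ => ?_
      rw [gridM_succ, mul_inv, Fin.val_succ, Fin.val_castSucc]
      ring
    rw [hs]
    simp only [spinVal, levelSum, hp0, Matrix.zero_mul, Matrix.trace_zero, tLam_top (gridM_levels K)]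
    ring
  rw [e]
  exact h

/-- Pointwise split of a cut block into the shell and the tilted blocks. -/
theorem block_split {τ es θ : ℝ} (hτ : 0 < τ) (hθ : 0 ≤ θ) {D : Matrix (Fin d) (Fin d) ℝ}
    (hD : D.transpose = D) (hn : 0 < n) (P : Matrix (Fin d) (Fin d) ℝ)
    (S : Fin K → Matrix (Fin d) (Fin d) ℝ) (R : ℕ) (y : Fin K → Fin n × Fin d → ℝ) :
    ∫ g, Real.exp (blockH τ P S y g) ∂Measure.pi (fun _ : Fin n => cubeMeas d R)
      ≤ (∫ g, Real.exp (blockH τ P S y g) ∂(blockGauss d n).restrict (blockShell τ es D n))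
        + ∑ i : Bool × Fin d × Fin d,
          Real.exp (-((n : ℝ) * θ * es) - (n : ℝ) * θ / 2 * (tiltDir i * D).trace
            + ∑ j, leafR τ (P + (-θ) • tiltDir i) R (blockField S y j)) := by
  set ν := Measure.pi fun _ : Fin n => cubeMeas d R with hν
  set sh := blockShell τ es D n
  set cube : Set (Fin n → Fin d → ℝ) := Set.univ.pi fun _ => cubeSet d R
  have hνr : ν = (blockGauss d n).restrict cube := by
    simp only [hν, cube, blockGauss, cubeMeas, Measure.restrict_pi_pi]
  set ρ : ℝ := (R : ℝ) + 1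
  have hm : ∀ P', Measurable fun g : Fin n → Fin d → ℝ => Real.exp (blockH τ P' S y g) := fun P' =>
    (Real.continuous_exp.comp ((continuous_blockH τ P' S).comp (f := fun g => (y, g))
      (continuous_const.prodMk continuous_id))).measurable
  have hi : ∀ P', Integrable (fun g => Real.exp (blockH τ P' S y g)) ν := fun P' => by
    refine Integrable.mono' (integrable_const (Real.exp (∑ j, (√τ * ρ * (∑ k, |blockField S y j k|)
      + τ.toNNReal * ρ ^ 2 * (∑ i, ∑ k, |P' i k|) / 2)))) (hm P').aestronglyMeasurable ?_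
    rw [hνr]
    filter_upwards [ae_restrict_mem (MeasurableSet.univ_pi fun _ => measurableSet_cubeSet d R)]
      with g hg
    rw [Real.norm_eq_abs, abs_of_pos (Real.exp_pos _), Real.exp_le_exp]
    exact Finset.sum_le_sum fun j _ => (le_abs_self _).trans
      (abs_leafW_le τ P' _ fun k => abs_le.2 (hg j (Set.mem_univ j) k (Set.mem_univ k)))
  set c : Bool × Fin d × Fin d → ℝ := fun i =>
    -((n : ℝ) * θ * es) - (n : ℝ) * θ / 2 * (tiltDir i * D).trace
  have hpt : ∀ g, Real.exp (blockH τ P S y g) ≤ sh.indicator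
      (fun g => Real.exp (blockH τ P S y g)) g
      + ∑ i, Real.exp (c i) * Real.exp (blockH τ (P + (-θ) • tiltDir i) S y g) := fun g => by
    by_cases hg : g ∈ sh
    · rw [Set.indicator_of_mem hg]
      exact le_add_of_nonneg_right (Finset.sum_nonneg fun i _ =>
        mul_nonneg (Real.exp_pos _).le (Real.exp_pos _).le)
    · obtain ⟨i, hi'⟩ := exists_tilt hD hg
      rw [Set.indicator_of_notMem hg, zero_add]
      refine le_trans ?_ (Finset.single_le_sum (f := fun i =>
        Real.exp (c i) * Real.exp (blockH τ (P + (-θ) • tiltDir i) S y g))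
        (fun i _ => mul_nonneg (Real.exp_pos _).le (Real.exp_pos _).le) (Finset.mem_univ i))
      rw [← Real.exp_add, Real.exp_le_exp, blockH_tilt P S y g hn]
      have htr : (tiltDir i * D).trace = ∑ k, ∑ l, tiltDir i k l * D k l := by
        simp only [Matrix.trace, Matrix.diag, Matrix.mul_apply]
        refine Finset.sum_congr rfl fun k _ => Finset.sum_congr rfl fun l _ => ?_
        conv_lhs => rw [← hD, Matrix.transpose_apply]
      have hsum : ∑ k, ∑ l, tiltDir i k l * (blockOv τ g k l - D k l) / 2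
          = ((∑ k, ∑ l, tiltDir i k l * blockOv τ g k l) - (tiltDir i * D).trace) / 2 := by
        simp only [htr, mul_sub, sub_div, Finset.sum_sub_distrib, Finset.sum_div]
      rw [hsum] at hi'
      simp only [c, Matrix.smul_apply, smul_eq_mul, mul_assoc (-θ), ← Finset.mul_sum]
      have hnθ : 0 ≤ (n : ℝ) * θ := mul_nonneg (Nat.cast_nonneg n) hθ
      nlinarith [mul_le_mul_of_nonneg_left hi' hnθ]
  have hsh : Integrable (sh.indicator fun g => Real.exp (blockH τ P S y g)) ν :=
    (hi P).indicator (measurableSet_blockShell τ es D n)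
  refine (integral_mono (hi P) (hsh.add (integrable_finsetSum _ fun i _ =>
    (hi _).const_mul (Real.exp (c i)))) hpt).trans ?_
  simp only [Pi.add_apply]
  rw [integral_add hsh (integrable_finsetSum _ fun i _ => (hi _).const_mul _),
    integral_finsetSum _ fun i _ => (hi _).const_mul _,
    integral_indicator (measurableSet_blockShell τ es D n)]
  refine add_le_add ?_ (le_of_eq (Finset.sum_congr rfl fun i _ => ?_))
  · refine integral_mono_measure (Measure.restrict_mono le_rfl ?_)
      (ae_of_all _ fun g => (Real.exp_pos _).le) ?_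
    · rw [hνr]; exact Measure.restrict_le_self
    · by_cases h0 : 0 < ((blockGauss d n).restrict sh).real Set.univ
      · exact ((grow_shell hτ D P S h0).1 y).1
      · have : (blockGauss d n).restrict sh = 0 := by
          rw [← Measure.measure_univ_eq_zero]
          exact (measureReal_eq_zero_iff).1 (le_antisymm (not_lt.1 h0) measureReal_nonneg)
        rw [this]
        exact integrable_zero_measure
  · rw [integral_const_mul, Real.exp_add, ← (log_integral_block τ _ S R y).2,
      Real.exp_log (log_integral_block τ _ S R y).1]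

/-- A confined block in cascade fields is worth at least the tilted spins, uniformly in the
levels; in particular the shell has positive mass. -/
theorem block_lower (d : ℕ) {τ es μ c B η : ℝ} (hτ : 0 < τ) (hes : 0 < es) (hμ : 0 < μ)
    (hμ1 : μ ≤ 1) (hc : 0 < c) (hη : 0 < η) :
    ∃ n0, ∀ n ≥ n0, ∀ (K : ℕ) (L D : Matrix (Fin d) (Fin d) ℝ)
      (p q : ℕ → Matrix (Fin d) (Fin d) ℝ), IsPath K p → D.transpose = D →
      (∀ l, l ≤ K → tLam (gridM K) K L p l * tT (gridM K) K D q l = 1) →
      q 0 = tT (gridM K) K D q 0 * p 0 * tT (gridM K) K D q 0 →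
      (∀ l, l ≤ K → (tLam (gridM K) K L p l
        - c • (1 : Matrix (Fin d) (Fin d) ℝ)).PosSemidef) →
      Casc.mabs (p K) ≤ B → Casc.mabs L ≤ B → (∀ l, l ≤ K → gridM K l < μ → p l = 0) →
      0 < ((blockGauss d n).restrict (blockShell τ es D n)).real Set.univ ∧
      (n : ℝ) * (spinVal (gridM K) K τ D L p - (B + d / τ) * es / 2 - η)
        ≤ blockVal τ es K D p n := by
  set k := (d : ℝ) ^ 2 / (c / 2)
  set C := max 0 (k ^ 2 * (1 + 4 * k * (d * B)) / 2)
  have hC : 0 ≤ C := le_max_left _ _
  set θ := min (c / 4) (es / (8 * C + 1))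
  have hθ : 0 < θ := lt_min (by linarith) (div_pos hes (by linarith))
  set δ := θ * es / 2
  have hδ : 0 < δ := by positivity
  have hδ' : C * (2 * θ) ^ 2 - θ * es ≤ -δ := by
    have h := min_le_right (c / 4) (es / (8 * C + 1))
    rw [le_div_iff₀ (by linarith)] at h
    simp only [δ]
    nlinarith
  set N := Fintype.card (Bool × Fin d × Fin d)
  have hlim : Tendsto (fun n : ℕ => (N : ℝ) * Real.exp (-(μ * ((n : ℝ) * δ)))) atTop (𝓝 0) := by
    have h1 : Tendsto (fun n : ℕ => -(μ * ((n : ℝ) * δ))) atTop atBot :=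
      tendsto_neg_atTop_atBot.comp
        ((tendsto_natCast_atTop_atTop.atTop_mul_const hδ).const_mul_atTop hμ)
    simpa using (Real.tendsto_exp_atBot.comp h1).const_mul (N : ℝ)
  obtain ⟨n0, hn0⟩ := eventually_atTop.1 (((hlim.eventually
    (eventually_le_nhds (one_half_pos (α := ℝ)))).and
    (eventually_ge_atTop 1)).and
    ((tendsto_natCast_atTop_atTop.const_mul_atTop (mul_pos hμ hη)).eventually
      (eventually_ge_atTop (Real.log 2))))
  refine ⟨n0, fun n hn K L D p q hp hD h hroot hL hpB hLB hp0 => ?_⟩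
  obtain ⟨⟨hN, hn1⟩, hlog⟩ := hn0 n hn
  have hn' : 0 < n := hn1
  have hnR : (0 : ℝ) < n := Nat.cast_pos.2 hn'
  have hz : p 0 = 0 := hp0 0 (Nat.zero_le K) (by simpa [gridM] using hμ)
  have hm := gridM_levels K
  set S := blockFac (K := K) p with hS
  set e : Bool × Fin d × Fin d → Matrix (Fin d) (Fin d) ℝ := fun i => (-θ) • tiltDir i
  have heb : ∀ i, Casc.mabs (e i) ≤ 2 * θ := fun i => by
    rw [mabs_smul, abs_neg, abs_of_pos hθ, mul_comm 2 θ]
    exact mul_le_mul_of_nonneg_left (mabs_tiltDir i) hθ.le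
  have heH : ∀ i, (e i).IsHermitian := fun i => by
    have h1 : (Matrix.single i.2.1 i.2.2 (1 : ℝ) + Matrix.single i.2.2 i.2.1 1).IsHermitian :=
      Matrix.IsHermitian.ext fun a b => by simp [Matrix.single_apply, add_comm, and_comm]
    exact (h1.smul (IsSelfAdjoint.all _)).smul (IsSelfAdjoint.all _)
  have htl : ∀ i l, tLam (gridM K) K (L + e i) p l = tLam (gridM K) K L p l + e i := fun i l => by
    simp only [tLam]; abel
  have hL' : ∀ i l, l ≤ K → (tLam (gridM K) K (L + e i) p l
      - (c / 2) • (1 : Matrix (Fin d) (Fin d) ℝ)).PosSemidef := fun i l hl => by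
    have h2 : 2 * θ ≤ c / 2 := by linarith [min_le_left (c / 4) (es / (8 * C + 1))]
    convert (hL l hl).add (sub_smul_one_psd (heH i) ((heb i).trans h2)) using 1
    rw [htl]
    module
  have hLc : ∀ l, l ≤ K → (tLam (gridM K) K L p l
      - (c / 2) • (1 : Matrix (Fin d) (Fin d) ℝ)).PosSemidef := fun l hl => by
    convert (hL l hl).add ((Matrix.PosSemidef.one (n := Fin d) (R := ℝ)).smul (half_pos hc).le)
      using 1
    module
  set V := spinVal (gridM K) K τ D L p - ((L * D).trace - D.trace / τ) / 2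
  set P := L + p K - τ⁻¹ • (1 : Matrix (Fin d) (Fin d) ℝ)
  obtain ⟨-, hFt⟩ := tendsto_spin (D := D) hτ hp hz fun l hl =>
    (mabs_inv_le hc (hL l hl)).1
  set Full : ℕ → ℝ := fun R => casc (gaus (Fin n × Fin d)) K (mlev K)
    fun y => ∑ j, leafR τ P R (blockField S y j)
  have hsum : ∀ (P' : Matrix (Fin d) (Fin d) ℝ) (R : ℕ),
      casc (gaus (Fin n × Fin d)) K (mlev K) (fun y => ∑ j, leafR τ P' R (blockField S y j))
        = n * casc (gaus (Fin d)) K (mlev K) fun u => leafR τ P' R (∑ l, S l *ᵥ u l) :=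
    fun P' R => by
      obtain ⟨A, hA, hb⟩ := abs_leafR_le τ P' R
      exact casc_block_sum (grid_mlev K) S (measurable_leafR τ P' R) hA hb
  have hFull : Tendsto Full atTop (𝓝 (n * V)) :=
    (hFt.const_mul (n : ℝ)).congr fun R => (hsum P R).symm
  set shμ := (blockGauss d n).restrict (blockShell τ es D n)
  set cst : Bool × Fin d × Fin d → ℝ := fun i =>
    -((n : ℝ) * θ * es) - (n : ℝ) * θ / 2 * (tiltDir i * D).trace
  set Hi : ℕ → Bool × Fin d × Fin d → (Fin K → Fin n × Fin d → ℝ) → ℝ := fun R i y =>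
    cst i + ∑ j, leafR τ (P + e i) R (blockField S y j)
  have hgrow : ∀ P' R, Grow fun y : Fin K → Fin n × Fin d → ℝ =>
      ∑ j, leafR τ P' R (blockField S y j) := fun P' R => by
    obtain ⟨A, hA, hb⟩ := abs_leafR_le τ P' R
    obtain ⟨C', hC', hCb⟩ := blockField_bound (n := n) S
    refine Grow.sum _ fun j _ => ⟨A * (1 + C'), by positivity, fun y => (hb _).trans ?_⟩
    rw [mul_assoc]
    refine mul_le_mul_of_nonneg_left ?_ hA
    nlinarith [hCb y j, Finset.sum_nonneg (s := Finset.univ) fun (l : Fin K) _ =>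
      Finset.sum_nonneg (s := Finset.univ) fun (i : Fin n × Fin d) _ => abs_nonneg (y l i)]
  have hmeasR : ∀ P' R, Measurable fun y : Fin K → Fin n × Fin d → ℝ =>
      ∑ j, leafR τ P' R (blockField S y j) := fun P' R => Finset.measurable_sum _ fun j _ =>
    (measurable_leafR τ P' R).comp (continuous_blockField S j).measurable
  have hHm : ∀ R i, Measurable (Hi R i) := fun R i => (hmeasR _ R).const_add _
  have hHi : ∀ R i, Integrable (fun y => Real.exp (Hi R i y))
      (Measure.pi fun _ : Fin K => gaus (Fin n × Fin d)) := fun R i =>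
    ((grow_const (cst i)).add (hgrow _ R)).integrable_exp (hHm R i)
  have hHc : ∀ R i, casc (gaus (Fin n × Fin d)) K (mlev K) (Hi R i) ≤ n * V - n * δ := fun R i => by
    have h1 : casc (gaus (Fin n × Fin d)) K (mlev K) (Hi R i)
        ≤ casc (gaus (Fin n × Fin d)) K (mlev K)
            (fun y => ∑ j, leafR τ (P + e i) R (blockField S y j)) + cst i :=
      casc_le_add (cst i) K (grid_mlev K) (hHm R i) (hmeasR _ R) (hHi R i)
        ((hgrow _ R).integrable_exp (hmeasR _ R)) fun y => le_of_eq (add_comm _ _)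
    have hPe : P + e i = L + e i + p K - τ⁻¹ • 1 := by simp only [P]; abel
    have h2 := (tendsto_spin (D := D) (L := L + e i) hτ hp hz fun l hl =>
      (mabs_inv_le (half_pos hc) (hL' i l hl)).1).1 R
    rw [hsum, hPe] at h1
    have h3 := spinVal_quad hm τ hp h hroot (half_pos hc) hLc (hL' i) hpB
    have h4 : k ^ 2 * (1 + 4 * k * (d * B)) / 2 * Casc.mabs (e i) ^ 2 ≤ C * (2 * θ) ^ 2 :=
      (mul_le_mul_of_nonneg_right (le_max_right _ _) (sq_nonneg _)).trans
        (mul_le_mul_of_nonneg_left (pow_le_pow_left₀ (mabs_nonneg _) (heb i) 2) hC)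
    have h5 : ((L + e i) * D).trace = (L * D).trace - θ * (tiltDir i * D).trace := by
      simp only [e, Matrix.add_mul, Matrix.trace_add, Matrix.smul_mul, Matrix.trace_smul,
        smul_eq_mul]
      ring
    simp only [cst] at h1
    rw [h5] at h2
    have h6 := mul_le_mul_of_nonneg_left h2 hnR.le
    have h7 := mul_le_mul_of_nonneg_left (h3.trans (add_le_add le_rfl h4)) hnR.le
    have h8 := mul_le_mul_of_nonneg_left hδ' hnR.le
    simp only [V]
    linarith
  have hdep : ∀ l, mlev K l < μ → ∀ (y : Fin K → Fin n × Fin d → ℝ) (x : Fin n × Fin d → ℝ) j,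
      blockField S (Function.update y l x) j = blockField S y j := fun l hl y x j => by
    refine Finset.sum_congr rfl fun l' _ => ?_
    by_cases hll : l' = l
    · subst hll
      have : S l' = 0 := by
        simp only [hS, blockFac, gridM_small hp0 hl, facOf_zero]
        rfl
      simp [this]
    · rw [Function.update_of_ne hll]
  have hsplit := fun R y =>
    block_split (es := es) hτ hθ.le hD hn' P S R y
  -- the shell has positive mass
  have hpos : 0 < shμ.real Set.univ := by
    by_contra hneg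
    have hzero : shμ = 0 := by
      rw [← Measure.measure_univ_eq_zero]
      exact (measureReal_eq_zero_iff).1 (le_antisymm (not_lt.1 hneg) measureReal_nonneg)
    obtain ⟨R0, hR0⟩ := (hFull.eventually (eventually_gt_nhds (sub_lt_self _
      (mul_pos hnR hδ) : (n : ℝ) * V - n * δ < n * V))).exists
    rcases isEmpty_or_nonempty (Bool × Fin d × Fin d) with hE | hE
    · have := hsplit R0 fun _ _ => 0
      simp only [shμ] at hzero
      rw [hzero, integral_zero_measure, Finset.univ_eq_empty, Finset.sum_empty, add_zero] at this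
      exact absurd this (not_le.2 (log_integral_block τ P S R0 _).1)
    have hle : ∀ R, Real.exp (μ * Full R)
        ≤ (N : ℝ) * Real.exp (μ * (n * V - n * δ)) := fun R => by
      have hGm : Measurable fun y => Real.log (∑ i, Real.exp (Hi R i y)) :=
        (Finset.measurable_sum _ fun i _ => (hHm R i).exp).log
      have hGi : Integrable (fun y => Real.exp (Real.log (∑ i, Real.exp (Hi R i y))))
          (Measure.pi fun _ : Fin K => gaus (Fin n × Fin d)) :=
        (integrable_finsetSum _ fun i _ => hHi R i).congr (ae_of_all _ fun y =>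
          (Real.exp_log (Finset.sum_pos (fun i _ => Real.exp_pos _) Finset.univ_nonempty)).symm)
      have hF := casc_le_add 0 K (grid_mlev K) (hmeasR P R) hGm
        ((hgrow P R).integrable_exp (hmeasR P R)) hGi fun y => by
        rw [add_zero, ← (log_integral_block τ P S R y).2]
        refine Real.log_le_log (log_integral_block τ P S R y).1 ((hsplit R y).trans_eq ?_)
        simp only [shμ] at hzero
        rw [hzero, integral_zero_measure, zero_add]
      rw [add_zero] at hF
      refine (Real.exp_le_exp.2 (mul_le_mul_of_nonneg_left hF hμ.le)).trans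
        ((casc_lse_le Finset.univ_nonempty K (grid_mlev K) hμ hμ1 (hHm R) (hHi R)
          fun l hl i y x => by simp only [Hi, hdep l hl]).trans ?_)
      refine (Finset.sum_le_sum fun i _ => Real.exp_le_exp.2
        (mul_le_mul_of_nonneg_left (hHc R i) hμ.le)).trans_eq ?_
      simp [N]
    have hl' := le_of_tendsto ((hFull.const_mul μ).rexp) (Eventually.of_forall hle)
    have hsp : Real.exp (μ * ((n : ℝ) * V - n * δ))
        = Real.exp (μ * ((n : ℝ) * V)) * Real.exp (-(μ * ((n : ℝ) * δ))) := by
      rw [← Real.exp_add]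
      congr 1
      ring
    rw [hsp] at hl'
    nlinarith [Real.exp_pos (μ * ((n : ℝ) * V))]
  refine ⟨hpos, ?_⟩
  obtain ⟨hshI, hshG⟩ := grow_shell hτ D P S hpos
  set Hin : (Fin K → Fin n × Fin d → ℝ) → ℝ := fun y =>
    Real.log (∫ g, Real.exp (blockH τ P S y g) ∂shμ)
  have hmin : ∀ P', Measurable fun y : Fin K → Fin n × Fin d → ℝ =>
      Real.log (∫ g, Real.exp (blockH τ P' S y g) ∂shμ) := fun P' =>
    (StronglyMeasurable.integral_prod_right' (ν := shμ)
      (Real.continuous_exp.comp (continuous_blockH τ P' S)).measurable.stronglyMeasurable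
      ).measurable.log
  have hin : Integrable (fun y => Real.exp (Hin y))
      (Measure.pi fun _ : Fin K => gaus (Fin n × Fin d)) := hshG.integrable_exp (hmin P)
  set H : ℕ → Option (Bool × Fin d × Fin d) → (Fin K → Fin n × Fin d → ℝ) → ℝ := fun R o =>
    o.elim Hin (Hi R)
  have hle : ∀ R, Real.exp (μ * Full R)
      ≤ Real.exp (μ * casc (gaus (Fin n × Fin d)) K (mlev K) Hin)
        + (N : ℝ) * Real.exp (μ * (n * V - n * δ)) := fun R => by
    have hHo : ∀ o, Measurable (H R o) := fun o => by
      cases o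
      · exact hmin P
      · exact hHm R _
    have hHoi : ∀ o, Integrable (fun y => Real.exp (H R o y))
        (Measure.pi fun _ : Fin K => gaus (Fin n × Fin d)) := fun o => by
      cases o
      · exact hin
      · exact hHi R _
    have hGm : Measurable fun y => Real.log (∑ o, Real.exp (H R o y)) :=
      (Finset.measurable_sum _ fun o _ => (hHo o).exp).log
    have hGi : Integrable (fun y => Real.exp (Real.log (∑ o, Real.exp (H R o y))))
        (Measure.pi fun _ : Fin K => gaus (Fin n × Fin d)) :=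
      (integrable_finsetSum _ fun o _ => hHoi o).congr (ae_of_all _ fun y =>
        (Real.exp_log (Finset.sum_pos (fun o _ => Real.exp_pos _) Finset.univ_nonempty)).symm)
    have hF := casc_le_add 0 K (grid_mlev K) (hmeasR P R) hGm
      ((hgrow P R).integrable_exp (hmeasR P R)) hGi fun y => by
      rw [add_zero, ← (log_integral_block τ P S R y).2]
      refine Real.log_le_log (log_integral_block τ P S R y).1 ((hsplit R y).trans_eq ?_)
      simp only [Fintype.sum_option, H, Option.elim_none, Option.elim_some, Hin, Hi, cst, e,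
        shμ, Real.exp_log (hshI y).2]
    rw [add_zero] at hF
    refine (Real.exp_le_exp.2 (mul_le_mul_of_nonneg_left hF hμ.le)).trans
      ((casc_lse_le Finset.univ_nonempty K (grid_mlev K) hμ hμ1 hHo hHoi
        fun l hl o y x => by
          cases o
          · simp only [H, Option.elim_none, Hin, blockH, hdep l hl]
          · simp only [H, Option.elim_some, Hi, hdep l hl]).trans ?_)
    rw [Fintype.sum_option]
    refine add_le_add le_rfl ((Finset.sum_le_sum fun i _ => Real.exp_le_exp.2
      (mul_le_mul_of_nonneg_left (hHc R i) hμ.le)).trans_eq ?_)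
    simp [N]
  have hl' := le_of_tendsto ((hFull.const_mul μ).rexp) (Eventually.of_forall hle)
  have hlow := half_le_of_exp_le (δ := (n : ℝ) * δ) hμ hl' le_rfl hN
  -- the compensation on the shell
  set E := (n : ℝ) / 2 * (B + d / τ) * es
  set A := L - τ⁻¹ • (1 : Matrix (Fin d) (Fin d) ℝ)
  have hPA : P = p K + A := by simp only [P, A]; abel
  have hA : Casc.mabs A ≤ B + d / τ := by
    refine (mabs_sub _ _).trans (add_le_add hLB (le_of_eq ?_))
    rw [mabs_smul, abs_of_pos (inv_pos.2 hτ)]
    simp [Casc.mabs, Matrix.one_apply, apply_ite abs, Finset.sum_ite_eq, inv_mul_eq_div]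
  have htr : (L * D).trace - D.trace / τ = ∑ a, ∑ b, A a b * D a b := by
    have e1 : (A * D).trace = (L * D).trace - D.trace / τ := by
      simp only [A, Matrix.sub_mul, Matrix.trace_sub, Matrix.smul_mul, Matrix.one_mul,
        Matrix.trace_smul, smul_eq_mul]
      ring
    rw [← e1]
    simp only [Matrix.trace, Matrix.diag, Matrix.mul_apply]
    refine Finset.sum_congr rfl fun a _ => Finset.sum_congr rfl fun b _ => ?_
    conv_lhs => rw [← hD, Matrix.transpose_apply]
  have hcomp : casc (gaus (Fin n × Fin d)) K (mlev K) Hin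
      ≤ blockVal τ es K D p n + (E - (n : ℝ) / 2 * ((L * D).trace - D.trace / τ)) := by
    refine casc_le_add _ K (grid_mlev K) (hmin P) (hmin (p K)) hin
      ((grow_shell hτ D (p K) S hpos).2.integrable_exp (hmin (p K))) fun y => ?_
    obtain ⟨hI2, hp2⟩ := (grow_shell hτ D (p K) S hpos).1 y
    set a := E - (n : ℝ) / 2 * ((L * D).trace - D.trace / τ)
    have hmono : ∫ g, Real.exp (blockH τ P S y g) ∂shμ
        ≤ Real.exp a * ∫ g, Real.exp (blockH τ (p K) S y g) ∂shμ := by
      rw [← integral_const_mul]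
      refine integral_mono_ae (hshI y).1 (hI2.const_mul _) ?_
      filter_upwards [ae_restrict_mem (measurableSet_blockShell τ es D n)] with g hg
      rw [← Real.exp_add, Real.exp_le_exp, hPA, blockH_tilt (p K) S y g hn']
      have hb : |(∑ k, ∑ l, A k l * blockOv τ g k l) - ((L * D).trace - D.trace / τ)|
          ≤ (B + d / τ) * es := by
        rw [htr]
        simp only [← Finset.sum_sub_distrib, ← mul_sub]
        refine (Finset.abs_sum_le_sum_abs _ _).trans
          (le_trans ?_ (mul_le_mul_of_nonneg_right hA hes.le))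
        rw [Casc.mabs, Finset.sum_mul]
        refine Finset.sum_le_sum fun a' _ => ?_
        rw [Finset.sum_mul]
        refine (Finset.abs_sum_le_sum_abs _ _).trans (Finset.sum_le_sum fun b' _ => ?_)
        rw [abs_mul]
        exact mul_le_mul_of_nonneg_left (hg a' b') (abs_nonneg _)
      have := mul_le_mul_of_nonneg_left (abs_le.1 hb).1 (div_nonneg hnR.le zero_le_two)
      simp only [a, E]
      linarith
    have := Real.log_le_log (hshI y).2 hmono
    rw [Real.log_mul (Real.exp_pos _).ne' hp2.ne', Real.log_exp] at this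
    simp only [Hin]
    linarith
  have hlogn : Real.log 2 / μ ≤ (n : ℝ) * η := by
    rw [div_le_iff₀ hμ]
    linarith
  simp only [V] at hlow
  simp only [E] at hcomp
  have := hlow.trans hcomp
  linarith

end Vale.Agent.P166.Formula
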