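import Vale.Agent.P166.Formula.RowVal
import Vale.Agent.P157.Casc.Coord
import Vale.Agent.P157.Casc.Conc

/-!
Three facts about the recursion: it passes to dominated limits, it separates over the owners of
the coordinates, and for linear fields of several sites it only sees their covariances (P166).
-/

open MeasureTheory ProbabilityTheory Finset Filter Topology

namespace Vale.Agent.P166.Formula

open Vale.Agent.P157.Casc
open Vale.Agent.P150.Fast.Dom (arrMap arrMap_apply)

variable {I J J' : Type} [Fintype I] [Fintype J] [Fintype J']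

theorem sum_abs_cons {K : ℕ} (x : I → ℝ) (y : Fin K → I → ℝ) :
    ∑ l, ∑ i, |(Fin.cons x y : Fin (K + 1) → I → ℝ) l i|
      = (∑ i, |x i|) + ∑ l, ∑ i, |y l i| := by
  simp [Fin.sum_univ_succ]

theorem measurable_growEnv (K : ℕ) (A : ℝ) :
    Measurable fun y : Fin K → I → ℝ => A * (1 + ∑ l, ∑ i, |y l i|) := by
  fun_prop

/-- Size of the recursion under a linear envelope. -/
theorem exists_casc_bound (K : ℕ) {m : Fin K → ℝ} (hm : Grid m) {A : ℝ} (hA : 0 ≤ A) :
    ∃ C : ℝ, ∀ {H : (Fin K → I → ℝ) → ℝ}, Measurable H → ∀ {s : ℝ}, 0 ≤ s →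
      (∀ y, |H y| ≤ A * (1 + ∑ l, ∑ i, |y l i|) + s) → |casc (gaus I) K m H| ≤ C + s := by
  set E : (Fin K → I → ℝ) → ℝ := fun y => A * (1 + ∑ l, ∑ i, |y l i|)
  have hE : Measurable E := measurable_growEnv K A
  have hpos : ∀ y : Fin K → I → ℝ, 0 ≤ 1 + ∑ l, ∑ i, |y l i| := fun y =>
    add_nonneg zero_le_one (Finset.sum_nonneg fun l _ => Finset.sum_nonneg fun i _ => abs_nonneg _)
  have hgE : Grow E := ⟨A, hA, fun y => (abs_of_nonneg (mul_nonneg hA (hpos y))).le⟩
  have hgE' : Grow fun y => -E y := ⟨A, hA, fun y => by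
    rw [abs_neg]; exact (abs_of_nonneg (mul_nonneg hA (hpos y))).le⟩
  refine ⟨max (casc (gaus I) K m E) (-casc (gaus I) K m fun y => -E y),
    fun {H} hH {s} hs hb => ?_⟩
  have hg : Grow H := ⟨A + s, add_nonneg hA hs, fun y => (hb y).trans (by
    have h1 := hpos y
    have h2 : 1 ≤ 1 + ∑ l, ∑ i, |y l i| := le_add_of_nonneg_right
      (Finset.sum_nonneg fun l _ => Finset.sum_nonneg fun i _ => abs_nonneg _)
    nlinarith)⟩
  have h1 := casc_le_add s K hm hH hE (hg.integrable_exp hH) (hgE.integrable_exp hE)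
    fun y => (abs_le.1 (hb y)).2
  have h2 := casc_le_add (ν := gaus I) s K hm (H := fun y => -E y) (H' := H) hE.neg hH
    (hgE'.integrable_exp hE.neg) (hg.integrable_exp hH)
    fun y => by linarith [(abs_le.1 (hb y)).1]
  have h3 := le_max_left (casc (gaus I) K m E) (-casc (gaus I) K m fun y => -E y)
  have h4 := le_max_right (casc (gaus I) K m E) (-casc (gaus I) K m fun y => -E y)
  exact abs_le.2 ⟨by linarith, by linarith⟩

theorem integrable_exp_sum_abs {t : ℝ} :
    Integrable (fun x : I → ℝ => Real.exp (t * ∑ i, |x i|)) (gaus I) := by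
  have hA : Integrable (fun x : ℝ => Real.exp (t * |x|)) (gaussianReal 0 1) := by
    refine ((integrable_exp_mul_gaussianReal t).add (integrable_exp_mul_gaussianReal (-t))).mono'
      (by fun_prop : Measurable fun x : ℝ => Real.exp (t * |x|)).aestronglyMeasurable
      (ae_of_all _ fun x => ?_)
    rw [Real.norm_eq_abs, abs_of_pos (Real.exp_pos _), Pi.add_apply]
    rcases abs_cases x with ⟨h, _⟩ | ⟨h, _⟩ <;> rw [h]
    · linarith [Real.exp_pos (-t * x)]
    · rw [show t * -x = -t * x by ring]; linarith [Real.exp_pos (t * x)]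
  simp only [Finset.mul_sum, Real.exp_sum]
  exact Integrable.fintype_prod fun _ => hA

/-- The recursion passes to limits under a common linear envelope. -/
theorem tendsto_casc_grow : ∀ (K : ℕ) {m : Fin K → ℝ}, Grid m →
    ∀ {H : ℕ → (Fin K → I → ℝ) → ℝ} {Hl : (Fin K → I → ℝ) → ℝ} {A : ℝ}, 0 ≤ A →
    (∀ k, Measurable (H k)) → Measurable Hl →
    (∀ k y, |H k y| ≤ A * (1 + ∑ l, ∑ i, |y l i|)) →
    (∀ y, Tendsto (fun k => H k y) atTop (𝓝 (Hl y))) →
    Tendsto (fun k => casc (gaus I) K m (H k)) atTop (𝓝 (casc (gaus I) K m Hl))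
  | 0, _, _, _, _, _, _, _, _, _, h => h _
  | K + 1, m, hm, H, Hl, A, hA, hH, hHl, hb, h => by
    obtain ⟨C, hC⟩ := exists_casc_bound (I := I) K hm.tail hA
    have h0 := hm.pos 0
    have hbl : ∀ y, |Hl y| ≤ A * (1 + ∑ l, ∑ i, |y l i|) := fun y =>
      le_of_tendsto' (h y).abs fun k => hb k y
    set c : ℕ → (I → ℝ) → ℝ := fun k x => casc (gaus I) K (fun l => m l.succ)
      fun y => H k (Fin.cons x y)
    set cl : (I → ℝ) → ℝ := fun x => casc (gaus I) K (fun l => m l.succ)
      fun y => Hl (Fin.cons x y)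
    have hcm : ∀ k, Measurable (c k) := fun k => measurable_casc_param (α := I → ℝ) K _
      (H := fun x y => H k (Fin.cons x y)) ((hH k).comp Rec.measurable_cons)
    have hbound : ∀ (G : (Fin (K + 1) → I → ℝ) → ℝ) (_ : Measurable G),
        (∀ y, |G y| ≤ A * (1 + ∑ l, ∑ i, |y l i|)) → ∀ x,
        |casc (gaus I) K (fun l => m l.succ) fun y => G (Fin.cons x y)|
          ≤ C + A * ∑ i, |x i| := fun G hG hGb x =>
      hC (measurable_consFix hG x)
        (mul_nonneg hA (Finset.sum_nonneg fun i _ => abs_nonneg _)) fun y => by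
        refine (hGb _).trans (le_of_eq ?_)
        rw [sum_abs_cons]
        ring
    have hlim : ∀ x, Tendsto (fun k => c k x) atTop (𝓝 (cl x)) := fun x =>
      tendsto_casc_grow K hm.tail (A := A * (1 + ∑ i, |x i|))
        (mul_nonneg hA (add_nonneg zero_le_one (Finset.sum_nonneg fun i _ => abs_nonneg _)))
        (fun k => measurable_consFix (hH k) x) (measurable_consFix hHl x)
        (fun k y => (hb k _).trans (by
          rw [sum_abs_cons]
          have h1 : 0 ≤ ∑ i, |x i| := Finset.sum_nonneg fun i _ => abs_nonneg _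
          have h2 : 0 ≤ ∑ l, ∑ i, |y l i| :=
            Finset.sum_nonneg fun l _ => Finset.sum_nonneg fun i _ => abs_nonneg _
          nlinarith [mul_nonneg hA (mul_nonneg h1 h2)]))
        fun y => h _
    have hI : Integrable (fun x : I → ℝ => Real.exp (m 0 * C) * Real.exp (m 0 * A * ∑ i, |x i|))
        (gaus I) := integrable_exp_sum_abs.const_mul _
    have hdct : Tendsto (fun k => ∫ x, Real.exp (m 0 * c k x) ∂gaus I) atTop
        (𝓝 (∫ x, Real.exp (m 0 * cl x) ∂gaus I)) := by
      refine tendsto_integral_of_dominated_convergence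
        (fun x => Real.exp (m 0 * C) * Real.exp (m 0 * A * ∑ i, |x i|))
        (fun k => ((hcm k).const_mul _).exp.aestronglyMeasurable) hI (fun k => ae_of_all _ fun x => ?_)
        (ae_of_all _ fun x => ((hlim x).const_mul _).rexp)
      rw [Real.norm_eq_abs, abs_of_pos (Real.exp_pos _), ← Real.exp_add, Real.exp_le_exp]
      have := mul_le_mul_of_nonneg_left (abs_le.1 (hbound (H k) (hH k) (hb k) x)).2 h0.le
      linarith
    have hgl : Grow Hl := ⟨A, hA, hbl⟩
    have hpos := (weight_integrable hm hHl (hgl.integrable_exp hHl)).2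
    exact (hdct.log hpos.ne').const_mul _

/-- Functions owned by different parts of the coordinates add up. -/
theorem casc_sum_owner {ι : Type*} {K : ℕ} {m : Fin K → ℝ} (hm : Grid m) (owner : I → ι)
    {H : ι → (Fin K → I → ℝ) → ℝ} (hH : ∀ j, Measurable (H j)) (hg : ∀ j, Grow (H j))
    (hd : ∀ j y y', (∀ l i, owner i = j → y l i = y' l i) → H j y = H j y') (s : Finset ι) :
    casc (gaus I) K m (fun y => ∑ j ∈ s, H j y) = ∑ j ∈ s, casc (gaus I) K m (H j) := by
  classical
  induction s using Finset.induction with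
  | empty => simp [casc_fix (gaus I) K hm.pos]
  | insert a s ha ih =>
    obtain ⟨hs, -⟩ := casc_sep (fun i => owner i = a) hm (H := H a)
      (H' := fun y => ∑ j ∈ s, H j y) (a := fun _ => (1 : ℝ)) (a' := fun _ => (1 : ℝ)) (hH a)
      (Finset.measurable_sum _ fun j _ => hH j) measurable_const measurable_const
      (fun y y' hy => ⟨hd a y y' hy, rfl⟩)
      (fun y y' hy => ⟨Finset.sum_congr rfl fun j hj => hd j y y' fun l i hi =>
        hy l i fun h => ha (by rw [← h, hi]; exact hj), rfl⟩)
      ((hg a).integrable_exp (hH a))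
      ((Grow.sum s fun j _ => hg j).integrable_exp (Finset.measurable_sum _ fun j _ => hH j))
    simp only [Finset.sum_insert ha, hs, ih]

/-- Linear fields of several sites: only the covariances of the levels matter. -/
theorem casc_fields_congr {X : Type} [Fintype X] {K : ℕ} (m : Fin K → ℝ)
    (A : Fin K → X → J → ℝ) (A' : Fin K → X → J' → ℝ)
    (h : ∀ l (u : X → ℝ), ∑ j, (∑ x, u x * A l x j) ^ 2 = ∑ j, (∑ x, u x * A' l x j) ^ 2)
    {f : (X → ℝ) → ℝ} (hf : Measurable f) :
    casc (gaus J) K m (fun y => f fun x => ∑ l, ∑ j, A l x j * y l j)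
      = casc (gaus J') K m fun y => f fun x => ∑ l, ∑ j, A' l x j * y l j := by
  set e := Fintype.equivFin X
  have hfm : Measurable fun v : Fin (Fintype.card X) → ℝ => f fun x => v (e x) :=
    hf.comp (measurable_pi_lambda _ fun x => measurable_pi_apply (e x))
  have h' := casc_fld_congr K m (fun l k j => A l (e.symm k) j) (fun l k j => A' l (e.symm k) j)
    (fun l u => by
      have := h l fun x => u (e x)
      simp only [cq]
      convert this using 3 <;>
      · rw [← e.symm.sum_comp]
        simp) hfm 0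
  simpa [rowFld, arrMap_apply, Finset.sum_apply] using h'

end Vale.Agent.P166.Formula
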