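import Vale.Agent.P166.Formula.GaussQuad

/-!
The identity of infinitesimal rotations for an invariant measure and a bounded invariant weight of
bounded support (P166, formula side).
-/

open MeasureTheory Filter Topology Metric Set Real Matrix

namespace Vale.Agent.P166.Formula

section Flow

variable {E : Type*} [NormedAddCommGroup E] [NormedSpace ℝ E] [FiniteDimensional ℝ E]
  [MeasurableSpace E] [BorelSpace E] {μ : Measure E} [IsFiniteMeasure μ]

/-- The rotation generated by `A`, for `A ∘ A ∘ A = -A`. -/
noncomputable def rotMap (A : E →L[ℝ] E) (t : ℝ) (x : E) : E :=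
  x + sin t • A x + (1 - cos t) • A (A x)

omit [FiniteDimensional ℝ E] [MeasurableSpace E] [BorelSpace E] in
theorem rotMap_zero (A : E →L[ℝ] E) (x : E) : rotMap A 0 x = x := by simp [rotMap]

omit [FiniteDimensional ℝ E] [MeasurableSpace E] [BorelSpace E] in
theorem rotMap_add {A : E →L[ℝ] E} (hA : ∀ x, A (A (A x)) = -A x) (t u : ℝ) (x : E) :
    rotMap A t (rotMap A u x) = rotMap A (t + u) x := by
  simp only [rotMap, map_add, map_smul, hA, map_neg, sin_add, cos_add]
  module

/-- A bounded weight of bounded support which is invariant under the rotations sees no derivative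
along them. -/
theorem integral_rot_deriv {A : E →L[ℝ] E} (hA : ∀ x, A (A (A x)) = -A x)
    (hmp : ∀ t, MeasurePreserving (rotMap A t) μ μ) {ψ : E → ℝ} (hψm : Measurable ψ) {Bψ R : ℝ}
    (hψB : ∀ x, |ψ x| ≤ Bψ) (hψR : ∀ x, R < ‖x‖ → ψ x = 0)
    (hψinv : ∀ t x, ψ (rotMap A t x) = ψ x) {g g' : E → ℝ} (hg : Continuous g)
    (hg' : Continuous g') (hd : ∀ x, HasDerivAt (fun s => g (rotMap A s x)) (g' x) 0) :
    ∫ x, ψ x * g' x ∂μ = 0 := by
  have : ProperSpace E := FiniteDimensional.proper ℝ E
  obtain ⟨C, hC⟩ := (isCompact_closedBall (0 : E) R).exists_bound_of_continuousOn hg'.continuousOn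
  obtain ⟨C0, hC0⟩ := (isCompact_closedBall (0 : E) R).exists_bound_of_continuousOn hg.continuousOn
  have hsize : ∀ t x, ψ x ≠ 0 → rotMap A t x ∈ closedBall (0 : E) R := fun t x hx => by
    rw [mem_closedBall_zero_iff]
    exact not_lt.1 fun h => hx ((hψinv t x).symm.trans (hψR _ h))
  have hbd : ∀ (f : E → ℝ) C, (∀ y ∈ closedBall (0 : E) R, ‖f y‖ ≤ C) → ∀ t x,
      ‖ψ x * f (rotMap A t x)‖ ≤ |Bψ| * |C| := fun f C hf t x => by
    rw [norm_mul, Real.norm_eq_abs]
    by_cases hx : ψ x = 0
    · simp [hx]; positivity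
    · exact mul_le_mul ((hψB x).trans (le_abs_self _)) ((hf _ (hsize t x hx)).trans (le_abs_self _))
        (norm_nonneg _) (abs_nonneg _)
  have hmeas : ∀ (f : E → ℝ), Continuous f → ∀ t, Measurable fun x => ψ x * f (rotMap A t x) :=
    fun f hf t => by
      refine hψm.mul (hf.comp ?_).measurable
      unfold rotMap
      fun_prop
  have hconst : ∀ t, ∫ x, ψ x * g (rotMap A t x) ∂μ = ∫ x, ψ x * g x ∂μ := fun t => by
    have hm : Measurable fun x => ψ x * g x := hψm.mul hg.measurable
    calc ∫ x, ψ x * g (rotMap A t x) ∂μ = ∫ x, (fun y => ψ y * g y) (rotMap A t x) ∂μ := by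
          simp only [hψinv]
      _ = ∫ y, ψ y * g y ∂Measure.map (rotMap A t) μ :=
          (integral_map (hmp t).measurable.aemeasurable hm.aestronglyMeasurable).symm
      _ = _ := by rw [(hmp t).map_eq]
  have hpt : ∀ x t, HasDerivAt (fun s => g (rotMap A s x)) (g' (rotMap A t x)) t := fun x t => by
    have e : (fun s => g (rotMap A s x)) = fun s => g (rotMap A (s - t) (rotMap A t x)) := by
      funext s
      rw [rotMap_add hA, sub_add_cancel]
    rw [e]
    have h := hd (rotMap A t x)
    rw [← sub_self t] at h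
    exact h.comp_sub_const t t
  have hderiv := (hasDerivAt_integral_of_dominated_loc_of_deriv_le (μ := μ) (x₀ := (0 : ℝ))
    (F := fun t x => ψ x * g (rotMap A t x)) (F' := fun t x => ψ x * g' (rotMap A t x))
    (bound := fun _ => |Bψ| * |C|) univ_mem
    (Eventually.of_forall fun t => (hmeas g hg t).aestronglyMeasurable)
    (Integrable.of_bound (hmeas g hg 0).aestronglyMeasurable _
      (Eventually.of_forall fun x => hbd g C0 hC0 0 x))
    (hmeas g' hg' 0).aestronglyMeasurable
    (Eventually.of_forall fun x t _ => hbd g' C hC t x) (integrable_const _)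
    (Eventually.of_forall fun x t _ => (hpt x t).const_mul (ψ x))).2
  simp only [hconst, rotMap_zero] at hderiv
  exact hderiv.unique (hasDerivAt_const _ _)

end Flow

section Givens

open Vale.Agent.P166

variable {N : ℕ}

/-- The generator of the rotations of the coordinates `i` and `j`. -/
def planeGen (i j : Fin N) : Matrix (Fin N) (Fin N) ℝ := Matrix.single j i 1 - Matrix.single i j 1

theorem planeGen_cube {i j : Fin N} (h : i ≠ j) :
    planeGen i j * planeGen i j * planeGen i j = -planeGen i j := by
  simp [planeGen, Matrix.sub_mul, Matrix.mul_sub, Matrix.single_mul_single_of_ne, h, h.symm]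
  abel

/-- Velocity of a vector rotated in the coordinates `i` and `j`. -/
def pvel (i j : Fin N) (x : Fin N → ℝ) (u : Fin N) : ℝ :=
  (if u = j then x i else 0) - if u = i then x j else 0

/-- A vector rotated by an angle in the coordinates `i` and `j`. -/
noncomputable def prot (i j : Fin N) (t : ℝ) (x : Fin N → ℝ) (u : Fin N) : ℝ :=
  x u + sin t * pvel i j x u + (1 - cos t) * pvel i j (pvel i j x) u

theorem planeGen_mulVec (i j : Fin N) (x : Fin N → ℝ) : planeGen i j *ᵥ x = pvel i j x := by
  funext u
  rw [planeGen, Matrix.sub_mulVec, Pi.sub_apply, Matrix.single_mulVec, Matrix.single_mulVec]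
  simp [pvel, Function.update_apply]

theorem hasDerivAt_prot (i j : Fin N) (x : Fin N → ℝ) (u : Fin N) :
    HasDerivAt (fun t => prot i j t x u) (pvel i j x u) 0 := by
  have h := (((hasDerivAt_sin 0).mul_const (pvel i j x u)).const_add (x u)).add
    (((hasDerivAt_cos 0).const_sub 1).mul_const (pvel i j (pvel i j x) u))
  refine (h.congr_deriv ?_).congr_of_eventuallyEq (Eventually.of_forall fun t => ?_)
  · simp
  · simp [prot]

/-- The rotation preserves the pairings over a set that has both coordinates or none of them. -/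
theorem sum_prot_mul {i j : Fin N} (hij : i ≠ j) (U : Finset (Fin N)) (hU : i ∈ U ↔ j ∈ U) (t : ℝ)
    (x y : Fin N → ℝ) : ∑ u ∈ U, prot i j t x u * prot i j t y u = ∑ u ∈ U, x u * y u := by
  have ho : ∀ (z : Fin N → ℝ) u, u ≠ i → u ≠ j → prot i j t z u = z u := fun z u h1 h2 => by
    simp [prot, pvel, h1, h2]
  by_cases hi : i ∈ U
  · have hsub : ({i, j} : Finset (Fin N)) ⊆ U := by
      simp [Finset.insert_subset_iff, hi, hU.1 hi]
    rw [← Finset.sum_sdiff hsub, ← Finset.sum_sdiff hsub, Finset.sum_pair hij, Finset.sum_pair hij]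
    congr 1
    · refine Finset.sum_congr rfl fun u hu => ?_
      simp only [Finset.mem_sdiff, Finset.mem_insert, Finset.mem_singleton, not_or] at hu
      rw [ho x u hu.2.1 hu.2.2, ho y u hu.2.1 hu.2.2]
    · simp only [prot, pvel, hij, hij.symm, if_true, if_false, zero_sub, sub_zero]
      linear_combination (x i * y i + x j * y j) * sin_sq_add_cos_sq t
  · refine Finset.sum_congr rfl fun u hu => ?_
    have h1 : u ≠ i := fun e => hi (e ▸ hu)
    have h2 : u ≠ j := fun e => hi (hU.2 (e ▸ hu))
    rw [ho x u h1 h2, ho y u h1 h2]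

/-- The generator acting on every block of a family of spins. -/
noncomputable def blockGen (K : ℕ) (i j : Fin N) :
    (Fin K → Fin N → ℝ) →L[ℝ] (Fin K → Fin N → ℝ) :=
  ContinuousLinearMap.pi fun k =>
    (LinearMap.toContinuousLinearMap (Matrix.mulVecLin (planeGen i j))).comp
      (ContinuousLinearMap.proj k)

theorem blockGen_apply (K : ℕ) (i j : Fin N) (x : Fin K → Fin N → ℝ) (k : Fin K) :
    blockGen K i j x k = planeGen i j *ᵥ x k := by
  simp [blockGen]

theorem rotMap_block (K : ℕ) (i j : Fin N) (t : ℝ) (x : Fin K → Fin N → ℝ) :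
    rotMap (blockGen K i j) t x = fun k => prot i j t (x k) := by
  funext k u
  simp [rotMap, blockGen_apply, planeGen_mulVec, prot]

theorem blockGen_cube (K : ℕ) {i j : Fin N} (h : i ≠ j) (x : Fin K → Fin N → ℝ) :
    blockGen K i j (blockGen K i j (blockGen K i j x)) = -blockGen K i j x := by
  funext k
  simp only [blockGen_apply, Pi.neg_apply, Matrix.mulVec_mulVec, ← Matrix.neg_mulVec]
  rw [← Matrix.mul_assoc, planeGen_cube h]

theorem measurePreserving_rot_block (K : ℕ) {i j : Fin N} (h : i ≠ j) (t : ℝ) :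
    MeasurePreserving (rotMap (blockGen K i j) t) (Measure.pi fun _ : Fin K => gs N)
      (Measure.pi fun _ : Fin K => gs N) := by
  set A := planeGen i j with hA
  set Q : Matrix (Fin N) (Fin N) ℝ := 1 + sin t • A + (1 - cos t) • (A * A) with hQd
  have hT : A.transpose = -A := by
    simp [hA, planeGen, Matrix.transpose_sub, Matrix.transpose_single]
  have h3 : A * A * A = -A := planeGen_cube h
  have h4 : A * A * (A * A) = -(A * A) := by
    rw [← Matrix.mul_assoc, h3, Matrix.neg_mul]
  have hQ : Q.transpose * Q = 1 := by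
    have e : Q.transpose = 1 - sin t • A + (1 - cos t) • (A * A) := by
      rw [hQd]
      simp [Matrix.transpose_add, Matrix.transpose_mul, hT, sub_eq_add_neg]
    have h3' : A * (A * A) = -A := by rw [← Matrix.mul_assoc, h3]
    rw [e, hQd]
    simp only [Matrix.add_mul, Matrix.sub_mul, Matrix.mul_add, Matrix.smul_mul, Matrix.mul_smul,
      Matrix.one_mul, Matrix.mul_one, h3, h4, h3']
    match_scalars <;> nlinarith [sin_sq_add_cos_sq t]
  have hrot : rotMap (blockGen K i j) t = fun x k => Q *ᵥ x k := by
    funext x k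
    simp [rotMap, blockGen_apply, hQd, Matrix.add_mulVec, Matrix.smul_mulVec,
      ← Matrix.mulVec_mulVec, hA]
  rw [hrot]
  exact measurePreserving_pi _ _ fun _ => Nested.measurePreserving_orth hQ

end Givens

end Vale.Agent.P166.Formula
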