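import Vale.Agent.P166.Formula.Stable

/-!
Paths stopped below a level, the Lipschitz dependence of the best response on the path, the effect
of scaling on the entropy and a bound on the entropy of a path which vanishes at the bottom.
-/

open Matrix Finset Real
open scoped MatrixOrder

namespace Vale.Agent.P166.Formula

open Vale.Agent.P166
open Vale.Agent.P166.Casc (mabs mabs_nonneg)

variable {n : ℕ} {m : ℕ → ℝ} {r : ℕ}

theorem cum_sub_right (w q q' : ℕ → Matrix (Fin n) (Fin n) ℝ) (l : ℕ) :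
    cum m w q' l = cum m w q l + cum m w (fun j => q' j - q j) l := by
  simp only [cum, Matrix.mul_sub, smul_sub, sum_sub_distrib]
  abel

theorem tail_sub_right (q q' : ℕ → Matrix (Fin n) (Fin n) ℝ) (l : ℕ) :
    tail m r q' l = tail m r q l + tail m r (fun j => q' j - q j) l := by
  simp only [tail, smul_sub, sum_sub_distrib]
  abel

/-- An exact pair satisfies the normalisation of the bottom precision. -/
theorem diag_of_exact (hm : Levels m r) {L D : Matrix (Fin n) (Fin n) ℝ}
    {w q : ℕ → Matrix (Fin n) (Fin n) ℝ}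
    (h : ∀ l, l ≤ r → tLam m r L w l * tT m r D q l = 1)
    (hroot : q 0 = tT m r D q 0 * w 0 * tT m r D q 0) :
    L * D + cum m w q (r + 1) = 1 := by
  have h0 := resid_eq_zero hm h hroot r le_rfl
  have h1 := h r le_rfl
  simp only [resid, tLam_top hm, tT_top hm, Matrix.add_mul, Matrix.mul_sub] at h0 h1
  rw [cum_succ, hm.top, sub_smul, one_smul]
  rw [sub_eq_zero] at h0
  calc L * D + (cum m w q r + (w r * q r - m r • (w r * q r)))
      = (L * D + w r * D - (L * q r + w r * q r))
        + ((L * q r + w r * q r) - (w r * D - w r * q r - cum m w q r + m r • (w r * q r))) := by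
        abel
    _ = 1 := by rw [h1, h0, sub_self, add_zero]

/-- A change of the overlap path with a compensated bottom precision. -/
theorem resid_change (hm : Levels m r) {B : ℝ} {L D : Matrix (Fin n) (Fin n) ℝ}
    {w q q' : ℕ → Matrix (Fin n) (Fin n) ℝ} (hDu : D.det ≠ 0) (hDi : mabs D⁻¹ ≤ B)
    (hL : mabs L ≤ B) (hdiag : L * D + cum m w q (r + 1) = 1)
    (hwB : ∀ l, l ≤ r → mabs (w l) ≤ B) (hqB : ∀ l, l ≤ r → mabs (q' l) ≤ B) :
    (L - cum m w (fun j => q' j - q j) (r + 1) * D⁻¹) * D + cum m w q' (r + 1) = 1 ∧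
      lmean m r (resid m r (L - cum m w (fun j => q' j - q j) (r + 1) * D⁻¹) D w q')
        ≤ lmean m r (resid m r L D w q)
          + (B ^ 3 + 7 * B) * lmean m r (fun j => q' j - q j) := by
  set x : ℕ → Matrix (Fin n) (Fin n) ℝ := fun l => q' l - q l with hx
  set L' := L - cum m w x (r + 1) * D⁻¹ with hL'
  have hB0 : 0 ≤ B := (mabs_nonneg _).trans hL
  refine ⟨?_, ?_⟩
  · rw [hL', Matrix.sub_mul, Matrix.nonsing_inv_mul_cancel_right _ _ (isUnit_iff_ne_zero.2 hDu),
      cum_sub_right w q q', ← hx, ← hdiag]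
    abel
  have hdiff : ∀ l, l ≤ r → resid m r L' D w q' l = resid m r L D w q l
      + ((L' - L) * q' l + tLam m r L w l * x l + w l * tail m r x l + cum m w x l
          - m l • (w l * x l)) := fun l _ => by
    simp only [resid, tT, tail_sub_right q q', cum_sub_right w q q', tLam, hx, Matrix.add_mul,
      Matrix.mul_sub, Matrix.sub_mul, Matrix.mul_add, smul_sub]
    abel
  set X := lmean m r x with hX
  have hX0 : 0 ≤ X := lmean_nonneg hm _
  have hw1 := lmean_le_of_bound hm hwB
  have hpt : ∀ l, l ≤ r → mabs (resid m r L' D w q' l) ≤ mabs (resid m r L D w q l)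
      + ((B ^ 3 + 2 * B) * X + 5 * B * mabs (x l)) := fun l hl => by
    obtain ⟨h0, h1⟩ := hm.le_one (l := l) (by omega)
    have c1 : mabs (L' - L) ≤ X * B * B := by
      rw [hL', sub_sub_cancel_left, Casc.mabs_neg]
      exact Casc.mabs_mul_le ((mabs_cum_le hm hwB le_rfl).2) hDi
    have c2 : mabs (cum m w x l) ≤ X * B := (mabs_cum_le hm hwB (by omega)).2
    have c3 : mabs (tail m r x l) ≤ X + mabs (x l) := mabs_tail_le hm x hl
    have c4 : mabs (tLam m r L w l) ≤ 3 * B :=
      (Casc.mabs_add _ _).trans (by linarith [mabs_tail_le hm w hl, hwB l hl])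
    have c5 : mabs (m l • (w l * x l)) ≤ B * mabs (x l) := by
      rw [Casc.mabs_smul, abs_of_nonneg h0]
      exact (mul_le_of_le_one_left (mabs_nonneg _) h1).trans (Casc.mabs_mul_le (hwB l hl) le_rfl)
    rw [hdiff l hl]
    refine (Casc.mabs_add _ _).trans (add_le_add le_rfl ((Casc.mabs_sub _ _).trans
      ((add_le_add ((Casc.mabs_add _ _).trans (add_le_add ((Casc.mabs_add _ _).trans (add_le_add
        ((Casc.mabs_add _ _).trans (add_le_add (Casc.mabs_mul_le c1 (hqB l hl))
          (Casc.mabs_mul_le c4 le_rfl))) (Casc.mabs_mul_le (hwB l hl) c3))) c2)) c5).trans ?_)))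
    linarith
  refine le_trans (sum_le_sum (g := fun l => dmAt m l * mabs (resid m r L D w q l)
    + (dmAt m l * ((B ^ 3 + 2 * B) * X) + 5 * B * (dmAt m l * mabs (x l)))) fun l hl => ?_) ?_
  · have hl' := Nat.lt_succ_iff.1 (mem_range.1 hl)
    refine (mul_le_mul_of_nonneg_left (hpt l hl') (hm.dm_nonneg hl')).trans_eq ?_
    ring
  · rw [sum_add_distrib, sum_add_distrib, ← Finset.sum_mul, ← Finset.mul_sum, hm.sum_dm le_rfl,
      hm.top, one_mul]
    show lmean m r (resid m r L D w q) + ((B ^ 3 + 2 * B) * X + 5 * B * X) ≤ _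
    linarith

/-- The inverse of a bounded positive matrix is bounded below. -/
theorem inv_sub_psd {T : Matrix (Fin n) (Fin n) ℝ} (hT : T.PosDef) {U : ℝ} (hU : 0 < U)
    (h : (U • (1 : Matrix (Fin n) (Fin n) ℝ) - T).PosSemidef) :
    (T⁻¹ - U⁻¹ • (1 : Matrix (Fin n) (Fin n) ℝ)).PosSemidef := by
  have hUI : (U • (1 : Matrix (Fin n) (Fin n) ℝ)).PosDef := Matrix.PosDef.one.smul hU
  have := inv_antitone hUI hT h (by abel)
  rwa [Matrix.inv_eq_right_inv (show (U • (1 : Matrix (Fin n) (Fin n) ℝ)) * (U⁻¹ • 1) = 1 by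
    rw [Matrix.smul_mul, Matrix.one_mul, smul_smul, mul_inv_cancel₀ hU.ne', one_smul])] at this

/-- A symmetric matrix is below the sum of the sizes of its entries. -/
theorem mabs_sub_psd {A : Matrix (Fin n) (Fin n) ℝ} (hA : A.IsHermitian) {U : ℝ} (h : mabs A ≤ U) :
    (U • (1 : Matrix (Fin n) (Fin n) ℝ) - A).PosSemidef := by
  refine Matrix.PosSemidef.of_dotProduct_mulVec_nonneg
    ((Matrix.isHermitian_one.smul (star_trivial U)).sub hA) fun v => ?_
  simp only [star_trivial, Matrix.sub_mulVec, Matrix.smul_mulVec, Matrix.one_mulVec,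
    dotProduct_sub, dotProduct_smul, smul_eq_mul, sub_nonneg]
  have hv : ∀ i, v i ^ 2 ≤ v ⬝ᵥ v := fun i => by
    simp only [dotProduct, ← pow_two]
    exact single_le_sum (f := fun j => v j ^ 2) (fun j _ => sq_nonneg _) (mem_univ i)
  calc v ⬝ᵥ A *ᵥ v = ∑ i, ∑ j, A i j * (v i * v j) := by
        simp only [dotProduct, Matrix.mulVec, Finset.mul_sum]
        exact sum_congr rfl fun i _ => sum_congr rfl fun j _ => by ring
    _ ≤ ∑ i, ∑ j, |A i j| * (v ⬝ᵥ v) := sum_le_sum fun i _ => sum_le_sum fun j _ => by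
        refine (le_abs_self _).trans ?_
        rw [abs_mul, abs_mul]
        refine mul_le_mul_of_nonneg_left ?_ (abs_nonneg _)
        nlinarith [hv i, hv j, sq_nonneg (|v i| - |v j|), sq_abs (v i), sq_abs (v j)]
    _ = mabs A * (v ⬝ᵥ v) := by simp only [Casc.mabs, Finset.sum_mul]
    _ ≤ U * (v ⬝ᵥ v) := mul_le_mul_of_nonneg_right h
        (Finset.sum_nonneg fun i _ => mul_self_nonneg _)

theorem tail_psd (hm : Levels m r) {q : ℕ → Matrix (Fin n) (Fin n) ℝ} (hq : IsPath r q) {l : ℕ}
    (hl : l ≤ r) : (tail m r q l).PosSemidef :=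
  (Matrix.posSemidef_sum _ fun j hj => ((hq.psd (mem_Ioc.1 hj).2).smul
    (hm.dm_nonneg (mem_Ioc.1 hj).2))).add ((hq.psd hl).smul (hm.le_one (by omega)).1)

/-- The best response depends on the path in a Lipschitz way in mean over the levels; it and its
tilt are bounded, and its precisions are uniformly definite. -/
theorem best_lip (n : ℕ) {c B : ℝ} (hc : 0 < c) (hB : 0 < B) :
    ∃ C : ℝ, 1 ≤ C ∧ ∀ (m : ℕ → ℝ) (r : ℕ), Levels m r →
      ∀ (D : Matrix (Fin n) (Fin n) ℝ) (q : ℕ → Matrix (Fin n) (Fin n) ℝ),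
      D.det ≠ 0 → mabs D⁻¹ ≤ B → mabs D ≤ B → IsPath r q →
      (D - q r - c • (1 : Matrix (Fin n) (Fin n) ℝ)).PosSemidef →
      (∀ l, l ≤ r → mabs (q l) ≤ B) →
      (∀ l, l ≤ r → mabs (bestPath m r D q l) ≤ C) ∧ mabs (bestTilt m r D q) ≤ C ∧
      (∀ l, l ≤ r → (tLam m r (bestTilt m r D q) (bestPath m r D q) l
        - B⁻¹ • (1 : Matrix (Fin n) (Fin n) ℝ)).PosSemidef) ∧
      ∀ q' : ℕ → Matrix (Fin n) (Fin n) ℝ, IsPath r q' →
        (D - q' r - c • (1 : Matrix (Fin n) (Fin n) ℝ)).PosSemidef →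
        (∀ l, l ≤ r → mabs (q' l) ≤ B) →
        lmean m r (fun l => bestPath m r D q l - bestPath m r D q' l)
          ≤ C * lmean m r (fun l => q' l - q l) := by
  set k := (n : ℝ) ^ 2 / c with hk
  set Bp := k * B * (exp (k * B) * (k * (k * B + 1)) * (2 * B ^ 2)) + k * (k * B + 1) * (2 * B ^ 2)
  set Bt := B + Bp + (k + 2 * Bp)
  set G := exp (k * B) * (k * (k * B + 1)) * (2 * (Bt ^ 3 + 7 * Bt))
  have hk0 : 0 ≤ k := by positivity
  have hBp : 0 ≤ Bp := by positivity
  have hG : 0 ≤ G := by positivity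
  refine ⟨1 + Bt + G, by linarith [show 0 ≤ Bt by positivity], fun m r hm D q hDu hDi hDb hq hD hqB => ?_⟩
  obtain ⟨hpd, -⟩ := mabs_inv_le hc hD
  have hwB : ∀ l, l ≤ r → mabs (bestPath m r D q l) ≤ Bp := bestPath_bound hm hDu hc hDi hq hD hqB
  have hT := tT_posDef hm hq hpd
  have hTk : ∀ l, l ≤ r → mabs (tT m r D q l)⁻¹ ≤ k := fun l hl => by
    have := (tT_sub_psd hm D hq hl).add hD
    rw [show tT m r D q l - (D - q r) + (D - q r - c • (1 : Matrix (Fin n) (Fin n) ℝ))
      = tT m r D q l - c • (1 : Matrix (Fin n) (Fin n) ℝ) by abel] at this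
    exact (mabs_inv_le hc this).2
  have hLb : mabs (bestTilt m r D q) ≤ k + 2 * Bp := by
    refine (Casc.mabs_sub _ _).trans (add_le_add (hTk 0 (Nat.zero_le r)) ?_)
    linarith [mabs_tail_le hm (bestPath m r D q) (Nat.zero_le r),
      lmean_le_of_bound hm hwB, hwB 0 (Nat.zero_le r)]
  have hex := bestPath_mul_eq_one hm hq hpd
  have hroot := bestPath_root hm hq hpd
  refine ⟨fun l hl => (hwB l hl).trans (by simp only [Bt]; linarith),
    hLb.trans (by simp only [Bt]; linarith), fun l hl => ?_, fun q' hq' hD' hqB' => ?_⟩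
  · rw [← Matrix.inv_eq_left_inv (hex l hl)]
    refine inv_sub_psd (hT l hl) hB ?_
    have hDh : D.IsHermitian := by
      simpa using hpd.isHermitian.add (hq.psd (l := r) le_rfl).isHermitian
    have := (mabs_sub_psd hDh hDb).add (tail_psd hm hq hl)
    convert this using 1
    simp only [tT]
    abel
  · obtain ⟨hdiag', hres'⟩ := resid_change hm (B := Bt) hDu
      (hDi.trans (by simp only [Bt]; linarith)) (hLb.trans (by simp only [Bt]; linarith))
      (diag_of_exact hm hex hroot) (q' := q')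
      (fun l hl => (hwB l hl).trans (by simp only [Bt]; linarith))
      (fun l hl => (hqB' l hl).trans (by simp only [Bt]; linarith))
    have h0 : lmean m r (resid m r (bestTilt m r D q) D (bestPath m r D q) q) = 0 :=
      sum_eq_zero fun l hl => by
        rw [resid_eq_zero hm hex hroot l (Nat.lt_succ_iff.1 (mem_range.1 hl))]
        simp [Casc.mabs]
    have h := response_close hm hdiag' hq' hc hD' hqB'
    dsimp only at h
    have hX : 0 ≤ lmean m r (fun l => q' l - q l) := lmean_nonneg hm _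
    have hBt : 0 ≤ Bt := by positivity
    refine h.trans ((mul_le_mul_of_nonneg_left (mul_le_mul_of_nonneg_left hres' zero_le_two)
      (by positivity)).trans ?_)
    rw [h0, zero_add]
    refine le_of_eq_of_le (b := G * lmean m r (fun l => q' l - q l)) (by simp only [G]; ring) ?_
    exact mul_le_mul_of_nonneg_right (by linarith) hX

/-- A path set to zero where the weights are below `μ`. -/
noncomputable def cutPath (m : ℕ → ℝ) (μ : ℝ) (q : ℕ → Matrix (Fin n) (Fin n) ℝ) (l : ℕ) :
    Matrix (Fin n) (Fin n) ℝ :=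
  if m l < μ then 0 else q l

theorem Levels.mono_le (hm : Levels m r) {a b : ℕ} (hab : a ≤ b) (hb : b ≤ r + 1) :
    m a ≤ m b := by
  induction b with
  | zero => rw [Nat.le_zero.1 hab]
  | succ k ih =>
    rcases hab.eq_or_lt with h | h
    · rw [h]
    · exact (ih (by omega) (by omega)).trans (hm.mono k (by omega))

theorem cutPath_spec (hm : Levels m r) (μ : ℝ) {q : ℕ → Matrix (Fin n) (Fin n) ℝ}
    (hq : IsPath r q) : IsPath r (cutPath m μ q) ∧
      (∀ l, l ≤ r → m l < μ → cutPath m μ q l = 0) ∧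
      (∀ l, mabs (cutPath m μ q l) ≤ mabs (q l)) ∧
      (∀ l, l ≤ r → (q l - cutPath m μ q l).PosSemidef) := by
  refine ⟨⟨?_, fun l hl => ?_⟩, fun l _ h => if_pos h, fun l => ?_, fun l hl => ?_⟩
  · unfold cutPath
    split_ifs
    · exact Matrix.PosSemidef.zero
    · exact hq.nonneg
  · unfold cutPath
    by_cases h1 : m (l + 1) < μ
    · rw [if_pos h1, if_pos ((hm.mono l hl.le).trans_lt h1), sub_self]
      exact Matrix.PosSemidef.zero
    · rw [if_neg h1]
      split_ifs
      · rw [sub_zero]; exact hq.psd hl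
      · exact hq.step l hl
  · unfold cutPath
    split_ifs
    · simp [Casc.mabs, Finset.sum_nonneg]
    · exact le_rfl
  · unfold cutPath
    split_ifs
    · rw [sub_zero]; exact hq.psd hl
    · rw [sub_self]; exact Matrix.PosSemidef.zero

/-- Stopping a bounded path below `μ` changes it little in mean over the levels. -/
theorem lmean_cutPath (hm : Levels m r) {μ γ B : ℝ} (hμ : 0 ≤ μ)
    (hγ : ∀ l, l ≤ r → dmAt m l ≤ γ) {q : ℕ → Matrix (Fin n) (Fin n) ℝ}
    (hqB : ∀ l, l ≤ r → mabs (q l) ≤ B) :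
    lmean m r (fun l => q l - cutPath m μ q l) ≤ (μ + γ) * B := by
  have hγ0 : 0 ≤ γ := (hm.dm_nonneg (Nat.zero_le r)).trans (hγ 0 (Nat.zero_le r))
  have hB0 : 0 ≤ B := (mabs_nonneg _).trans (hqB 0 (Nat.zero_le r))
  have key : ∀ j, j ≤ r + 1 →
      ∑ l ∈ range j, (if m l < μ then dmAt m l else 0) ≤ min (m j) (μ + γ) := fun j => by
    induction j with
    | zero => intro _; simp only [range_zero, sum_empty, hm.zero]; exact le_min le_rfl (by linarith)
    | succ i ih =>
      intro hi
      rw [sum_range_succ]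
      have h := ih (by omega)
      have hd := hm.dm_nonneg (l := i) (by omega)
      have hg := hγ i (by omega)
      have hmo := hm.mono i (by omega)
      split_ifs with h1
      · refine le_min ?_ ?_
        · simp only [dmAt] at *; linarith [min_le_left (m i) (μ + γ)]
        · linarith [min_le_left (m i) (μ + γ)]
      · exact le_min (by linarith [min_le_left (m i) (μ + γ)])
          (by linarith [min_le_right (m i) (μ + γ)])
  refine le_trans (sum_le_sum (g := fun l => (if m l < μ then dmAt m l else 0) * B) fun l hl => ?_)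
    ?_
  · have hl' := Nat.lt_succ_iff.1 (mem_range.1 hl)
    simp only [cutPath]
    split_ifs
    · rw [sub_zero]; exact mul_le_mul_of_nonneg_left (hqB l hl') (hm.dm_nonneg hl')
    · simp [Casc.mabs]
  · rw [← Finset.sum_mul]
    exact mul_le_mul_of_nonneg_right ((key (r + 1) le_rfl).trans (min_le_right _ _)) hB0

/-- The response to a path vanishing below `μ` vanishes there. -/
theorem bestPath_zero {μ : ℝ} (hm : Levels m r) {D : Matrix (Fin n) (Fin n) ℝ}
    {q : ℕ → Matrix (Fin n) (Fin n) ℝ} (hq0 : ∀ l, l ≤ r → m l < μ → q l = 0) {l : ℕ}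
    (hl : l ≤ r) (h : m l < μ) : bestPath m r D q l = 0 := by
  have hz : ∀ j, j ≤ l → q j = 0 := fun j hj =>
    hq0 j (hj.trans hl) ((hm.mono_le hj (by omega)).trans_lt h)
  simp only [bestPath, hz 0 (Nat.zero_le l), Matrix.mul_zero, Matrix.zero_mul, zero_add]
  refine sum_eq_zero fun j hj => ?_
  have hj' := mem_range.1 hj
  rw [tT_step (m := m) D q (show j < r by omega), hz j hj'.le, hz (j + 1) hj', sub_zero,
    smul_zero, add_zero, sub_self, smul_zero]

theorem tT_smul (s : ℝ) (D : Matrix (Fin n) (Fin n) ℝ) (q : ℕ → Matrix (Fin n) (Fin n) ℝ)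
    (l : ℕ) : tT m r (s • D) (fun j => s • q j) l = s • tT m r D q l := by
  simp only [tT, tail, smul_sub, smul_add, Finset.smul_sum, smul_comm s]

theorem levelSum_add_const (a : ℕ → ℝ) (C : ℝ) :
    levelSum m r (fun l => a l + C) = levelSum m r a - C := by
  simp only [levelSum, add_sub_add_right_eq_sub]
  ring

/-- The entropy after scaling the self-overlap and the path. -/
theorem ent_smul (hm : Levels m r) (τ : ℝ) {D : Matrix (Fin n) (Fin n) ℝ}
    {q : ℕ → Matrix (Fin n) (Fin n) ℝ} (hq : IsPath r q) (hD : (D - q r).PosDef) {s : ℝ}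
    (hs : 0 < s) :
    ent m r τ (s • D) (fun l => s • q l)
      = ent m r τ D q + 1 / 2 * (n * log s - (s - 1) * D.trace / τ) := by
  have hT := tT_posDef hm hq hD
  have hl : levelSum m r (fun l => log (tT m r (s • D) (fun j => s • q j) l).det)
      = levelSum m r (fun l => log (tT m r D q l).det) - n * log s := by
    rw [← levelSum_add_const]
    have e : ∀ l, l ≤ r → log (tT m r (s • D) (fun j => s • q j) l).det
        = log (tT m r D q l).det + n * log s := fun l hl => by
      rw [tT_smul, Matrix.det_smul, Fintype.card_fin,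
        log_mul (pow_ne_zero _ hs.ne') (hT l hl).det_pos.ne', log_pow, add_comm]
    simp only [levelSum, e r le_rfl]
    congr 1
    exact sum_congr rfl fun l hl => by
      have := mem_range.1 hl
      rw [e l (by omega), e (l + 1) (by omega)]
  have htr : ((s • q 0) * (s • tT m r D q 0)⁻¹).trace = (q 0 * (tT m r D q 0)⁻¹).trace := by
    rw [Matrix.inv_eq_right_inv (show (s • tT m r D q 0) * (s⁻¹ • (tT m r D q 0)⁻¹) = 1 by
        rw [Matrix.smul_mul, Matrix.mul_smul, smul_smul, mul_inv_cancel₀ hs.ne', one_smul,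
          Matrix.mul_nonsing_inv _ (isUnit_iff_ne_zero.2 (hT 0 (Nat.zero_le r)).det_pos.ne')]),
      Matrix.smul_mul, Matrix.mul_smul, smul_smul, mul_inv_cancel₀ hs.ne', one_smul]
  simp only [ent, tT_smul (m := m) (r := r) s D q 0, htr, hl, Matrix.trace_smul, smul_eq_mul]
  ring

theorem log_det_le_of_psd {A A' : Matrix (Fin n) (Fin n) ℝ} (hA : A.PosDef) (hA' : A'.PosDef)
    (h : (A' - A).PosSemidef) : log A.det ≤ log A'.det := by
  refine (P150.Fast.logdet_tangent hA hA').trans (add_le_iff_nonpos_right _ |>.2 ?_)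
  have := trace_mul_nonneg hA'.inv.posSemidef h
  rw [← neg_sub A' A, Matrix.mul_neg, Matrix.trace_neg]
  linarith

/-- The entropy of a path vanishing below `μ` and uniformly below the self-overlap is bounded. -/
theorem abs_ent_le (n : ℕ) {μ c B τ : ℝ} (hμ : 0 < μ) (hc : 0 < c) (hτ : 0 < τ) :
    ∃ C, ∀ (m : ℕ → ℝ) (r : ℕ), Levels m r →
      ∀ (D : Matrix (Fin n) (Fin n) ℝ) (q : ℕ → Matrix (Fin n) (Fin n) ℝ), mabs D ≤ B →
      IsPath r q → (D - q r - c • (1 : Matrix (Fin n) (Fin n) ℝ)).PosSemidef →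
      (∀ l, l ≤ r → m l < μ → q l = 0) → |ent m r τ D q| ≤ C := by
  set U := |B| + c
  set A := (n : ℝ) * (|log c| + |log U|)
  refine ⟨1 / 2 * ((μ⁻¹ * (2 * A) + A) + |B| / τ + n * |1 - log τ|),
    fun m r hm D q hDb hq hD hq0 => ?_⟩
  have hU : 0 < U := by positivity
  obtain ⟨hpd, -⟩ := mabs_inv_le hc hD
  have hT := tT_posDef hm hq hpd
  have hDh : D.IsHermitian := by
    simpa using hpd.isHermitian.add (hq.psd (l := r) le_rfl).isHermitian
  set a := fun l => log (tT m r D q l).det
  have hone : ∀ u : ℝ, 0 < u → log (u • (1 : Matrix (Fin n) (Fin n) ℝ)).det = n * log u := fun u _ => by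
    rw [Matrix.det_smul, Matrix.det_one, mul_one, Fintype.card_fin, log_pow]
  have hA : ∀ l, l ≤ r → |a l| ≤ A := fun l hl => by
    have h1 : (tT m r D q l - c • (1 : Matrix (Fin n) (Fin n) ℝ)).PosSemidef := by
      convert (tT_sub_psd hm D hq hl).add hD using 1; abel
    have h2 : (U • (1 : Matrix (Fin n) (Fin n) ℝ) - tT m r D q l).PosSemidef := by
      convert (mabs_sub_psd hDh (hDb.trans ((le_abs_self B).trans
        (le_add_of_nonneg_right hc.le) : B ≤ U))).add (tail_psd hm hq hl) using 1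
      simp only [tT]; abel
    have l1 := log_det_le_of_psd (Matrix.PosDef.one.smul hc) (hT l hl) h1
    have l2 := log_det_le_of_psd (hT l hl) (Matrix.PosDef.one.smul hU) h2
    rw [hone c hc] at l1
    rw [hone U hU] at l2
    have hn0 : (0 : ℝ) ≤ n := Nat.cast_nonneg n
    rw [abs_le]
    constructor <;> simp only [a, A] <;>
      nlinarith [mul_le_mul_of_nonneg_left (neg_abs_le (log c)) hn0,
        mul_le_mul_of_nonneg_left (le_abs_self (log U)) hn0,
        mul_nonneg hn0 (abs_nonneg (log c)), mul_nonneg hn0 (abs_nonneg (log U))]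
  have hstep : ∀ l, l < r → |(m (l + 1))⁻¹ * (a (l + 1) - a l)| ≤ μ⁻¹ * (a l - a (l + 1)) := by
    intro l hl
    have hmp := hm.pos (l + 1) (by omega) (by omega)
    have hd : a (l + 1) ≤ a l := log_det_le_of_psd (hT _ hl) (hT l hl.le) (by
      rw [tT_step (m := m) D q hl, add_sub_cancel_left]
      exact (hq.step l hl).smul hmp.le)
    by_cases h : m (l + 1) < μ
    · have e : a (l + 1) = a l := by
        simp only [a, tT_step (m := m) D q hl, hq0 (l + 1) hl h,
          hq0 l hl.le ((hm.mono l hl.le).trans_lt h), sub_zero, smul_zero, add_zero]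
      simp [e]
    · rw [abs_mul, abs_of_pos (inv_pos.2 hmp), abs_of_nonpos (sub_nonpos.2 hd), neg_sub]
      exact mul_le_mul_of_nonneg_right (inv_anti₀ hμ (not_lt.1 h)) (sub_nonneg.2 hd)
  have hls : |levelSum m r a| ≤ μ⁻¹ * (2 * A) + A := by
    refine (abs_sub _ _).trans (add_le_add ((Finset.abs_sum_le_sum_abs _ _).trans
      ((sum_le_sum fun l hl => hstep l (mem_range.1 hl)).trans ?_)) (hA r le_rfl))
    rw [← Finset.mul_sum, Finset.sum_range_sub' a r]
    refine mul_le_mul_of_nonneg_left ?_ (inv_pos.2 hμ).le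
    linarith [(abs_le.1 (hA 0 (Nat.zero_le r))).2, (abs_le.1 (hA r le_rfl)).1]
  have htrD : |D.trace / τ| ≤ |B| / τ := by
    rw [abs_div, abs_of_pos hτ]
    exact div_le_div_of_nonneg_right ((abs_trace_le D).trans (hDb.trans (le_abs_self B))) hτ.le
  have hn : |(n : ℝ) * (1 - log τ)| = n * |1 - log τ| := by
    rw [abs_mul, abs_of_nonneg (Nat.cast_nonneg n)]
  simp only [ent, hq0 0 (Nat.zero_le r) (by rw [hm.zero]; exact hμ), Matrix.zero_mul,
    Matrix.trace_zero, add_zero]
  rw [abs_mul, abs_of_pos (by norm_num : (0 : ℝ) < 1 / 2)]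
  refine mul_le_mul_of_nonneg_left ?_ (by norm_num)
  refine (abs_add_le _ _).trans (add_le_add ((abs_sub _ _).trans (add_le_add ?_ htrD)) hn.le)
  rw [abs_neg]
  exact hls

end Vale.Agent.P166.Formula
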