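import Vale.Agent.P166.Formula.GaussPsi
import Vale.Agent.P166.Formula.PathLip

/-!
A finite net of exact paths near every approximately stationary pair (P166, formula side).
-/

open Matrix Finset Real
open scoped MatrixOrder

namespace Vale.Agent.P166.Formula

open Vale.Agent.P166
open Vale.Agent.P166.Casc (mabs mabs_nonneg)

variable {n : ℕ} {m : ℕ → ℝ} {r : ℕ}

theorem mabs_le_of_entry {A : Matrix (Fin n) (Fin n) ℝ} {ρ : ℝ} (h : ∀ i j, |A i j| ≤ ρ) :
    mabs A ≤ (n : ℝ) ^ 2 * ρ := by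
  refine (Finset.sum_le_sum fun i _ => Finset.sum_le_sum fun j _ => h i j).trans_eq ?_
  simp
  ring

theorem abs_entry_le_mabs (A : Matrix (Fin n) (Fin n) ℝ) (i j : Fin n) : |A i j| ≤ mabs A :=
  (single_le_sum (f := fun l => |A i l|) (fun _ _ => abs_nonneg _) (mem_univ j)).trans
    (single_le_sum (f := fun k => ∑ l, |A k l|) (fun _ _ => sum_nonneg fun _ _ => abs_nonneg _)
      (mem_univ i))

theorem mabs_zero : mabs (0 : Matrix (Fin n) (Fin n) ℝ) = 0 := by simp [Casc.mabs]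

theorem mabs_one_le : mabs (1 : Matrix (Fin n) (Fin n) ℝ) ≤ (n : ℝ) ^ 2 := by
  refine (mabs_le_of_entry (ρ := 1) fun i j => ?_).trans_eq (mul_one _)
  rw [Matrix.one_apply]
  split_ifs <;> simp

/-- The step of the uniform grid. -/
theorem gridM_dm (K l : ℕ) : dmAt (gridM K) l = 1 / ((K : ℝ) + 1) := by
  simp only [dmAt, gridM]
  push_cast
  ring

/-- Margins below the self-overlap are monotone in the margin and in the path. -/
theorem margin_mono {D A A' : Matrix (Fin n) (Fin n) ℝ} {c c' : ℝ}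
    (h : (D - A - c • (1 : Matrix (Fin n) (Fin n) ℝ)).PosSemidef) (hA : (A - A').PosSemidef)
    (hc : c' ≤ c) : (D - A' - c' • (1 : Matrix (Fin n) (Fin n) ℝ)).PosSemidef := by
  have := (h.add hA).add (Matrix.PosSemidef.one.smul (sub_nonneg.2 hc))
  convert this using 1
  module

theorem smul_one_mono {A : Matrix (Fin n) (Fin n) ℝ} {c c' : ℝ}
    (h : (A - c • (1 : Matrix (Fin n) (Fin n) ℝ)).PosSemidef) (hc : c' ≤ c) :
    (A - c' • (1 : Matrix (Fin n) (Fin n) ℝ)).PosSemidef := by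
  have := h.add (Matrix.PosSemidef.one.smul (sub_nonneg.2 hc))
  convert this using 1
  module

/-- A finite net of exact paths, with uniform margins, near all approximately stationary pairs. -/
theorem exists_response_net (n : ℕ) {κ B : ℝ} (hκ : 0 < κ) (hB : 1 ≤ B) :
    ∃ c Bp : ℝ, 0 < c ∧ ∀ η > 0, ∃ μ ∈ Set.Ioc (0 : ℝ) 1, ∃ δ0 > 0, ∃ K0 : ℕ, ∀ K ≥ K0,
      ∀ D : Matrix (Fin n) (Fin n) ℝ, D.transpose = D →
      (D - κ • (1 : Matrix (Fin n) (Fin n) ℝ)).PosSemidef → mabs D ≤ B →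
      ∃ Q : Finset (ℕ → Matrix (Fin n) (Fin n) ℝ), Q.Nonempty ∧
       (∀ q ∈ Q, IsPath K q ∧ (D - q K - c • (1 : Matrix (Fin n) (Fin n) ℝ)).PosSemidef ∧
          (∀ l, l ≤ K → mabs (q l) ≤ Bp) ∧
          (∀ l, l ≤ K → gridM K l < μ → q l = 0) ∧
          IsPath K (bestPath (gridM K) K D q) ∧
          (∀ l, l ≤ K → mabs (bestPath (gridM K) K D q l) ≤ Bp) ∧
          mabs (bestTilt (gridM K) K D q) ≤ Bp ∧
          (∀ l, l ≤ K → (tLam (gridM K) K (bestTilt (gridM K) K D q) (bestPath (gridM K) K D q) l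
            - c • (1 : Matrix (Fin n) (Fin n) ℝ)).PosSemidef) ∧
          (∀ l, l ≤ K → gridM K l < μ → bestPath (gridM K) K D q l = 0)) ∧
       ∀ L w q, L * D + cum (gridM K) w q (K + 1) = 1 →
          lmean (gridM K) K (resid (gridM K) K L D w q) ≤ δ0 →
          (∀ l, l ≤ K → mabs (w l) ≤ B) → IsPath K q → (∀ l, l ≤ K → mabs (q l) ≤ B) →
          (D - q K + δ0 • (1 : Matrix (Fin n) (Fin n) ℝ)).PosSemidef →
          ∃ q' ∈ Q, lmean (gridM K) K (fun l => q' l - q l) ≤ η ∧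
            lmean (gridM K) K (fun l => w l - bestPath (gridM K) K D q' l) ≤ η := by
  classical
  set k := (n : ℝ) ^ 2 / κ with hk
  set B' := max B (max k (((n : ℝ) ^ 2 + B * B) * k)) with hB'def
  have hBB' : B ≤ B' := le_max_left _ _
  have hkB' : k ≤ B' := (le_max_left _ _).trans (le_max_right _ _)
  have hLB' : ((n : ℝ) ^ 2 + B * B) * k ≤ B' := (le_max_right _ _).trans (le_max_right _ _)
  have hB'1 : 1 ≤ B' := hB.trans hBB'
  have hB'0 : 0 < B' := zero_lt_one.trans_le hB'1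
  set c := min κ (1 / (6 * B')) with hcdef
  have hc : 0 < c := lt_min hκ (by positivity)
  have hcκ : c ≤ κ := min_le_left _ _
  have hc6 : c ≤ 1 / (6 * B') := min_le_right _ _
  have hcB : c ≤ B'⁻¹ := hc6.trans (by
    rw [one_div]
    exact inv_anti₀ hB'0 (by linarith))
  obtain ⟨C, hC1, hC⟩ := best_lip n hc hB'0
  refine ⟨c, max B' C, hc, fun η hη => ?_⟩
  set E := exactC n B' with hE
  have hE0 : 0 ≤ E := by simp only [hE, exactC]; positivity
  set T := 1 + B' + E + C * B' + (n : ℝ) ^ 2 + C * (n : ℝ) ^ 2 with hT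
  have hC0 : 0 ≤ C := zero_le_one.trans hC1
  have hT0 : 0 < T := by positivity
  set e := min 1 (η / (6 * T)) with hedef
  have he0 : 0 < e := lt_min one_pos (by positivity)
  have he1 : e ≤ 1 := min_le_left _ _
  have heT : 6 * (T * e) ≤ η := by
    have := min_le_right (1 : ℝ) (η / (6 * T))
    rw [← hedef, le_div_iff₀ (by positivity)] at this
    linarith
  set δ0 := min (e / 6) (1 / (12 * B')) with hδ0def
  have hδ0 : 0 < δ0 := lt_min (by positivity) (by positivity)
  have hδe : δ0 ≤ e / 6 := min_le_left _ _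
  have hδ6 : δ0 < 1 / (6 * B') := (min_le_right _ _).trans_lt
    (one_div_lt_one_div_of_lt (by positivity) (by linarith))
  refine ⟨e, ⟨he0, he1⟩, δ0, hδ0, ⌈2 / e⌉₊, fun K hK D _ hDκ hDB => ?_⟩
  set m := gridM K with hmdef
  have hm : Levels m K := gridM_levels K
  set γ := 1 / ((K : ℝ) + 1) with hγdef
  have hγ : ∀ l, l ≤ K → dmAt m l ≤ γ := fun l _ => (gridM_dm K l).le
  have hγe : γ ≤ e / 2 := by
    have h2 : 2 / e ≤ K := (Nat.le_ceil _).trans (by exact_mod_cast hK)
    rw [hγdef, div_le_iff₀ (by positivity)]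
    rw [div_le_iff₀ he0] at h2
    nlinarith
  obtain ⟨hDpd, hDi⟩ := mabs_inv_le hκ hDκ
  have hDu : D.det ≠ 0 := hDpd.det_pos.ne'
  have hDi' : mabs D⁻¹ ≤ B' := hDi.trans hkB'
  have hDb : mabs D ≤ B' := hDB.trans hBB'
  -- bounded paths with the margin, vanishing below the cut
  set ext : (Fin (K + 1) → Fin n → Fin n → ℝ) → ℕ → Matrix (Fin n) (Fin n) ℝ :=
    fun v l => Matrix.of (v ⟨min l K, by omega⟩) with hext
  set S : Set (Fin (K + 1) → Fin n → Fin n → ℝ) := {v | IsPath K (ext v) ∧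
    (D - ext v K - c • (1 : Matrix (Fin n) (Fin n) ℝ)).PosSemidef ∧
    (∀ l, l ≤ K → mabs (ext v l) ≤ B') ∧ ∀ l, l ≤ K → m l < e → ext v l = 0} with hS
  have hev : ∀ (v : Fin (K + 1) → Fin n → Fin n → ℝ) (l : Fin (K + 1)),
      ext v l = Matrix.of (v l) := fun v l => by
    have h : (⟨min (l : ℕ) K, by omega⟩ : Fin (K + 1)) = l :=
      Fin.ext (min_eq_left (Nat.lt_succ_iff.1 l.isLt))
    simp only [hext, h]
  have hSb : S ⊆ Metric.closedBall 0 B' := fun v hv => by
    rw [mem_closedBall_zero_iff, pi_norm_le_iff_of_nonneg hB'0.le]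
    refine fun l => (pi_norm_le_iff_of_nonneg hB'0.le).2 fun i =>
      (pi_norm_le_iff_of_nonneg hB'0.le).2 fun j => ?_
    have h := (abs_entry_le_mabs _ i j).trans (hv.2.2.1 l (Nat.lt_succ_iff.1 l.isLt))
    rw [hev] at h
    exact h
  obtain ⟨t, htS, htf, hcov⟩ := Metric.finite_approx_of_totallyBounded
    ((isCompact_closedBall _ _).totallyBounded.subset hSb) e he0
  have hzero : ext 0 = fun _ => (0 : Matrix (Fin n) (Fin n) ℝ) := rfl
  have h0S : (0 : Fin (K + 1) → Fin n → Fin n → ℝ) ∈ S := by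
    refine ⟨?_, ?_, fun l _ => ?_, fun l _ _ => ?_⟩ <;> simp only [hzero]
    · exact ⟨Matrix.PosSemidef.zero, fun l _ => by rw [sub_self]; exact Matrix.PosSemidef.zero⟩
    · rw [sub_zero]; exact smul_one_mono hDκ hcκ
    · rw [mabs_zero]; exact hB'0.le
  refine ⟨(insert 0 htf.toFinset).image ext, (Finset.insert_nonempty _ _).image _, fun q hq => ?_,
    fun L w q hdiag hres hwB hqp hqB hup => ?_⟩
  · obtain ⟨v, hv, rfl⟩ := Finset.mem_image.1 hq
    have hvS : v ∈ S := by
      rcases Finset.mem_insert.1 hv with rfl | h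
      · exact h0S
      · exact htS (htf.mem_toFinset.1 h)
    obtain ⟨hp, hmar, hb, hz⟩ := hvS
    obtain ⟨hP, hTl, hLam, -⟩ := hC m K hm D (ext v) hDu hDi' hDb hp hmar hb
    exact ⟨hp, hmar, fun l hl => (hb l hl).trans (le_max_left _ _), hz,
      bestPath_isPath hm hp (mabs_inv_le hc hmar).1,
      fun l hl => (hP l hl).trans (le_max_right _ _), hTl.trans (le_max_right _ _),
      fun l hl => smul_one_mono (hLam l hl) hcB, fun l hl h => bestPath_zero hm hz hl h⟩
  · have hB0 : 0 ≤ B := zero_le_one.trans hB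
    have hL : L = (1 - cum m w q (K + 1)) * D⁻¹ := by
      rw [← hdiag, add_sub_cancel_right,
        Matrix.mul_nonsing_inv_cancel_right _ _ (isUnit_iff_ne_zero.2 hDu)]
    have hLb : mabs L ≤ B' := by
      rw [hL]
      refine le_trans (Casc.mabs_mul_le ((Casc.mabs_sub _ _).trans (add_le_add mabs_one_le ?_)) hDi)
        hLB'
      exact (mabs_cum_le hm hqB le_rfl).1.trans
        (mul_le_mul_of_nonneg_right (lmean_le_of_bound hm hwB) hB0)
    have hsmall : δ0 + δ0 / (e - γ) ≤ 1 / 2 := by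
      have h1 : δ0 / (e - γ) ≤ (e / 6) / (e / 2) :=
        div_le_div₀ (by positivity) hδe (by positivity) (by linarith)
      have h2 : (e / 6) / (e / 2) = 1 / 3 := by field_simp; norm_num
      linarith
    obtain ⟨q1, hq1p, hq1B, hq1m, hd1, hr1⟩ := exists_exact hm hγ he1 (by linarith) hB'1 hDu hDi'
      hLb hdiag hres hsmall (fun l hl => (hwB l hl).trans hBB') hqp
      (fun l hl => (hqB l hl).trans hBB') hup hδ6
    obtain ⟨hq2p, hq2z, hq2b, hq2d⟩ := cutPath_spec hm e hq1p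
    set q2 := cutPath m e q1
    have hq1m' := smul_one_mono hq1m hc6
    have hq2m : (D - q2 K - c • (1 : Matrix (Fin n) (Fin n) ℝ)).PosSemidef :=
      margin_mono hq1m' (hq2d K le_rfl) le_rfl
    have hq2B : ∀ l, l ≤ K → mabs (q2 l) ≤ B' := fun l hl => (hq2b l).trans (hq1B l hl)
    set v2 : Fin (K + 1) → Fin n → Fin n → ℝ := fun l i j => q2 l i j
    have hv2 : ∀ l, l ≤ K → ext v2 l = q2 l := fun l hl => by
      ext i j
      simp [hext, v2, min_eq_left hl]
    have hv2S : v2 ∈ S := by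
      refine ⟨⟨?_, fun l hl => ?_⟩, ?_, fun l hl => ?_, fun l hl h => ?_⟩
      · rw [hv2 0 (Nat.zero_le K)]; exact hq2p.nonneg
      · rw [hv2 (l + 1) hl, hv2 l hl.le]; exact hq2p.step l hl
      · rw [hv2 K le_rfl]; exact hq2m
      · rw [hv2 l hl]; exact hq2B l hl
      · rw [hv2 l hl]; exact hq2z l hl h
    obtain ⟨y, hyt, hy⟩ := Set.mem_iUnion₂.1 (hcov hv2S)
    obtain ⟨hyp, hym, hyb, -⟩ := htS hyt
    set x3 : ℝ := lmean m K (fun l => ext y l - q2 l)
    have d3 : x3 ≤ (n : ℝ) ^ 2 * e := by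
      refine lmean_le_of_bound hm fun l hl => mabs_le_of_entry fun i j => ?_
      have h := Metric.mem_ball.1 hy
      rw [dist_eq_norm] at h
      have h1 := (norm_le_pi_norm (v2 - y) ⟨l, Nat.lt_succ_iff.2 hl⟩).trans h.le
      have h2 := (norm_le_pi_norm _ i).trans h1
      have h3 := (norm_le_pi_norm _ j).trans h2
      rw [Matrix.sub_apply, abs_sub_comm]
      simpa [hext, min_eq_left hl, v2, Real.norm_eq_abs] using h3
    have d2 : lmean m K (fun l => q1 l - q2 l) ≤ (e + γ) * B' := lmean_cutPath hm he0.le hγ hq1B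
    have hflip : ∀ a b : ℕ → Matrix (Fin n) (Fin n) ℝ,
        lmean m K (fun l => a l - b l) = lmean m K (fun l => b l - a l) := fun a b =>
      Finset.sum_congr rfl fun l _ => by
        show _ * mabs (a l - b l) = _ * mabs (b l - a l)
        rw [← neg_sub (b l) (a l), Casc.mabs_neg]
    have htri : ∀ a b d : ℕ → Matrix (Fin n) (Fin n) ℝ, lmean m K (fun l => a l - d l)
        ≤ lmean m K (fun l => a l - b l) + lmean m K (fun l => b l - d l) := fun a b d =>
      lmean_add_le hm fun l _ => by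
        rw [← sub_add_sub_cancel (a l) (b l) (d l)]
        exact Casc.mabs_add _ _
    have p12 := (hC m K hm D q1 hDu hDi' hDb hq1p hq1m' hq1B).2.2.2 q2 hq2p hq2m hq2B
    have p23 := (hC m K hm D q2 hDu hDi' hDb hq2p hq2m hq2B).2.2.2 (ext y) hyp hym hyb
    rw [hflip q2 q1] at p12
    have hnn : (0 : ℝ) ≤ (n : ℝ) ^ 2 * e := by positivity
    have hTe : T * e = e + B' * e + E * e + C * B' * e + (n : ℝ) ^ 2 * e + C * (n : ℝ) ^ 2 * e := by
      simp only [hT]; ring
    have z1 : 0 ≤ B' * e := mul_nonneg hB'0.le he0.le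
    have z2 : 0 ≤ E * e := mul_nonneg hE0 he0.le
    have z3 : 0 ≤ C * B' * e := mul_nonneg (mul_nonneg hC0 hB'0.le) he0.le
    have z4 : 0 ≤ C * (n : ℝ) ^ 2 * e := by positivity
    have hd2 : (e + γ) * B' ≤ 2 * (B' * e) :=
      (mul_le_mul_of_nonneg_right (by linarith : e + γ ≤ 2 * e) hB'0.le).trans_eq (by ring)
    refine ⟨ext y, Finset.mem_image.2 ⟨y, Finset.mem_insert_of_mem (htf.mem_toFinset.2 hyt), rfl⟩,
      ?_, ?_⟩
    · refine (htri (ext y) q2 q).trans ?_
      have h12 := htri q2 q1 q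
      rw [hflip q2 q1] at h12
      linarith
    · refine (htri w (bestPath m K D q1) (bestPath m K D (ext y))).trans ?_
      have h13 := htri (bestPath m K D q1) (bestPath m K D q2) (bestPath m K D (ext y))
      have g2 : C * lmean m K (fun l => q1 l - q2 l) ≤ 2 * (C * B' * e) :=
        (mul_le_mul_of_nonneg_left (d2.trans hd2) hC0).trans_eq (by ring)
      have g3 : C * x3 ≤ C * (n : ℝ) ^ 2 * e :=
        (mul_le_mul_of_nonneg_left d3 hC0).trans_eq (by ring)
      have g1 : E * (δ0 + e) ≤ 2 * (E * e) :=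
        (mul_le_mul_of_nonneg_left (by linarith : δ0 + e ≤ 2 * e) hE0).trans_eq (by ring)
      linarith

end Vale.Agent.P166.Formula
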