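import Vale.Agent.P166.Formula.Value

/-!
Repeating the levels of an overlap path changes neither the value of a row nor the entropy
(P166, formula side).
-/

open MeasureTheory Finset Real
open Matrix hiding comp

namespace Vale.Agent.P166.Formula

open Vale.Agent.P166.Pen
open Vale.Agent.P157.Casc (casc gaus mlev grid_mlev)
open Vale.Agent.P150.Fast.Dom (arrMap arrMap_apply)

variable {n d k K K₀ : ℕ}

/-- A path with every level repeated `k` times. -/
def rep {α : Type*} (k : ℕ) (q : ℕ → α) : ℕ → α := fun l => q (l / k)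

theorem rep_zero {α : Type*} (k : ℕ) (q : ℕ → α) : rep k q 0 = q 0 := by simp [rep]

/-- Where the next level is a new one. -/
theorem rep_jump (_hk : 0 < k) (hK : K + 1 = k * (K₀ + 1)) {l : ℕ} (hl : l < K) :
    (l + 1) / k = l / k ∨
      ((l + 1) / k = l / k + 1 ∧ l / k < K₀ ∧ l + 1 = k * (l / k + 1)) := by
  by_cases h : k ∣ l + 1
  · refine Or.inr ?_
    have h1 : (l + 1) / k = l / k + 1 := by rw [Nat.succ_div, if_pos h]
    refine ⟨h1, ?_, ?_⟩
    · have h2 : k * ((l + 1) / k) = l + 1 := Nat.mul_div_cancel' h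
      rw [h1] at h2
      have : k * (l / k + 1) < k * (K₀ + 1) := by omega
      have := Nat.lt_of_mul_lt_mul_left this
      omega
    · rw [← h1, Nat.mul_div_cancel' h]
  · exact Or.inl (by rw [Nat.succ_div, if_neg h, add_zero])

theorem rep_top {α : Type*} (hk : 0 < k) (hK : K + 1 = k * (K₀ + 1)) (q : ℕ → α) :
    rep k q K = q K₀ := by
  refine congrArg q (Nat.div_eq_of_lt_le ?_ ?_)
  · rw [Nat.mul_add, mul_one] at hK
    rw [mul_comm]
    omega
  · show K < (K₀ + 1) * k
    rw [mul_comm]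
    omega

theorem gridM_rep (hk : 0 < k) (hK : K + 1 = k * (K₀ + 1)) (j : ℕ) :
    gridM K (k * j) = gridM K₀ j := by
  unfold gridM
  rw [show (K : ℝ) + 1 = (k : ℝ) * ((K₀ : ℝ) + 1) from by exact_mod_cast hK]
  push_cast
  exact mul_div_mul_left _ _ (by exact_mod_cast hk.ne')

/-- Repeated levels keep a path increasing. -/
theorem isPath_rep (hk : 0 < k) (hK : K + 1 = k * (K₀ + 1))
    {q : ℕ → Matrix (Fin n) (Fin n) ℝ} (hq : IsPath K₀ q) : IsPath K (rep k q) := by
  refine ⟨by rw [rep_zero]; exact hq.nonneg, fun l hl => ?_⟩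
  simp only [rep]
  rcases rep_jump hk hK hl with h | ⟨h, hj, -⟩
  · rw [h, sub_self]
    exact Matrix.PosSemidef.zero
  · rw [h]
    exact hq.step _ hj

theorem tT_rep (hk : 0 < k) (hK : K + 1 = k * (K₀ + 1)) (D : Matrix (Fin n) (Fin n) ℝ)
    (q : ℕ → Matrix (Fin n) (Fin n) ℝ) :
    ∀ (i l : ℕ), l + i = K →
      tT (gridM K) K D (rep k q) l = tT (gridM K₀) K₀ D q (l / k)
  | 0, l, hl => by
    obtain rfl : l = K := by omega
    have e := rep_top hk hK q
    have e' : l / k = K₀ := rep_top hk hK id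
    simp only [tT, tail_top (gridM_levels _), e, e']
  | i + 1, l, hl => by
    have ih := tT_rep hk hK D q i (l + 1) (by omega)
    have hl' : l < K := by omega
    unfold tT at ih ⊢
    have ih' := sub_right_inj.1 ih
    rw [tail_step _ hl', ih']
    simp only [rep]
    rcases rep_jump hk hK hl' with h | ⟨h, hj, he⟩
    · rw [h, sub_self, smul_zero, sub_zero]
    · rw [tail_step _ hj, h, ← gridM_rep hk hK (l / k + 1), ← he]

/-- The sums over levels see only the new levels. -/
theorem sum_rep (hk : 0 < k) (hK : K + 1 = k * (K₀ + 1)) (a : ℕ → ℝ) :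
    ∑ l ∈ range K, (gridM K (l + 1))⁻¹ * (rep k a (l + 1) - rep k a l) =
      ∑ j ∈ range K₀, (gridM K₀ (j + 1))⁻¹ * (a (j + 1) - a j) := by
  symm
  refine Finset.sum_bij_ne_zero (fun j _ _ => k * (j + 1) - 1) ?_ ?_ ?_ ?_
  · intro j hj _
    rw [Finset.mem_range] at hj ⊢
    have : k * (j + 2) ≤ k * (K₀ + 1) := Nat.mul_le_mul_left k (by omega)
    rw [Nat.mul_add] at this
    have : k * (j + 1) = k * j + k := Nat.mul_succ k j
    omega
  · intro j _ _ j' _ _ h
    have h1 : 0 < k * (j + 1) := by positivity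
    have h2 : 0 < k * (j' + 1) := by positivity
    have : k * (j + 1) = k * (j' + 1) := by omega
    exact Nat.succ_injective (Nat.eq_of_mul_eq_mul_left hk this)
  · intro l hl hne
    rw [Finset.mem_range] at hl
    rcases rep_jump hk hK hl with h | ⟨h, hj, he⟩
    · exact absurd (by simp [rep, h]) hne
    · refine ⟨l / k, Finset.mem_range.2 hj, ?_, by omega⟩
      rwa [← gridM_rep hk hK, ← he, ← h]
  · intro j hj _
    have hp : 0 < k * (j + 1) := by positivity
    rw [Finset.mem_range] at hj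
    have e : k * (j + 1) - 1 + 1 = k * (j + 1) := by omega
    rw [e, gridM_rep hk hK]
    simp only [rep]
    have e1 : (j + 1) * k = k * (j + 1) := Nat.mul_comm _ _
    have e2 : j * k = k * j := Nat.mul_comm _ _
    have e3 : k * (j + 1) = k * j + k := Nat.mul_succ k j
    rw [Nat.mul_div_cancel_left _ hk, Nat.div_eq_of_lt_le (k := j) (by omega) (by omega)]

/-- Repeating levels keeps the entropy. -/
theorem ent_rep (hk : 0 < k) (hK : K + 1 = k * (K₀ + 1)) (τ : ℝ)
    (D : Matrix (Fin n) (Fin n) ℝ) (q : ℕ → Matrix (Fin n) (Fin n) ℝ) :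
    ent (gridM K) K τ D (rep k q) = ent (gridM K₀) K₀ τ D q := by
  have hT : ∀ l, l ≤ K → tT (gridM K) K D (rep k q) l = tT (gridM K₀) K₀ D q (l / k) :=
    fun l hl => tT_rep hk hK D q (K - l) l (by omega)
  have hs : levelSum (gridM K) K (fun l => log (tT (gridM K) K D (rep k q) l).det) =
      levelSum (gridM K₀) K₀ (fun l => log (tT (gridM K₀) K₀ D q l).det) := by
    unfold levelSum
    rw [← sum_rep hk hK (fun l => log (tT (gridM K₀) K₀ D q l).det)]
    refine congrArg₂ _ (Finset.sum_congr rfl fun l hl => ?_) ?_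
    · rw [Finset.mem_range] at hl
      simp only [rep, hT l hl.le, hT (l + 1) (by omega)]
    · dsimp only
      rw [hT K le_rfl, show K / k = K₀ from rep_top hk hK id]
  rw [ent, ent, hs, hT 0 (Nat.zero_le _), rep_zero, Nat.zero_div]

theorem arrMap_zero (x : Fin d → ℝ) : arrMap (0 : Fin d → Fin d → ℝ) x = 0 := by
  funext a
  simp [arrMap_apply]

/-- The cascade of a row from level `a` on. -/
noncomputable def from' (g : (Fin d → ℝ) → ℝ) (K : ℕ) (S : ℕ → Fin d → Fin d → ℝ) (i a : ℕ)
    (h : Fin d → ℝ) : ℝ :=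
  casc (gaus (Fin d)) i (fun p : Fin i => gridM K (a + p.val + 1))
    fun y => g (rowFld (fun p : Fin i => S (a + p.val)) h y)

theorem from'_succ (g : (Fin d → ℝ) → ℝ) (K : ℕ) (S : ℕ → Fin d → Fin d → ℝ) (i a : ℕ)
    (h : Fin d → ℝ) : from' g K S (i + 1) a h =
      (gridM K (a + 1))⁻¹ * Real.log (∫ x, Real.exp (gridM K (a + 1) *
        from' g K S i (a + 1) (h + arrMap (S a) x)) ∂gaus (Fin d)) := by
  unfold from'
  rw [casc_fld_succ]
  have e : ∀ p : Fin i, a + (p.succ : Fin (i + 1)).val = a + 1 + p.val := fun p => by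
    rw [Fin.val_succ]; omega
  simp only [Fin.val_zero, add_zero, e]

/-- The factors of a path. -/
noncomputable def facs (q : ℕ → Matrix (Fin d) (Fin d) ℝ) (l : ℕ) : Fin d → Fin d → ℝ :=
  facOf (q (l + 1) - q l)

theorem from'_rep (hk : 0 < k) (hK : K + 1 = k * (K₀ + 1)) (g : (Fin d → ℝ) → ℝ)
    (q : ℕ → Matrix (Fin d) (Fin d) ℝ) :
    ∀ (i a : ℕ), a + i = K → ∀ h,
      from' g K (facs (rep k q)) i a h = from' g K₀ (facs q) (K₀ - a / k) (a / k) h
  | 0, a, ha, h => by
    rw [show a / k = K₀ by rw [show a = K by omega]; exact rep_top hk hK id, Nat.sub_self]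
    simp [from', rowFld, Vale.Agent.P157.Casc.casc]
  | i + 1, a, ha, h => by
    have ih := from'_rep hk hK g q i (a + 1) (by omega)
    have ha' : a < K := by omega
    rw [from'_succ]
    rcases rep_jump hk hK ha' with e | ⟨e, hj, he⟩
    · have e0 : facs (rep k q) a = 0 := by simp [facs, rep, e, facOf_zero]
      simp only [ih, e, e0, arrMap_zero, add_zero, integral_const, probReal_univ, one_smul,
        Real.log_exp]
      have : gridM K (a + 1) ≠ 0 := ((gridM_levels K).pos (a + 1) (by omega) (by omega)).ne'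
      rw [← mul_assoc, inv_mul_cancel₀ this, one_mul]
    · rw [show K₀ - a / k = (K₀ - (a + 1) / k) + 1 by omega, from'_succ,
        ← gridM_rep hk hK (a / k + 1), ← he]
      simp only [ih, e]
      simp [facs, rep, e]

/-- Repeating levels keeps the value of a row. -/
theorem rowVal_rep (hk : 0 < k) (hK : K + 1 = k * (K₀ + 1)) (f : (Fin d → ℝ) → ℝ)
    (D : Matrix (Fin d) (Fin d) ℝ) (q : ℕ → Matrix (Fin d) (Fin d) ℝ) :
    rowVal f K D (rep k q) = rowVal f K₀ D q := by
  have e : ∀ (K : ℕ) (S : ℕ → Fin d → Fin d → ℝ) (g : (Fin d → ℝ) → ℝ) h,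
      casc (gaus (Fin d)) K (mlev K) (fun y => g (rowFld (fun l : Fin K => S l.val) h y)) =
        from' g K S K 0 h := fun K S g h => by
    simp only [from', zero_add]
    congr 1
    funext p
    simp [mlev, gridM]
  simp only [rowVal, rowCasc, rep_top hk hK, rep_zero]
  refine integral_congr_ae (ae_of_all _ fun z => ?_)
  refine (e K (facs (rep k q)) _ _).trans ((from'_rep hk hK _ q K 0 (zero_add K) _).trans ?_)
  rw [Nat.zero_div, Nat.sub_zero]
  exact (e K₀ (facs q) _ _).symm

variable {γ : Fin d → ℝ} {dd : OIdx d → ℝ}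

/-- Repeated levels of all types. -/
def repT (k : ℕ) (q : TPath d) : TPath d := fun t => rep k (q t)

theorem qTot_rep (k : ℕ) (q : TPath d) : qTot γ (repT k q) = rep k (qTot γ q) := rfl

theorem adm_rep (hk : 0 < k) (hK : K + 1 = k * (K₀ + 1)) {q : TPath d} (hq : Adm γ dd K₀ q) :
    Adm γ dd K (repT k q) :=
  ⟨fun t ht => isPath_rep hk hK (hq.path t ht), fun t ht => by
    rw [show repT k q t K = q t K₀ from rep_top hk hK (q t)]
    exact hq.top t ht⟩

/-- Repeating levels keeps the value of a family of paths. -/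
theorem pathVal_rep (hk : 0 < k) (hK : K + 1 = k * (K₀ + 1)) (τ : ℝ) (f : (Fin d → ℝ) → ℝ)
    (α : ℝ) (q : TPath d) :
    pathVal τ f γ α dd K (repT k q) = pathVal τ f γ α dd K₀ q := by
  simp only [pathVal, qTot_rep, rowVal_rep hk hK]
  refine congrArg (α * rowVal f K₀ (dTot dd) (qTot γ q) + ·) (Finset.sum_congr rfl fun t _ => ?_)
  rw [← ent_rep hk hK τ (typD γ dd t) (q t)]
  rfl

/-- Every value is attained at arbitrarily many levels. -/
theorem exists_large {q : TPath d} (hq : Adm γ dd K₀ q) (τ : ℝ) (f : (Fin d → ℝ) → ℝ) (α : ℝ)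
    (N : ℕ) : ∃ K, N ≤ K ∧ 0 < K ∧ ∃ q' : TPath d, Adm γ dd K q' ∧
      pathVal τ f γ α dd K q' = pathVal τ f γ α dd K₀ q := by
  have h1 : N + 2 ≤ (N + 2) * (K₀ + 1) := Nat.le_mul_of_pos_right _ (Nat.succ_pos _)
  have hK : (N + 2) * (K₀ + 1) - 1 + 1 = (N + 2) * (K₀ + 1) := by omega
  exact ⟨(N + 2) * (K₀ + 1) - 1, by omega, by omega, repT (N + 2) q,
    adm_rep (Nat.succ_pos _) hK hq, pathVal_rep (Nat.succ_pos _) hK τ f α q⟩

end Vale.Agent.P166.Formula
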