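import Vale.Agent.P166.Formula.Value
import Vale.Agent.P166.Formula.PathLip
import Vale.Agent.P166.Formula.Refine

/-!
Paths of nearly minimal value with bounds free of the number of levels (P166, formula side).
-/

open MeasureTheory Finset Real
open Matrix hiding comp

namespace Vale.Agent.P166.Formula

open Vale.Agent.P166.Pen
open Vale.Agent.P166.Casc (mabs)

variable {d n : ℕ}

/-- Bounds of the best response that are free of the number of levels. -/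
theorem exists_resp_bound (D : Matrix (Fin n) (Fin n) ℝ) (hD : D.PosDef)
    (T : Matrix (Fin n) (Fin n) ℝ) (hT : (D - T).PosDef) (B : ℝ) :
    ∃ BT : ℝ, ∀ (m : ℕ → ℝ) (K : ℕ), Levels m K → ∀ q : ℕ → Matrix (Fin n) (Fin n) ℝ,
      IsPath K q → q K = T → (∀ l ≤ K, mabs (q l) ≤ B) →
      mabs D ≤ BT ∧ mabs D⁻¹ ≤ BT ∧ (∀ l ≤ K, mabs (q l) ≤ BT) ∧
        (∀ l ≤ K, mabs (bestPath m K D q l) ≤ BT) ∧ mabs (bestTilt m K D q) ≤ BT := by
  set U := mabs (D - T)⁻¹ + 1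
  have hU : 0 < U := by
    have := Casc.mabs_nonneg (D - T)⁻¹
    positivity
  have hc : (D - T - U⁻¹ • (1 : Matrix (Fin n) (Fin n) ℝ)).PosSemidef := by
    have h := inv_sub_psd hT.inv hU (mabs_sub_psd hT.inv.isHermitian (le_add_of_nonneg_right zero_le_one))
    rwa [Matrix.nonsing_inv_nonsing_inv _ (isUnit_iff_ne_zero.2 hT.det_pos.ne')] at h
  set c := U⁻¹
  have hc0 : 0 < c := inv_pos.2 hU
  set B1 := |B| + mabs D⁻¹
  set k := (n : ℝ) ^ 2 / c
  set P := k * B1 * (exp (k * B1) * (k * (k * B1 + 1)) * (2 * B1 ^ 2))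
    + k * (k * B1 + 1) * (2 * B1 ^ 2)
  have hi0 := Casc.mabs_nonneg D⁻¹
  have hk : 0 ≤ k := by positivity
  have hP : 0 ≤ P := by positivity
  refine ⟨mabs D + mabs D⁻¹ + |B| + k + 2 * P, fun m K hm q hq hqK hB => ?_⟩
  have h1 := Casc.mabs_nonneg D
  have h2 : 0 ≤ |B| := abs_nonneg B
  have hB1 : ∀ l ≤ K, mabs (q l) ≤ B1 := fun l hl => by
    linarith [hB l hl, le_abs_self B]
  have hDq : (D - q K - c • (1 : Matrix (Fin n) (Fin n) ℝ)).PosSemidef := by rwa [hqK]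
  have hbp : ∀ l ≤ K, mabs (bestPath m K D q l) ≤ P :=
    bestPath_bound hm hD.det_pos.ne' hc0 (le_add_of_nonneg_left h2) hq hDq hB1
  have hT0 : (tT m K D q 0 - c • (1 : Matrix (Fin n) (Fin n) ℝ)).PosSemidef := by
    have := (tT_sub_psd hm D hq (Nat.zero_le K)).add hDq
    rwa [← add_sub_assoc, sub_add_cancel] at this
  have htilt : mabs (bestTilt m K D q) ≤ k + 2 * P := by
    rw [bestTilt, tiltFor, sub_eq_add_neg]
    refine (Casc.mabs_add _ _).trans ?_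
    rw [Casc.mabs_neg]
    refine add_le_add (mabs_inv_le hc0 hT0).2 ?_
    refine (mabs_tail_le hm _ (Nat.zero_le K)).trans ?_
    linarith [lmean_le_of_bound hm hbp, hbp 0 (Nat.zero_le K)]
  exact ⟨by linarith, by linarith, fun l hl => by linarith [hB l hl, le_abs_self B],
    fun l hl => by linarith [hbp l hl], by linarith⟩

variable {τ α κ L η : ℝ} {γ : Fin d → ℝ} {f : (Fin d → ℝ) → ℝ} {dd : OIdx d → ℝ}

/-- Paths of nearly minimal value, with bounds that are free of the number of levels. -/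
theorem exists_near_inf (hγ : ∀ k, 0 < γ k ∧ γ k ≤ 1) (hκ : 0 < κ) (hd : GoodCentre γ κ L dd)
    (hη : 0 < η) :
    ∃ BT : ℝ, 1 ≤ BT ∧ ∀ K₀ : ℕ, ∃ K, K₀ ≤ K ∧ ∃ q : TPath d, Adm γ dd K q ∧
      pathVal τ f γ α dd K q ≤ gVal τ f γ α dd + η ∧
      ∀ t, Occupied γ t → (typD γ dd t).det ≠ 0 ∧ mabs (typD γ dd t) ≤ BT ∧
        mabs (typD γ dd t)⁻¹ ≤ BT ∧ (∀ l ≤ K, mabs (q t l) ≤ BT) ∧
        (∀ l ≤ K, mabs (bestPath (gridM K) K (typD γ dd t) (q t) l) ≤ BT) ∧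
        mabs (bestTilt (gridM K) K (typD γ dd t) (q t)) ≤ BT := by
  obtain ⟨_, ⟨r, q, hq, rfl⟩, hv⟩ :=
    exists_lt_of_csInf_lt (valSet_nonempty (τ := τ) (α := α) (f := f) hγ hκ hd)
      (lt_add_of_pos_right (gVal τ f γ α dd) hη)
  have hpos : ∀ t, Occupied γ t → (typD γ dd t).PosDef := fun t ht => by
    simpa using Matrix.PosDef.posSemidef_add (typD_posDef hκ hγ hd ht)
      (Matrix.PosDef.one.smul (div_pos hκ (tfrac_pos hγ ht)))
  have hex : ∀ t, ∃ BT : ℝ, Occupied γ t → ∀ (m : ℕ → ℝ) (K : ℕ), Levels m K →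
      ∀ q' : ℕ → Matrix (Fin t.card) (Fin t.card) ℝ, IsPath K q' → q' K = q t r →
      (∀ l ≤ K, mabs (q' l) ≤ ∑ j ∈ range (r + 1), mabs (q t j)) →
      mabs (typD γ dd t) ≤ BT ∧ mabs (typD γ dd t)⁻¹ ≤ BT ∧ (∀ l ≤ K, mabs (q' l) ≤ BT) ∧
        (∀ l ≤ K, mabs (bestPath m K (typD γ dd t) q' l) ≤ BT) ∧
        mabs (bestTilt m K (typD γ dd t) q') ≤ BT := fun t => by
    by_cases ht : Occupied γ t
    · obtain ⟨BT, h⟩ := exists_resp_bound (typD γ dd t) (hpos t ht) (q t r) (hq.top t ht)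
        (∑ j ∈ range (r + 1), mabs (q t j))
      exact ⟨BT, fun _ => h⟩
    · exact ⟨0, fun h => absurd h ht⟩
  choose BT hBT using hex
  refine ⟨1 + ∑ t, |BT t|, le_add_of_nonneg_right (Finset.sum_nonneg fun _ _ => abs_nonneg _),
    fun K₀ => ?_⟩
  set K := (K₀ + 1) * (r + 1) - 1
  have h1 : K₀ + 1 ≤ (K₀ + 1) * (r + 1) := Nat.le_mul_of_pos_right _ (Nat.succ_pos r)
  have hK : K + 1 = (K₀ + 1) * (r + 1) := by omega
  have hk : 0 < K₀ + 1 := Nat.succ_pos _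
  refine ⟨K, by omega, repT (K₀ + 1) q, adm_rep hk hK hq,
    by rw [pathVal_rep hk hK]; exact hv.le, fun t ht => ?_⟩
  have hb : ∀ l ≤ K, mabs (rep (K₀ + 1) (q t) l) ≤ ∑ j ∈ range (r + 1), mabs (q t j) := fun l hl =>
    Finset.single_le_sum (f := fun j => mabs (q t j)) (fun j _ => Casc.mabs_nonneg _)
      (Finset.mem_range.2 (Nat.div_lt_of_lt_mul (by omega)))
  obtain ⟨b1, b2, b3, b4, b5⟩ := hBT t ht _ K (gridM_levels K) (rep (K₀ + 1) (q t))
    (isPath_rep hk hK (hq.path t ht)) (rep_top hk hK (q t)) hb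
  have hle : BT t ≤ 1 + ∑ t, |BT t| := by
    have h2 := Finset.single_le_sum (f := fun t => |BT t|) (fun t _ => abs_nonneg _) (mem_univ t)
    linarith [le_abs_self (BT t)]
  exact ⟨(hpos t ht).det_pos.ne', b1.trans hle, b2.trans hle, fun l hl => (b3 l hl).trans hle,
    fun l hl => (b4 l hl).trans hle, b5.trans hle⟩

end Vale.Agent.P166.Formula
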