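import Vale.Agent.P157.Casc.Conc
import Vale.Agent.P157.Casc.EndBase

/-!
The recursion of the logarithm of a sum: below the first weight that matters it is at most the sum
of the recursions, raised to that weight (P166, formula side).
-/

open MeasureTheory Finset

namespace Vale.Agent.P166.Formula

open Vale.Agent.P157.Casc (casc Grid measurable_consFix weight_integrable)
open Vale.Agent.P157.Casc

theorem rpow_sum_le {ι : Type*} (s : Finset ι) {W : ι → ℝ} (hW : ∀ i ∈ s, 0 < W i) (hs : s.Nonempty)
    {a : ℝ} (ha : a ≤ 1) : (∑ i ∈ s, W i) ^ a ≤ ∑ i ∈ s, W i ^ a := by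
  have hS : 0 < ∑ i ∈ s, W i := Finset.sum_pos hW hs
  have e : (∑ i ∈ s, W i) ^ a = ∑ i ∈ s, W i * (∑ i ∈ s, W i) ^ (a - 1) := by
    have h := Real.rpow_add hS 1 (a - 1)
    rw [Real.rpow_one, add_sub_cancel] at h
    rw [← Finset.sum_mul, h]
  rw [e]
  refine Finset.sum_le_sum fun i hi => ?_
  calc W i * (∑ i ∈ s, W i) ^ (a - 1) ≤ W i * W i ^ (a - 1) :=
        mul_le_mul_of_nonneg_left (Real.rpow_le_rpow_of_nonpos (hW i hi)
          (Finset.single_le_sum (fun j hj => (hW j hj).le) hi) (by linarith)) (hW i hi).le
    _ = W i ^ a := by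
        conv_lhs => rw [← Real.rpow_one (W i)]
        rw [← Real.rpow_mul (hW i hi).le, one_mul, ← Real.rpow_add (hW i hi)]
        norm_num

theorem exp_mul_log_sum_le {ι : Type*} {s : Finset ι} (hs : s.Nonempty) (h : ι → ℝ) {μ : ℝ}
    (hμ : μ ≤ 1) :
    Real.exp (μ * Real.log (∑ i ∈ s, Real.exp (h i))) ≤ ∑ i ∈ s, Real.exp (μ * h i) := by
  rw [mul_comm μ, ← Real.rpow_def_of_pos (Finset.sum_pos (fun i _ => Real.exp_pos (h i)) hs)]
  refine (rpow_sum_le s (fun i _ => Real.exp_pos (h i)) hs hμ).trans_eq ?_
  exact Finset.sum_congr rfl fun i _ => by rw [← Real.exp_mul, mul_comm]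

/-- The recursion of a log of a sum, in terms of the recursions of the summands. -/
theorem casc_lse_le {X : Type} [MeasurableSpace X] {ν : Measure X} [IsProbabilityMeasure ν]
    {ι : Type*} {s : Finset ι} (hs : s.Nonempty) : ∀ (K : ℕ) {m : Fin K → ℝ}, Grid m →
    ∀ {μ : ℝ}, 0 < μ → μ ≤ 1 → ∀ {H : ι → (Fin K → X) → ℝ}, (∀ i, Measurable (H i)) →
      (∀ i, Integrable (fun y => Real.exp (H i y)) (Measure.pi fun _ => ν)) →
      (∀ l, m l < μ → ∀ i y x, H i (Function.update y l x) = H i y) →
      Real.exp (μ * casc ν K m fun y => Real.log (∑ i ∈ s, Real.exp (H i y)))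
        ≤ ∑ i ∈ s, Real.exp (μ * casc ν K m (H i))
  | 0, _, _, μ, _, hμ, H, _, _, _ => exp_mul_log_sum_le hs (fun i => H i Fin.elim0) hμ
  | K + 1, m, hm, μ, hμ0, hμ, H, hH, hi, hdep => by
    set G : (Fin (K + 1) → X) → ℝ := fun y => Real.log (∑ i ∈ s, Real.exp (H i y))
    have hG : Measurable G := (Finset.measurable_sum _ fun i _ => (hH i).exp).log
    have hGi : Integrable (fun y => Real.exp (G y)) (Measure.pi fun _ => ν) :=
      (integrable_finsetSum s fun i _ => hi i).congr (ae_of_all _ fun y =>
        (Real.exp_log (Finset.sum_pos (fun i _ => Real.exp_pos _) hs)).symm)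
    have h0 := hm.pos 0
    rcases le_or_gt μ (m 0) with hle | hlt
    · have hstep : ∀ᵐ x ∂ν, Real.exp (m 0 * casc ν K (fun l => m l.succ) fun y =>
            G (Fin.cons x y))
          ≤ ∑ i ∈ s, Real.exp (m 0 * casc ν K (fun l => m l.succ) fun y => H i (Fin.cons x y)) := by
        filter_upwards [s.eventually_all.2 fun i _ => (Rec.slice (hi i)).1] with x hx
        classical
        refine (le_of_eq (congrArg (fun F => Real.exp (m 0 * casc ν K (fun l => m l.succ) F))
          (funext fun y => ?_))).trans ((casc_lse_le hs K hm.tail h0 (hm.lt_one 0).le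
            (H := fun i y => if i ∈ s then H i (Fin.cons x y) else 0)
            (fun i => by
              split_ifs
              · exact measurable_consFix (hH i) x
              · exact measurable_const)
            (fun i => by
              split_ifs with his
              · exact hx i his
              · exact integrable_const _)
            (fun l hl => absurd hl (not_lt.2 (hm.mono (Fin.succ_pos l)).le))).trans_eq ?_)
        · exact congrArg Real.log (Finset.sum_congr rfl fun i his => by rw [if_pos his])
        · exact Finset.sum_congr rfl fun i his => by simp only [if_pos his]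
      obtain ⟨hwG, hpG⟩ := weight_integrable hm hG hGi
      have hw := fun i => weight_integrable hm (hH i) (hi i)
      have hint := integral_mono_ae hwG (integrable_finsetSum s fun i _ => (hw i).1) hstep
      rw [integral_finsetSum s fun i _ => (hw i).1] at hint
      have e : ∀ {F : (Fin (K + 1) → X) → ℝ},
          0 < ∫ x, Real.exp (m 0 * casc ν K (fun l => m l.succ) fun y => F (Fin.cons x y)) ∂ν →
          Real.exp (μ * casc ν (K + 1) m F)
            = (∫ x, Real.exp (m 0 * casc ν K (fun l => m l.succ) fun y => F (Fin.cons x y)) ∂ν)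
              ^ (μ / m 0) := fun {F} hp => by
        rw [Real.rpow_def_of_pos hp]
        simp only [casc]
        congr 1
        ring
      rw [e hpG, Finset.sum_congr rfl fun i _ => e (hw i).2]
      exact (Real.rpow_le_rpow hpG.le hint (div_nonneg hμ0.le h0.le)).trans
        (rpow_sum_le s (fun i _ => (hw i).2) hs ((div_le_one h0).2 hle))
    · obtain ⟨x0, hx0⟩ := (s.eventually_all.2 fun i _ => (Rec.slice (hi i)).1).exists
      have hind : ∀ i x y, H i (Fin.cons x y) = H i (Fin.cons x0 y) := fun i x y => by
        rw [← Fin.update_cons_zero (α := fun _ => X) x0 y x]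
        exact hdep 0 hlt i _ x
      have hconst : ∀ F : (Fin (K + 1) → X) → ℝ, (∀ x y, F (Fin.cons x y) = F (Fin.cons x0 y)) →
          casc ν (K + 1) m F = casc ν K (fun l => m l.succ) fun y => F (Fin.cons x0 y) :=
        fun F hF => by
        simp only [casc, hF, integral_const, probReal_univ, one_smul, Real.log_exp]
        rw [← mul_assoc, inv_mul_cancel₀ h0.ne', one_mul]
      rw [hconst G fun x y => by simp only [G, hind _ x],
        Finset.sum_congr rfl fun i _ => by rw [hconst (H i) (hind i)]]
      classical
      refine (le_of_eq (congrArg (fun F => Real.exp (μ * casc ν K (fun l => m l.succ) F))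
        (funext fun y => ?_))).trans ((casc_lse_le hs K hm.tail hμ0 hμ
          (H := fun i y => if i ∈ s then H i (Fin.cons x0 y) else 0)
          (fun i => by
            split_ifs
            · exact measurable_consFix (hH i) x0
            · exact measurable_const)
          (fun i => by
            split_ifs with his
            · exact hx0 i his
            · exact integrable_const _)
          (fun l hl i y x => by
            split_ifs
            · rw [Fin.cons_update]; exact hdep l.succ hl i _ x
            · rfl)).trans_eq ?_)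
      · exact congrArg Real.log (Finset.sum_congr rfl fun i his => by rw [if_pos his])
      · exact Finset.sum_congr rfl fun i his => by simp only [if_pos his]

/-- Lower bound on one summand when the others are small. -/
theorem half_le_of_exp_le {N : ℕ} {μ a b c δ : ℝ} (hμ : 0 < μ)
    (h : Real.exp (μ * a) ≤ Real.exp (μ * b) + N * Real.exp (μ * c)) (hc : c ≤ a - δ)
    (hN : (N : ℝ) * Real.exp (-(μ * δ)) ≤ 1 / 2) : a - Real.log 2 / μ ≤ b := by
  have h1 : (N : ℝ) * Real.exp (μ * c) ≤ Real.exp (μ * a) / 2 := by
    refine (mul_le_mul_of_nonneg_left (Real.exp_le_exp.2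
      (mul_le_mul_of_nonneg_left hc hμ.le)) (Nat.cast_nonneg N)).trans ?_
    rw [mul_sub, sub_eq_add_neg, Real.exp_add]
    nlinarith [Real.exp_pos (μ * a)]
  have h2 : Real.exp (μ * a - Real.log 2) ≤ Real.exp (μ * b) := by
    rw [Real.exp_sub, Real.exp_log two_pos]
    linarith
  have h3 := Real.exp_le_exp.1 h2
  have h4 : (a - Real.log 2 / μ) * μ ≤ b * μ := by
    rw [sub_mul, div_mul_cancel₀ _ hμ.ne']
    linarith
  exact le_of_mul_le_mul_right h4 hμ

end Vale.Agent.P166.Formula
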