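import Vale.Agent.P166.Formula.Paths
import Vale.Agent.P166.Formula.LogDet

/-!
The log-determinant entropy of an overlap path, the closed Gaussian cascade value, the inequality
between them, and the monotonicity of the best response (P166, formula side).
-/

open Real Finset Matrix

namespace Vale.Agent.P166.Formula

variable {n : ℕ}

/-- A sequence weighted by the inverse levels, as it appears in a cascade recursion. -/
noncomputable def levelSum (m : ℕ → ℝ) (r : ℕ) (a : ℕ → ℝ) : ℝ :=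
  (∑ l ∈ range r, (m (l + 1))⁻¹ * (a (l + 1) - a l)) - a r

/-- The Gaussian entropy of an overlap path with self-overlap `D`, prior variance `τ`. -/
noncomputable def ent (m : ℕ → ℝ) (r : ℕ) (τ : ℝ) (D : Matrix (Fin n) (Fin n) ℝ)
    (q : ℕ → Matrix (Fin n) (Fin n) ℝ) : ℝ :=
  1 / 2 * (-(levelSum m r fun l => log (tT m r D q l).det)
    + (q 0 * (tT m r D q 0)⁻¹).trace - D.trace / τ + n * (1 - log τ))

/-- The closed value of one Gaussian spin in a field path `p` with bottom precision `L`,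
tilted to the self-overlap `D`. -/
noncomputable def spinVal (m : ℕ → ℝ) (r : ℕ) (τ : ℝ) (D L : Matrix (Fin n) (Fin n) ℝ)
    (p : ℕ → Matrix (Fin n) (Fin n) ℝ) : ℝ :=
  1 / 2 * ((levelSum m r fun l => log (tLam m r L p l).det)
    + (p 0 * (tLam m r L p 0)⁻¹).trace + (L * D).trace - D.trace / τ - n * log τ)

/-- An increasing path of positive semidefinite matrices. -/
structure IsPath (r : ℕ) (x : ℕ → Matrix (Fin n) (Fin n) ℝ) : Prop where
  nonneg : (x 0).PosSemidef
  step : ∀ l, l < r → (x (l + 1) - x l).PosSemidef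

variable {m : ℕ → ℝ} {r : ℕ}

theorem levelSum_nonpos (hm : Levels m r) {a : ℕ → ℝ} (ha : ∀ l, l ≤ r → a l ≤ 0) (h0 : a 0 = 0) :
    levelSum m r a ≤ 0 := by
  have key : ∀ j, j ≤ r →
      ∑ l ∈ range j, (m (l + 1))⁻¹ * (a (l + 1) - a l) ≤ (m (j + 1))⁻¹ * a j := by
    intro j
    induction j with
    | zero => intro _; simp [h0]
    | succ j ih =>
      intro hj
      have h1 := hm.pos (j + 1) (by omega) (by omega)
      have h2 := inv_anti₀ h1 (hm.mono (j + 1) hj)
      rw [Finset.sum_range_succ]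
      nlinarith [ih (by omega), ha (j + 1) hj]
  have h := key r le_rfl
  rw [hm.top, inv_one, one_mul] at h
  unfold levelSum
  linarith

theorem levelSum_congr_zero {a : ℕ → ℝ} (ha : ∀ l, l ≤ r → a l = 0) : levelSum m r a = 0 := by
  unfold levelSum
  rw [Finset.sum_eq_zero (fun l hl => by
    rw [ha _ (Nat.succ_le_of_lt (Finset.mem_range.1 hl)), ha _ (Finset.mem_range.1 hl).le]
    simp), ha r le_rfl, sub_zero]

/-- The logarithmic gap at a level. -/
noncomputable def gapA (T Lam : Matrix (Fin n) (Fin n) ℝ) : ℝ :=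
  log Lam.det + log T.det - (T * Lam).trace + n

theorem gapA_nonpos {T Lam : Matrix (Fin n) (Fin n) ℝ} (hT : T.PosDef) (hL : Lam.PosDef) :
    gapA T Lam ≤ 0 := by
  have h := P150.Fast.logdet_tangent hL hT.inv
  have hu := isUnit_iff_ne_zero.2 hT.det_pos.ne'
  rw [Matrix.det_nonsing_inv, Ring.inverse_eq_inv', log_inv,
    Matrix.nonsing_inv_nonsing_inv _ hu, Matrix.mul_sub, Matrix.trace_sub,
    Matrix.mul_nonsing_inv _ hu, Matrix.trace_one, Fintype.card_fin] at h
  unfold gapA
  linarith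

theorem gapA_eq_zero {T Lam : Matrix (Fin n) (Fin n) ℝ} (h : Lam * T = 1) : gapA T Lam = 0 := by
  have hd : Lam.det * T.det = 1 := by rw [← det_mul, h, det_one]
  unfold gapA
  rw [mul_eq_one_comm.1 h, Matrix.trace_one, Fintype.card_fin,
    ← log_mul (left_ne_zero_of_mul_eq_one hd) (right_ne_zero_of_mul_eq_one hd), hd, log_one]
  ring

/-- The value of a spin, the pairing and the entropy differ by a weighted sum of gaps. -/
theorem spinVal_add_pairing (hm : Levels m r) (τ : ℝ) (D L : Matrix (Fin n) (Fin n) ℝ)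
    (p q : ℕ → Matrix (Fin n) (Fin n) ℝ)
    (h0 : tLam m r L p 0 * tT m r D q 0 = 1) :
    spinVal m r τ D L p + pairing m r p q / 2 - ent m r τ D q
      = 1 / 2 * levelSum m r fun l => gapA (tT m r D q l) (tLam m r L p l) := by
  have hid := trace_identity hm L D p q
  rw [spinVal, ent, Matrix.inv_eq_right_inv h0, Matrix.inv_eq_left_inv h0]
  simp only [levelSum, gapA, mul_sub, mul_add, Finset.sum_sub_distrib, Finset.sum_add_distrib]
    at hid ⊢
  linear_combination (1 / 2 : ℝ) * hid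

theorem tT_posDef {D : Matrix (Fin n) (Fin n) ℝ} {q : ℕ → Matrix (Fin n) (Fin n) ℝ}
    (hm : Levels m r) (hq : IsPath r q) (hD : (D - q r).PosDef) :
    ∀ l, l ≤ r → (tT m r D q l).PosDef := by
  intro l hl
  induction hl using Nat.decreasingInduction with
  | self => rwa [tT_top hm]
  | of_succ k hk ih =>
    rw [tT_step D q hk]
    exact ih.add_posSemidef ((hq.step k hk).smul (hm.pos (k + 1) (by omega) (by omega)).le)

theorem tLam_posDef {L : Matrix (Fin n) (Fin n) ℝ} {p : ℕ → Matrix (Fin n) (Fin n) ℝ}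
    (hm : Levels m r) (hp : IsPath r p) (h0 : (tLam m r L p 0).PosDef) :
    ∀ l, l ≤ r → (tLam m r L p l).PosDef := by
  intro l
  induction l with
  | zero => exact fun _ => h0
  | succ k ih =>
    intro hk
    have e := tLam_step (m := m) L p (Nat.lt_of_succ_le hk)
    rw [eq_sub_iff_add_eq] at e
    rw [← e]
    exact (ih (by omega)).add_posSemidef
      ((hp.step k hk).smul (hm.pos (k + 1) (by omega) (by omega)).le)

/-- The bottom precision that makes the root precision inverse to the root tail of `q`. -/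
noncomputable def tiltFor (m : ℕ → ℝ) (r : ℕ) (D : Matrix (Fin n) (Fin n) ℝ)
    (q p : ℕ → Matrix (Fin n) (Fin n) ℝ) : Matrix (Fin n) (Fin n) ℝ :=
  (tT m r D q 0)⁻¹ - tail m r p 0

theorem tLam_tiltFor (D : Matrix (Fin n) (Fin n) ℝ) (q p : ℕ → Matrix (Fin n) (Fin n) ℝ) :
    tLam m r (tiltFor m r D q p) p 0 = (tT m r D q 0)⁻¹ := by
  simp [tLam, tiltFor]

/-- The entropy dominates every field path, at a suitable tilt. -/
theorem spinVal_le_ent (hm : Levels m r) (τ : ℝ) {D : Matrix (Fin n) (Fin n) ℝ}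
    {p q : ℕ → Matrix (Fin n) (Fin n) ℝ} (hp : IsPath r p) (hq : IsPath r q)
    (hD : (D - q r).PosDef) :
    spinVal m r τ D (tiltFor m r D q p) p + pairing m r p q / 2 ≤ ent m r τ D q := by
  have hT := tT_posDef hm hq hD
  have h0 : tLam m r (tiltFor m r D q p) p 0 * tT m r D q 0 = 1 := by
    rw [tLam_tiltFor]
    exact Matrix.nonsing_inv_mul _ (isUnit_iff_ne_zero.2 (hT 0 (Nat.zero_le r)).det_pos.ne')
  have hL : (tLam m r (tiltFor m r D q p) p 0).PosDef := by
    rw [tLam_tiltFor]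
    exact (hT 0 (Nat.zero_le r)).inv
  have hle := levelSum_nonpos hm
    (a := fun l => gapA (tT m r D q l) (tLam m r (tiltFor m r D q p) p l))
    (fun l hl => gapA_nonpos (hT l hl) (tLam_posDef hm hp hL l hl)) (gapA_eq_zero h0)
  linarith [spinVal_add_pairing hm τ D _ p q h0]

/-- At stationarity the entropy is attained. -/
theorem spinVal_eq_ent (hm : Levels m r) (τ : ℝ) {D L : Matrix (Fin n) (Fin n) ℝ}
    {p q : ℕ → Matrix (Fin n) (Fin n) ℝ}
    (h : ∀ l, l ≤ r → tLam m r L p l * tT m r D q l = 1) :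
    spinVal m r τ D L p + pairing m r p q / 2 = ent m r τ D q := by
  have e := spinVal_add_pairing hm τ D L p q (h 0 (Nat.zero_le r))
  rw [levelSum_congr_zero fun l hl => gapA_eq_zero (h l hl)] at e
  linarith

/-- The stationary tilt minimises the value of the spin. -/
theorem spinVal_min (hm : Levels m r) (τ : ℝ) {D L L' : Matrix (Fin n) (Fin n) ℝ}
    {p q : ℕ → Matrix (Fin n) (Fin n) ℝ} (hp : IsPath r p)
    (h : ∀ l, l ≤ r → tLam m r L p l * tT m r D q l = 1)
    (hroot : q 0 = tT m r D q 0 * p 0 * tT m r D q 0)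
    (hstep : ∀ l, l ≤ r → (tLam m r L p l).PosDef)
    (h' : (tLam m r L' p 0).PosDef) :
    spinVal m r τ D L p ≤ spinVal m r τ D L' p := by
  obtain ⟨δ, rfl⟩ : ∃ δ, L' = L + δ := ⟨L' - L, by abel⟩
  have hadd : ∀ l, tLam m r (L + δ) p l = tLam m r L p l + δ := by
    intro l
    simp only [tLam]
    abel
  have hstep' := tLam_posDef hm hp h'
  have hinv : ∀ l, l ≤ r → (tLam m r L p l)⁻¹ = tT m r D q l :=
    fun l hl => Matrix.inv_eq_right_inv (h l hl)
  have htop : log (tLam m r L p r + δ).det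
      ≤ log (tLam m r L p r).det + (tT m r D q r * δ).trace := by
    have ht := P150.Fast.logdet_tangent (hadd r ▸ hstep' r le_rfl) (hstep r le_rfl)
    rwa [hinv r le_rfl, add_sub_cancel_left] at ht
  have hsum : ∀ l ∈ range r, (m (l + 1))⁻¹ * (log (tLam m r L p (l + 1)).det
        - log (tLam m r L p l).det) + (-((q (l + 1) - q l) * δ).trace)
      ≤ (m (l + 1))⁻¹ * (log (tLam m r (L + δ) p (l + 1)).det
        - log (tLam m r (L + δ) p l).det) := by
    intro l hl
    have hl' := Finset.mem_range.1 hl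
    have hmp := hm.pos (l + 1) (by omega) (by omega)
    have hg := logdet_gap_tangent (hstep (l + 1) hl') (hstep l hl'.le)
      ((hp.step l hl').smul hmp.le)
      (by rw [tLam_step (m := m) L p hl', sub_add_cancel])
      (hadd (l + 1) ▸ hstep' (l + 1) hl') (hadd l ▸ hstep' l hl'.le)
    rw [hinv _ hl', hinv _ hl'.le, tT_step (m := m) D q hl'] at hg
    simp only [Matrix.sub_mul, Matrix.add_mul, Matrix.smul_mul, Matrix.trace_sub, Matrix.trace_add,
      Matrix.trace_smul, smul_eq_mul] at hg ⊢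
    rw [hadd, hadd]
    have := mul_le_mul_of_nonneg_left hg (inv_pos.2 hmp).le
    field_simp at this ⊢
    linarith
  have htot := Finset.sum_le_sum hsum
  rw [Finset.sum_add_distrib, Finset.sum_neg_distrib] at htot
  have htel : ∑ l ∈ range r, ((q (l + 1) - q l) * δ).trace
      = (q r * δ).trace - (q 0 * δ).trace := by
    simp only [Matrix.sub_mul, Matrix.trace_sub]
    exact Finset.sum_range_sub (fun l => (q l * δ).trace) r
  have hb := trace_inv_tangent hp.nonneg (hstep 0 (Nat.zero_le r)) (hadd 0 ▸ h')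
  rw [add_sub_cancel_left, hinv 0 (Nat.zero_le r)] at hb
  have hroot' : (p 0 * (tT m r D q 0 * δ * tT m r D q 0)).trace = (q 0 * δ).trace := by
    rw [hroot, ← Matrix.mul_assoc, ← Matrix.mul_assoc, Matrix.trace_mul_comm]
    simp only [Matrix.mul_assoc]
  have hdiag : (tT m r D q r * δ).trace = (δ * D).trace - (q r * δ).trace := by
    rw [tT_top hm, Matrix.sub_mul, Matrix.trace_sub, Matrix.trace_mul_comm D δ]
  rw [htel] at htot
  simp only [spinVal, levelSum, Matrix.add_mul, Matrix.trace_add]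
  rw [hadd 0, hadd r, hinv 0 (Nat.zero_le r)]
  linarith

theorem spinVal_sub (τ : ℝ) (D D' L : Matrix (Fin n) (Fin n) ℝ)
    (p : ℕ → Matrix (Fin n) (Fin n) ℝ) :
    spinVal m r τ D' L p - spinVal m r τ D L p
      = 1 / 2 * ((L * (D' - D)).trace - (D' - D).trace / τ) := by
  simp only [spinVal, Matrix.mul_sub, Matrix.trace_sub]
  ring

/-- The best response is monotone, up to the displacement of the self-overlap. -/
theorem pairing_ge_of_stationary (hm : Levels m r) {D₁ D₂ L₁ L₂ : Matrix (Fin n) (Fin n) ℝ}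
    {p₁ q₁ p₂ q₂ : ℕ → Matrix (Fin n) (Fin n) ℝ} (hp₁ : IsPath r p₁) (hq₁ : IsPath r q₁)
    (hD₁ : (D₁ - q₁ r).PosDef) (hp₂ : IsPath r p₂) (hq₂ : IsPath r q₂)
    (hD₂ : (D₂ - q₂ r).PosDef)
    (h₁ : ∀ l, l ≤ r → tLam m r L₁ p₁ l * tT m r D₁ q₁ l = 1)
    (h₂ : ∀ l, l ≤ r → tLam m r L₂ p₂ l * tT m r D₂ q₂ l = 1)
    (hr₁ : q₁ 0 = tT m r D₁ q₁ 0 * p₁ 0 * tT m r D₁ q₁ 0)
    (hr₂ : q₂ 0 = tT m r D₂ q₂ 0 * p₂ 0 * tT m r D₂ q₂ 0) :
    -((tiltFor m r D₁ q₁ p₂ - tiltFor m r D₂ q₂ p₁) * (D₂ - D₁)).trace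
      ≤ pairing m r p₁ q₁ - pairing m r p₁ q₂ - pairing m r p₂ q₁ + pairing m r p₂ q₂ := by
  have key : ∀ {D D' L : Matrix (Fin n) (Fin n) ℝ} {p q q' : ℕ → Matrix (Fin n) (Fin n) ℝ},
      IsPath r p → IsPath r q → (D - q r).PosDef → IsPath r q' → (D' - q' r).PosDef →
      (∀ l, l ≤ r → tLam m r L p l * tT m r D q l = 1) →
      q 0 = tT m r D q 0 * p 0 * tT m r D q 0 →
      spinVal m r 1 D L p + pairing m r p q' / 2
          + 1 / 2 * ((tiltFor m r D' q' p * (D' - D)).trace - (D' - D).trace / 1)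
        ≤ ent m r 1 D' q' := by
    intro D D' L p q q' hp hq hD hq' hD' h hr
    have hstep : ∀ l, l ≤ r → (tLam m r L p l).PosDef := by
      intro l hl
      have e := Matrix.inv_eq_left_inv (h l hl)
      rw [← e]
      exact (tT_posDef hm hq hD l hl).inv
    have h' : (tLam m r (tiltFor m r D' q' p) p 0).PosDef := by
      rw [tLam_tiltFor]
      exact (tT_posDef hm hq' hD' 0 (Nat.zero_le r)).inv
    linarith [spinVal_le_ent hm 1 hp hq' hD', spinVal_min hm 1 hp h hr hstep h',
      spinVal_sub (m := m) (r := r) 1 D D' (tiltFor m r D' q' p) p]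
  have k₁ := key hp₁ hq₁ hD₁ hq₂ hD₂ h₁ hr₁
  have k₂ := key hp₂ hq₂ hD₂ hq₁ hD₁ h₂ hr₂
  simp only [Matrix.mul_sub, Matrix.sub_mul, Matrix.trace_sub, div_one] at k₁ k₂ ⊢
  linarith [spinVal_eq_ent hm 1 h₁, spinVal_eq_ent hm 1 h₂]

end Vale.Agent.P166.Formula
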