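import Vale.Agent.P150.Fast.LogDetMat

/-!
Algebra of matrix paths over a finite list of levels (P166, formula side): tails, the telescoping
trace identity, and the stationarity equations, which force the tail matrices to be mutually inverse.
-/

open Finset Matrix

namespace Vale.Agent.P166.Formula

variable {n : ℕ}


/-- The weights of the levels: zero at the root, increasing, equal to one after level `r`. -/
structure Levels (m : ℕ → ℝ) (r : ℕ) : Prop where
  zero : m 0 = 0
  pos : ∀ l, 1 ≤ l → l ≤ r + 1 → 0 < m l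
  mono : ∀ l, l ≤ r → m l ≤ m (l + 1)
  top : m (r + 1) = 1

/-- The tail of a path seen from level `l`. -/
noncomputable def tail (m : ℕ → ℝ) (r : ℕ) (x : ℕ → Matrix (Fin n) (Fin n) ℝ) (l : ℕ) :
    Matrix (Fin n) (Fin n) ℝ :=
  (∑ j ∈ Finset.Ioc l r, (m (j + 1) - m j) • x j) + m (l + 1) • x l

/-- The tail matrix of an overlap path with self-overlap `D`. -/
noncomputable def tT (m : ℕ → ℝ) (r : ℕ) (D : Matrix (Fin n) (Fin n) ℝ)
    (q : ℕ → Matrix (Fin n) (Fin n) ℝ) (l : ℕ) : Matrix (Fin n) (Fin n) ℝ :=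
  D - tail m r q l

/-- The precision at level `l` of a field path with bottom precision `L`. -/
noncomputable def tLam (m : ℕ → ℝ) (r : ℕ) (L : Matrix (Fin n) (Fin n) ℝ)
    (p : ℕ → Matrix (Fin n) (Fin n) ℝ) (l : ℕ) : Matrix (Fin n) (Fin n) ℝ :=
  L + tail m r p l

/-- The weighted products of two paths below level `j`. -/
noncomputable def cum (m : ℕ → ℝ) (p q : ℕ → Matrix (Fin n) (Fin n) ℝ) (j : ℕ) :
    Matrix (Fin n) (Fin n) ℝ :=
  ∑ l ∈ range j, (m (l + 1) - m l) • (p l * q l)

/-- The pairing of two paths. -/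
noncomputable def pairing (m : ℕ → ℝ) (r : ℕ) (p q : ℕ → Matrix (Fin n) (Fin n) ℝ) : ℝ :=
  (cum m p q (r + 1)).trace

variable {m : ℕ → ℝ} {r : ℕ}

theorem tail_top (hm : Levels m r) (x : ℕ → Matrix (Fin n) (Fin n) ℝ) : tail m r x r = x r := by
  simp [tail, hm.top]

theorem tail_step (x : ℕ → Matrix (Fin n) (Fin n) ℝ) {l : ℕ} (hl : l < r) :
    tail m r x l = tail m r x (l + 1) - m (l + 1) • (x (l + 1) - x l) := by
  have e : Finset.Ioc l r = insert (l + 1) (Finset.Ioc (l + 1) r) := by
    ext j
    simp only [Finset.mem_Ioc, Finset.mem_insert]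
    omega
  have hn : l + 1 ∉ Finset.Ioc (l + 1) r := by simp
  simp only [tail, e, Finset.sum_insert hn, sub_smul, smul_sub]
  abel

theorem tT_top (hm : Levels m r) (D : Matrix (Fin n) (Fin n) ℝ) (q : ℕ → Matrix (Fin n) (Fin n) ℝ) : tT m r D q r = D - q r := by
  simp [tT, tail_top hm]

theorem tLam_top (hm : Levels m r) (L : Matrix (Fin n) (Fin n) ℝ) (p : ℕ → Matrix (Fin n) (Fin n) ℝ) : tLam m r L p r = L + p r := by
  simp [tLam, tail_top hm]

theorem tT_step (D : Matrix (Fin n) (Fin n) ℝ) (q : ℕ → Matrix (Fin n) (Fin n) ℝ) {l : ℕ} (hl : l < r) :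
    tT m r D q l = tT m r D q (l + 1) + m (l + 1) • (q (l + 1) - q l) := by
  simp only [tT, tail_step q hl]
  abel

theorem tLam_step (L : Matrix (Fin n) (Fin n) ℝ) (p : ℕ → Matrix (Fin n) (Fin n) ℝ) {l : ℕ} (hl : l < r) :
    tLam m r L p l = tLam m r L p (l + 1) - m (l + 1) • (p (l + 1) - p l) := by
  simp only [tLam, tail_step p hl]
  abel

theorem cum_succ (p q : ℕ → Matrix (Fin n) (Fin n) ℝ) (j : ℕ) :
    cum m p q (j + 1) = cum m p q j + (m (j + 1) - m j) • (p j * q j) := by
  simp [cum, Finset.sum_range_succ]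

theorem trace_identity_partial (hm : Levels m r) (L D : Matrix (Fin n) (Fin n) ℝ) (p q : ℕ → Matrix (Fin n) (Fin n) ℝ) :
    ∀ j, j ≤ r →
      (∑ l ∈ range j, (m (l + 1))⁻¹ *
          ((tT m r D q (l + 1) * tLam m r L p (l + 1)).trace
            - (tT m r D q l * tLam m r L p l).trace))
        + (p 0 * tT m r D q 0).trace - (q 0 * tLam m r L p 0).trace + (cum m p q j).trace
      = (p j * tT m r D q j).trace - (q j * tLam m r L p j).trace + m j * (p j * q j).trace := by
  intro j
  induction j with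
  | zero => intro _; simp [cum, hm.zero]
  | succ j ih =>
    intro hj
    have hl : j < r := hj
    have hpos := hm.pos (j + 1) (by omega) (by omega)
    have h := ih hl.le
    rw [Finset.sum_range_succ, cum_succ, Matrix.trace_add, Matrix.trace_smul]
    have e1 := tT_step (m := m) D q hl
    have e2 := tLam_step (m := m) L p hl
    rw [e1, e2] at h ⊢
    simp only [Matrix.add_mul, Matrix.mul_add, Matrix.sub_mul, Matrix.mul_sub, Matrix.smul_mul,
      Matrix.mul_smul, Matrix.trace_add, Matrix.trace_sub, Matrix.trace_smul,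
      smul_eq_mul] at h ⊢
    rw [Matrix.trace_mul_comm (p j) (tT m r D q (j + 1)),
      Matrix.trace_mul_comm (p j) (q (j + 1)), Matrix.trace_mul_comm (p j) (q j)] at h
    rw [Matrix.trace_mul_comm (p (j + 1)) (tT m r D q (j + 1)),
      Matrix.trace_mul_comm (p (j + 1)) (q (j + 1))]
    rw [Matrix.trace_mul_comm (p j) (q j)]
    field_simp
    field_simp at h
    nlinarith [h]

/-- The telescoping trace identity. -/
theorem trace_identity (hm : Levels m r) (L D : Matrix (Fin n) (Fin n) ℝ) (p q : ℕ → Matrix (Fin n) (Fin n) ℝ) :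
    (∑ l ∈ range r, (m (l + 1))⁻¹ *
          ((tT m r D q (l + 1) * tLam m r L p (l + 1)).trace
            - (tT m r D q l * tLam m r L p l).trace))
      - (tT m r D q r * tLam m r L p r).trace + (p 0 * tT m r D q 0).trace
      - (q 0 * tLam m r L p 0).trace + pairing m r p q + (L * D).trace = 0 := by
  have h := trace_identity_partial hm L D p q r le_rfl
  simp only [pairing, cum_succ, Matrix.trace_add, Matrix.trace_smul, smul_eq_mul, hm.top,
    tT_top hm, tLam_top hm, Matrix.mul_add, Matrix.sub_mul, Matrix.mul_sub,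
    Matrix.trace_sub] at h ⊢
  rw [Matrix.trace_mul_comm L D, Matrix.trace_mul_comm (p r) D] at *
  linarith

/-- The stationarity equations of a pair of paths, as they come from integration by parts. -/
structure Stationary (m : ℕ → ℝ) (r : ℕ) (L D : Matrix (Fin n) (Fin n) ℝ)
    (p q : ℕ → Matrix (Fin n) (Fin n) ℝ) : Prop where
  diag : L * D + cum m p q (r + 1) = 1
  level : ∀ l, l ≤ r → tLam m r L p l * q l
    = p l * tT m r D q l - cum m p q l + m l • (p l * q l)

theorem Stationary.step {L D : Matrix (Fin n) (Fin n) ℝ} {p q : ℕ → Matrix (Fin n) (Fin n) ℝ} (h : Stationary m r L D p q) {l : ℕ}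
    (hl : l < r) :
    tLam m r L p (l + 1) * (q (l + 1) - q l) = (p (l + 1) - p l) * tT m r D q l := by
  have h1 := h.level (l + 1) hl
  have h0 := h.level l hl.le
  have eA : tLam m r L p (l + 1) * q l
      = tLam m r L p l * q l + m (l + 1) • ((p (l + 1) - p l) * q l) := by
    rw [tLam_step (m := m) L p hl, Matrix.sub_mul, Matrix.smul_mul, sub_add_cancel]
  rw [Matrix.mul_sub, eA, h1, h0, cum_succ, tT_step (m := m) D q hl]
  simp only [Matrix.mul_add, Matrix.sub_mul, Matrix.mul_sub,
    Matrix.mul_smul, smul_sub, sub_smul]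
  module

/-- The stationarity equations make the two tail matrices inverse to each other at every level. -/
theorem Stationary.mul_eq_one {L D : Matrix (Fin n) (Fin n) ℝ} {p q : ℕ → Matrix (Fin n) (Fin n) ℝ} (hm : Levels m r)
    (h : Stationary m r L D p q) : ∀ l, l ≤ r → tLam m r L p l * tT m r D q l = 1 := by
  intro l hl
  induction hl using Nat.decreasingInduction with
  | self =>
    have h1 := h.level r le_rfl
    have h2 := h.diag
    rw [tLam_top hm, tT_top hm] at h1 ⊢
    rw [Matrix.mul_sub, h1, ← h2, cum_succ, hm.top]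
    simp only [Matrix.add_mul, Matrix.mul_sub, sub_smul, one_smul]
    abel
  | of_succ k hk ih =>
    have hs := h.step hk
    have e : tLam m r L p k * tT m r D q k = tLam m r L p (k + 1) * tT m r D q (k + 1)
        + m (k + 1) • (tLam m r L p (k + 1) * (q (k + 1) - q k))
        - m (k + 1) • ((p (k + 1) - p k) * tT m r D q k) := by
      conv_lhs => rw [tLam_step (m := m) L p hk, Matrix.sub_mul, Matrix.smul_mul]
      conv_lhs => arg 1; rw [tT_step (m := m) D q hk, Matrix.mul_add, Matrix.mul_smul]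
    rw [e, ih, hs, add_sub_cancel_right]

theorem Stationary.root {L D : Matrix (Fin n) (Fin n) ℝ} {p q : ℕ → Matrix (Fin n) (Fin n) ℝ} (hm : Levels m r)
    (h : Stationary m r L D p q) :
    q 0 = tT m r D q 0 * p 0 * tT m r D q 0 := by
  have h0 := h.level 0 (Nat.zero_le r)
  simp only [cum, Finset.range_zero, Finset.sum_empty, hm.zero, zero_smul, sub_zero, add_zero] at h0
  have e : tT m r D q 0 * tLam m r L p 0 = 1 :=
    mul_eq_one_comm.1 (h.mul_eq_one hm 0 (Nat.zero_le r))
  rw [Matrix.mul_assoc, ← h0, ← Matrix.mul_assoc, e, Matrix.one_mul]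

end Vale.Agent.P166.Formula
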